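import Vale.Agent.P148.R2.H251.W3e
import Vale.Agent.P148.R2.H897.CalClose

/-!
# P148, row CAL: what the strand of the frozen face sees

`Path3` in time form. Let `f 1, …, f (m-1)` be the class of `q` without `q`. On the strand of `q`
the members `f i` have times between those of `f 1` and `f (m-1)`; strictly after `f 1` and up to
`f (m-1)` the left vertices are free, and a frozen right vertex is a vertex of the main cycle in the
third arc. Hence a colouring of the plane agrees with the colouring of the world on this piece of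
the strand as soon as it has the colours of the world on the free vertices, at `src (c i₁)` and at
the vertices of the third arc which are seen.
-/

open Function
open Vale.Agent.P148.R2.H258 Vale.Agent.P148.R2.H258.Tri Vale.Agent.P148.R2.H659
  Vale.Agent.P148.R2.H871 Vale.Agent.P148.R2.H953 Vale.Agent.P148.R2.H897

namespace Vale.Agent.P148.R2.H251

variable {V V1 V3 D : Type*}
variable {T : Tri V D} {T3 : Tri V3 D} {π : V → V1} {O : V1} {w : V → Bool} {c : ℕ → D}
  {n s₁ s₂ : ℕ} {S : Fin 3 → Set V} {π3 : V → V3} {lab : Fin 3 → V3}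

/-- Times of the class. -/
theorem Path3.times [Finite D] {σ : V3 → Bool} {q : D} {α β : Fin 3} {m : ℕ} {f : ℕ → D} {j₁ i₁ : ℕ}
    (hp : Path3 T T3 π O c n s₁ s₂ σ q α β m f j₁ i₁) : ∃ N,
      (∀ i, 1 ≤ i → i < m → ∃ k ≤ N, (T3.st σ)^[k] (f 1) = f i) ∧
      (T3.st σ)^[N] (f 1) = f (m - 1) ∧
      ∀ k, 0 < k → k ≤ N → T3.src ((T3.st σ)^[k] (f 1)) ≠ T3.src q ∧
        T3.src ((T3.st σ)^[k] (f 1)) ≠ T3.apex q := by
  have h2 := hp.two
  have hmq : T3.Mi σ q := by
    have := hp.mi3 0 (by omega)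
    rwa [hp.zero] at this
  set L := minimalPeriod (T3.st σ) q with hL
  have hL0 : 0 < L := T3.pos_period σ q
  have hex : ∀ i, ∃ t, i < m → t < L ∧ (T3.st σ)^[t] q = f i ∧ T3.Disj σ q t := by
    intro i
    by_cases hi : i < m
    · obtain ⟨-, -, t, h3, h4, h5⟩ := (hp.rel (f i)).2 ⟨i, hi, rfl⟩
      exact ⟨t, fun _ => ⟨h3, h4, h5⟩⟩
    · exact ⟨0, fun h => absurd h hi⟩
  choose t ht using hex
  have e1 : T3.src (f 1) = T3.apex q := by
    have := hp.next3 0 (by omega)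
    rwa [hp.zero] at this
  have e2 : T3.apex (f (m - 1)) = T3.src q := by
    have := hp.next3 (m - 1) (by omega)
    rw [Nat.sub_add_cancel (by omega), hp.last3] at this
    exact this.symm
  have e3 : T3.src ((T3.st σ)^[1] q) = T3.apex q := by rw [iterate_one, T3.src_st_mi hmq]
  have hLq : T3.src ((T3.st σ)^[L] q) = T3.src q := by rw [hL, iterate_minimalPeriod]
  have hpos : ∀ i, 1 ≤ i → i < m → 1 ≤ t i := by
    intro i h3 h4
    rcases Nat.eq_zero_or_pos (t i) with h5 | h5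
    · have h6 := (ht i h4).2.1
      rw [h5] at h6
      have h7 := hp.inj3 i h4 0 (by omega) (by rw [hp.zero, ← h6]; rfl)
      omega
    · exact h5
  obtain ⟨a1, a2, a3⟩ := ht 1 (by omega)
  obtain ⟨b1, b2, b3⟩ := ht (m - 1) (by omega)
  have hle : ∀ i, 1 ≤ i → i < m → t 1 ≤ t i := by
    intro i h3 h4
    by_contra hcon
    push Not at hcon
    obtain ⟨c1, c2, c3⟩ := ht i h4
    exact c3 1 (t 1) le_rfl (hpos i h3 h4) hcon a1.le (by rw [e3, a2, e1])
  have hge : ∀ i, 1 ≤ i → i < m → t i ≤ t (m - 1) := by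
    intro i h3 h4
    by_contra hcon
    push Not at hcon
    obtain ⟨c1, c2, c3⟩ := ht i h4
    refine c3 (t (m - 1) + 1) L (by omega) (by omega) c1 le_rfl ?_
    rw [hLq, iterate_succ', comp_apply, b2, T3.src_st_mi (hp.mi3 (m - 1) (by omega)), e2]
  have hsh : ∀ k, (T3.st σ)^[k] (f 1) = (T3.st σ)^[t 1 + k] q := by
    intro k; rw [← a2, ← iterate_add_apply, add_comm]
  refine ⟨t (m - 1) - t 1, ?_, ?_, ?_⟩
  · intro i h3 h4
    have h5 := hle i h3 h4
    have h6 := hge i h3 h4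
    refine ⟨t i - t 1, by omega, ?_⟩
    rw [hsh, show t 1 + (t i - t 1) = t i by omega]
    exact (ht i h4).2.1
  · have h5 := hge 1 le_rfl (by omega)
    rw [hsh, show t 1 + (t (m - 1) - t 1) = t (m - 1) by omega]
    exact b2
  · intro k hk0 hk
    have h5 := hge 1 le_rfl (by omega)
    rw [hsh]
    constructor
    · intro hh
      exact b3 (t 1 + k) L (by omega) (by omega) b1 le_rfl (by rw [hh, hLq])
    · intro hh
      refine a3 (t 1) (t 1 + k) (hpos 1 le_rfl (by omega)) le_rfl (by omega) (by omega) ?_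
      rw [hh, a2, e1]

namespace W3

variable (hW : W3 T T3 π O w c n s₁ s₂ S π3 lab)
include hW

/-- The third class. -/
theorem third {q : D} (hq : T3.Good q) {α β γ : Fin 3} (ha : T.src q ∈ S α) (hb : T.apex q ∈ S β)
    (hc : T.tgt q ∈ S γ) (j : Fin 3) : j = α ∨ j = β ∨ j = γ := by
  have hab : α ≠ β := by
    rintro rfl
    exact hq.2.2 (by rw [hW.apex3 hb, hW.src3 ha])
  have hbc : β ≠ γ := by
    rintro rfl
    exact hq.2.1 (by rw [hW.tgt3 hc, hW.apex3 hb])
  have hca : γ ≠ α := by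
    rintro rfl
    exact hq.1 (by rw [hW.src3 ha, hW.tgt3 hc])
  have hdec : ∀ α β γ : Fin 3, α ≠ β → β ≠ γ → γ ≠ α → ∀ j : Fin 3, j = α ∨ j = β ∨ j = γ := by
    decide
  exact hdec α β γ hab hbc hca j

/-- **What the strand sees between `f 1` and `f (m-1)`.** -/
theorem seen [Finite D] {σ : V3 → Bool} {q : D} (hq : T3.InFace (c (s₁ - 1)) q) {α β γ : Fin 3}
    (ha : T.src q ∈ S α) (hb : T.apex q ∈ S β) (hc : T.tgt q ∈ S γ) {m : ℕ} {f : ℕ → D} {j₁ i₁ : ℕ}
    (hp : Path3 T T3 π O c n s₁ s₂ σ q α β m f j₁ i₁) : ∃ N,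
      (∀ i, 1 ≤ i → i < m → ∃ k ≤ N, (T3.st σ)^[k] (f 1) = f i) ∧
      (T3.st σ)^[N] (f 1) = f (m - 1) ∧
      (∀ k, 0 < k → k ≤ N → π (T.src ((T3.st σ)^[k] (f 1))) ≠ O) ∧
      (∀ k ≤ N, π (T.tgt ((T3.st σ)^[k] (f 1))) ≠ O ∨
        ∃ i < n, InArc s₁ s₂ n γ i ∧ T.tgt ((T3.st σ)^[k] (f 1)) = T.src (c i)) := by
  obtain ⟨N, a1, a2, a3⟩ := hp.times
  have h2 := hp.two
  have hgo := hW.good_o
  have hgq : T3.Good q := by
    rcases hq with rfl | rfl | rfl
    · exact hgo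
    · exact hgo.nxt
    · exact hgo.nxt.nxt
  have hmq : T3.Mi σ q := by
    have := hp.mi3 0 (by omega)
    rwa [hp.zero] at this
  have hb1 : T3.Bi σ (f 1) := (hp.mi3 1 (by omega)).bi
  have hc1 := T3.rel_col ((hp.rel (f 1)).2 ⟨1, by omega, rfl⟩)
  have hcs : ∀ k, σ (T3.src ((T3.st σ)^[k] (f 1))) = σ (T3.src q) := fun k => by
    rw [T3.col_src_iter σ]; exact hc1.1
  have hct : ∀ k, σ (T3.tgt ((T3.st σ)^[k] (f 1))) = σ (T3.tgt q) := fun k => by
    rw [T3.col_tgt_iter σ]; exact hc1.2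
  have hsf : ∀ k, 0 < k → k ≤ N → π (T.src ((T3.st σ)^[k] (f 1))) ≠ O := by
    intro k h3 h4 h5
    obtain ⟨j, hj⟩ := hW.exists_cls h5
    have h6 := hW.src3 hj
    obtain ⟨b1, b2⟩ := a3 k h3 h4
    rcases hW.third hgq ha hb hc j with rfl | rfl | rfl
    · exact b1 (by rw [h6, hW.src3 ha])
    · exact b2 (by rw [h6, hW.apex3 hb])
    · have h7 := hcs k
      rw [h6, ← hW.tgt3 hc] at h7
      exact hmq.1 h7.symm
  have hlabt : ∀ k, ∀ j, T.tgt ((T3.st σ)^[k] (f 1)) ∈ S j → j = γ := by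
    intro k j hj
    have h6 := hW.tgt3 hj
    have h7 := hct k
    rw [h6] at h7
    rcases hW.third hgq ha hb hc j with rfl | rfl | rfl
    · rw [← hW.src3 ha] at h7
      exact absurd h7 hmq.1
    · rw [← hW.apex3 hb, hmq.2] at h7
      exact absurd h7 hmq.1
    · rfl
  refine ⟨N, a1, a2, hsf, fun k hk => ?_⟩
  by_cases h5 : π (T.tgt ((T3.st σ)^[k] (f 1))) = O
  · right
    obtain ⟨j, hj⟩ := hW.exists_cls h5
    obtain rfl := hlabt k j hj
    rcases Nat.eq_zero_or_pos k with h3 | h3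
    · subst h3
      change T.tgt (f 1) ∈ S j at hj
      have hne : f 1 ≠ q := by
        intro hh
        have := hp.inj3 1 (by omega) 0 (by omega) (by rw [hh, hp.zero])
        omega
      have hnf : ¬ T3.InFace (c (s₁ - 1)) (f 1) := fun hh =>
        inFace_of_mi T3 hmq (hp.mi3 1 (by omega)) hne (inFace_trans (inFace_symm hq) hh)
      obtain ⟨i, hi, h6, h7⟩ := hW.contact_good (g := T3.nxt (f 1)) (j := j)
        (hp.good3 1 (by omega)).nxt (by rw [T3.inFace_nxt]; exact hnf)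
        (by rw [T3.src_nxt', hW.tgt3 hj])
      rw [hW.contr.nxt, T.src_nxt'] at h7
      exact ⟨i, hi, h6, h7⟩
    · obtain ⟨i, hi, h6, h7⟩ := hW.contact (e := T.rev ((T3.st σ)^[k] (f 1))) (j := j)
        (by rw [T.src_rev]; exact hj) (by rw [T.tgt_rev]; exact hsf k h3 hk)
      rw [T.src_rev] at h7
      exact ⟨i, hi, h6, h7⟩
  · exact Or.inl h5

/-- Agreement of a plane colouring with the colouring of the world. -/
theorem agree {σ : V3 → Bool} {q : D} {α β γ : Fin 3} (ha : T.src q ∈ S α)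
    (hc : T.tgt q ∈ S γ) {m : ℕ} {f : ℕ → D} {j₁ i₁ : ℕ}
    (hp : Path3 T T3 π O c n s₁ s₂ σ q α β m f j₁ i₁) {N : ℕ}
    (hs : ∀ k, 0 < k → k ≤ N → π (T.src ((T3.st σ)^[k] (f 1))) ≠ O)
    (ht : ∀ k ≤ N, π (T.tgt ((T3.st σ)^[k] (f 1))) ≠ O ∨
        ∃ i < n, InArc s₁ s₂ n γ i ∧ T.tgt ((T3.st σ)^[k] (f 1)) = T.src (c i))
    {τ : V → Bool} (hfr : ∀ v, π v ≠ O → τ v = σ (π3 v)) (hx : τ (T.src (c i₁)) = σ (lab α))
    (hγ : ∀ i < n, InArc s₁ s₂ n γ i → (∃ k ≤ N, T.tgt ((T3.st σ)^[k] (f 1)) = T.src (c i)) →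
      τ (T.src (c i)) = σ (lab γ)) : AgreeTo T T3 τ σ (f 1) N := by
  have h2 := hp.two
  have hc1 := T3.rel_col ((hp.rel (f 1)).2 ⟨1, by omega, rfl⟩)
  intro k hk
  constructor
  · rcases Nat.eq_zero_or_pos k with h3 | h3
    · subst h3
      change τ (T.src (f 1)) = σ (T3.src (f 1))
      rw [hp.start, hx, hc1.1, hW.src3 ha]
    · rw [hfr _ (hs k h3 hk), ← hW.contr.src]
  · rcases ht k hk with h5 | ⟨i, hi, h6, h7⟩
    · rw [hfr _ h5, ← hW.contr.tgt]
    · rw [h7, hγ i hi h6 ⟨k, hk, h7⟩, T3.col_tgt_iter σ, hc1.2, hW.tgt3 hc]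

/-- The closing chain. -/
def chainH (c : ℕ → D) (n j₁ i₁ : ℕ) : List D :=
  (List.range (gapL n j₁ i₁)).map fun k => cy c n (j₁ + k)

omit hW in
theorem mem_chainH {c : ℕ → D} {n j₁ i₁ : ℕ} {e : D} :
    e ∈ chainH c n j₁ i₁ ↔ ∃ k < gapL n j₁ i₁, cy c n (j₁ + k) = e := by
  unfold chainH
  simp

omit hW in
theorem sum_chainH {c : ℕ → D} {n j₁ i₁ : ℕ} (Θ : D → ℂ) :
    ((chainH c n j₁ i₁).map Θ).sum = ∑ k ∈ Finset.range (gapL n j₁ i₁), Θ (cy c n (j₁ + k)) := by
  unfold chainH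
  rw [List.map_map]
  induction gapL n j₁ i₁ with
  | zero => simp
  | succ L ih =>
    rw [List.range_succ, List.map_append, List.sum_append, ih, Finset.sum_range_succ]
    simp

theorem injOff3 {q : D} (hq : T3.InFace (c (s₁ - 1)) q) : InjOff3 π3 T3 q := by
  intro v v' h1 h2 h3 h4
  obtain ⟨a1, a2, a3⟩ := hW.o_corners
  by_cases h5 : π v = O
  · exfalso
    obtain ⟨j, hj⟩ := hW.exists_cls h5
    have h6 := (hW.mem _ _).2 hj
    have key : ∀ j : Fin 3, lab j = T3.src q ∨ lab j = T3.tgt q ∨ lab j = T3.apex q := by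
      intro j
      have h7 : j = 0 ∨ j = 1 ∨ j = 2 := (by decide : ∀ j : Fin 3, j = 0 ∨ j = 1 ∨ j = 2) j
      rcases hq with rfl | rfl | rfl
      · rw [hW.src3 a1, hW.tgt3 a2, hW.apex3 a3]
        rcases h7 with rfl | rfl | rfl
        · exact Or.inr (Or.inl rfl)
        · exact Or.inl rfl
        · exact Or.inr (Or.inr rfl)
      · rw [T3.src_nxt', T3.tgt_nxt, T3.apex_nxt, hW.src3 a1, hW.tgt3 a2, hW.apex3 a3]
        rcases h7 with rfl | rfl | rfl
        · exact Or.inl rfl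
        · exact Or.inr (Or.inr rfl)
        · exact Or.inr (Or.inl rfl)
      · rw [T3.src_nxt2, T3.tgt_nxt2, T3.apex_nxt2, hW.src3 a1, hW.tgt3 a2, hW.apex3 a3]
        rcases h7 with rfl | rfl | rfl
        · exact Or.inr (Or.inr rfl)
        · exact Or.inr (Or.inl rfl)
        · exact Or.inl rfl
    rcases key j with h8 | h8 | h8
    · exact h2 (by rw [h6, h8])
    · exact h3 (by rw [h6, h8])
    · exact h4 (by rw [h6, h8])
  · exact hW.inj _ _ h5 h1

/-- **The closed class of the frozen face**, in the form of helper897. -/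
theorem closed3 [Finite D] {σ : V3 → Bool} {q : D} (hq : T3.InFace (c (s₁ - 1)) q)
    (hm : T3.Mi σ q) {α β γ : Fin 3} (ha : T.src q ∈ S α) (hb : T.apex q ∈ S β)
    (hc : T.tgt q ∈ S γ) : ∃ m f j₁ i₁ N, Path3 T T3 π O c n s₁ s₂ σ q α β m f j₁ i₁ ∧
      (T3.st σ)^[N] (f 1) = f (m - 1) ∧
      (∀ k, 0 < k → k ≤ N → π (T.src ((T3.st σ)^[k] (f 1))) ≠ O) ∧
      (∀ k ≤ N, π (T.tgt ((T3.st σ)^[k] (f 1))) ≠ O ∨
        ∃ i < n, InArc s₁ s₂ n γ i ∧ T.tgt ((T3.st σ)^[k] (f 1)) = T.src (c i)) ∧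
      ∀ τ : V → Bool, (∀ v, π v ≠ O → τ v = σ (π3 v)) → τ (T.src (c i₁)) = σ (lab α) →
        τ (T.src (c j₁)) = σ (lab α) →
        (∀ i < n, InArc s₁ s₂ n γ i → (∃ k ≤ N, T.tgt ((T3.st σ)^[k] (f 1)) = T.src (c i)) →
          τ (T.src (c i)) = σ (lab γ)) →
        (∀ k < gapL n j₁ i₁, T.Mi τ (cy c n (j₁ + k)) ∧
          H838.Joined T τ (τ (T.tgt (f 1))) Set.univ (T.tgt (f 1)) (T.tgt (cy c n (j₁ + k)))) →
        Closed3 T T3 π3 σ τ q (f 1) (f (m - 1)) N (chainH c n j₁ i₁) := by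
  obtain ⟨m, f, j₁, i₁, hp⟩ := hW.exists_path hq hm ha hb hc
  obtain ⟨N, a1, a2, a3, a4⟩ := hW.seen hq ha hb hc hp
  refine ⟨m, f, j₁, i₁, N, hp, a2, a3, a4, ?_⟩
  intro τ hfr hx hy hγ hH
  have h2 := hp.two
  have hgo := hW.good_o
  have hgq : T3.Good q := by
    rcases hq with rfl | rfl | rfl
    · exact hgo
    · exact hgo.nxt
    · exact hgo.nxt.nxt
  have hn := hW.ring.pos
  have hαβ : α ≠ β := by
    rintro rfl
    exact hgq.2.2 (by rw [hW.apex3 hb, hW.src3 ha])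
  set L := gapL n j₁ i₁ with hL
  have hL0 : 0 < L := gapL_pos hp.hi hp.hj (hW.arcs_ne hαβ hp.ai hp.aj)
  have hLn : L < n := gapL_lt hn
  have hfroz : ∀ k, π (T.src (cy c n k)) = O := fun k =>
    (hW.ring.fib (Nat.mod_lt _ hn)).1
  have e1 : T3.src (f 1) = T3.apex q := by
    have := hp.next3 0 (by omega)
    rwa [hp.zero] at this
  have e2 : T3.apex (f (m - 1)) = T3.src q := by
    have := hp.next3 (m - 1) (by omega)
    rw [Nat.sub_add_cancel (by omega), hp.last3] at this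
    exact this.symm
  refine {
    mi := hm
    good := hgq.2.2
    inj := hW.injOff3 hq
    memd := (hp.rel _).2 ⟨1, by omega, rfl⟩
    srcd := e1
    memg := (hp.rel _).2 ⟨m - 1, by omega, rfl⟩
    apexg := e2
    span := ?_
    agree := hW.agree ha hc hp a3 a4 hfr hx hγ
    coly := by rw [hp.stop, hy, hW.src3 ha]
    miH := ?_
    frz := ?_
    nodup := ?_
    notmem := ?_
    chain := ?_
    walk := ?_ }
  · intro e he hne
    obtain ⟨i, hi, rfl⟩ := (hp.rel e).1 he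
    refine a1 i ?_ hi
    rcases Nat.eq_zero_or_pos i with h3 | h3
    · subst h3; exact absurd hp.zero hne
    · exact h3
  · intro e he
    obtain ⟨k, hk, rfl⟩ := mem_chainH.1 he
    exact (hH k hk).1
  · intro e he
    obtain ⟨k, hk, rfl⟩ := mem_chainH.1 he
    obtain ⟨j, hj⟩ := hW.exists_cls (hfroz (j₁ + k))
    have h6 := (hW.mem _ _).2 hj
    rcases hW.third hgq ha hb hc j with rfl | rfl | rfl
    · exact Or.inl (by rw [h6, hW.src3 ha])
    · exact Or.inr (Or.inr (by rw [h6, hW.apex3 hb]))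
    · exact Or.inr (Or.inl (by rw [h6, hW.tgt3 hc]))
  · unfold chainH
    rw [List.map_map, List.nodup_map_iff_inj_on List.nodup_range]
    intro k hk k' hk' hkk
    rw [List.mem_range] at hk hk'
    simp only [comp_apply] at hkk
    have := cy_inj hW.ring (a := j₁) (by omega) (by omega) (by omega) (by omega) hkk
    omega
  · intro hh
    rw [List.mem_map] at hh
    obtain ⟨e, he, h3⟩ := hh
    obtain ⟨k, hk, rfl⟩ := mem_chainH.1 he
    have h4 : T.src (cy c n (j₁ + L)) = T.src (cy c n (j₁ + k)) := by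
      rw [h3, hp.start]
      unfold cy
      rw [hL, gapL_end hp.hi hp.hj]
    have := cy_inj hW.ring (a := j₁) (by omega) (by omega) (by omega) (by omega) h4
    omega
  · -- chain
    rw [List.isChain_iff_getElem]
    intro i hi
    have hlen : (f (m - 1) :: chainH c n j₁ i₁ ++ [f 1]).length = L + 2 := by
      simp [chainH, ← hL]
    have hi' : i + 1 < L + 2 := by rw [← hlen]; exact hi
    have g0 : ∀ (h : 0 < (f (m - 1) :: chainH c n j₁ i₁ ++ [f 1]).length),
        (f (m - 1) :: chainH c n j₁ i₁ ++ [f 1])[0] = f (m - 1) := fun _ => rfl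
    have g1 : ∀ k < L, ∀ (h : k + 1 < (f (m - 1) :: chainH c n j₁ i₁ ++ [f 1]).length),
        (f (m - 1) :: chainH c n j₁ i₁ ++ [f 1])[k + 1] = cy c n (j₁ + k) := by
      intro k hk h
      simp only [List.cons_append, List.getElem_cons_succ]
      rw [List.getElem_append_left (by simp [chainH, ← hL]; exact hk)]
      simp [chainH]
    have g2 : ∀ (h : L + 1 < (f (m - 1) :: chainH c n j₁ i₁ ++ [f 1]).length),
        (f (m - 1) :: chainH c n j₁ i₁ ++ [f 1])[L + 1] = f 1 := by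
      intro h
      simp only [List.cons_append, List.getElem_cons_succ]
      rw [List.getElem_append_right (by simp [chainH, ← hL])]
      simp
    rcases Nat.eq_zero_or_pos i with h3 | h3
    · subst h3
      have h4 := g1 0 hL0 (by rw [hlen]; omega)
      simp only [zero_add] at h4 ⊢
      rw [g0, h4, hp.stop]
      unfold cy
      rw [add_zero, Nat.mod_eq_of_lt hp.hj]
    · obtain ⟨k, rfl⟩ : ∃ k, i = k + 1 := ⟨i - 1, by omega⟩
      rw [g1 k (by omega)]
      rcases Nat.lt_or_ge (k + 1) L with h4 | h4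
      · rw [g1 (k + 1) h4, ← add_assoc, cy_next hW.ring]
      · have h5 : k + 1 = L := by omega
        have h6 : (f (m - 1) :: chainH c n j₁ i₁ ++ [f 1])[k + 1 + 1] = f 1 := by
          have := g2 (by rw [hlen]; omega)
          simp only [← h5] at this
          exact this
        rw [h6, ← cy_next hW.ring, hp.start, add_assoc, h5]
        unfold cy
        rw [hL, gapL_end hp.hi hp.hj]
  · intro e he
    obtain ⟨k, hk, rfl⟩ := mem_chainH.1 he
    exact (hH k hk).2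

end W3

end Vale.Agent.P148.R2.H251
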