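import Vale.Agent.P148.R2.H251.W3h

/-!
# P148, row CAL: the calibration inequality of one world

In each of the three patterns the value of the class of the frozen face is `u - v`, where `u` is the
value of a plane class and `v` the value of the closing chain, `v` is close to `-z` times the
displacement, except on a bad event.
-/

set_option linter.unusedSectionVars false

open Set Function Relation
open scoped Classical
open Vale.Agent.P148.R2.H258 Vale.Agent.P148.R2.H258.Tri Vale.Agent.P148.R2.H659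
  Vale.Agent.P148.R2.H871 Vale.Agent.P148.R2.H953 Vale.Agent.P148.R2.H592
  Vale.Agent.P148.R2.H184 Vale.Agent.P148.R2.H203 Vale.Agent.P148.R2.H910
open Vale.Agent.P148.R2.H400 (TP TB piB secB piB_eq_iff contrB src_TP tgt_TP nbr_dt)

namespace Vale.Agent.P148.R2.H251

section cs

variable {V : Type*} [Fintype V]

theorem ex_sqrt_le {f : (V → Bool) → ℝ} (hf : ∀ σ, 0 ≤ f σ) {t : ℝ} (h : ex f ≤ t) :
    (ex fun σ => Real.sqrt (f σ)) ≤ Real.sqrt t := by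
  have h1 := sq_ex_le (fun σ => Real.sqrt (f σ))
  have h2 : (ex fun σ => Real.sqrt (f σ) ^ 2) = ex f := ex_congr fun σ => Real.sq_sqrt (hf σ)
  rw [h2] at h1
  exact Real.le_sqrt_of_sq_le (h1.trans h)

/-- Cauchy-Schwarz on an event. -/
theorem ex_ite_le {p : (V → Bool) → Prop} {f : (V → Bool) → ℝ} {t E : ℝ}
    (hp : pr p ≤ t) (hE : (ex fun σ => f σ ^ 2) ≤ E) :
    (ex fun σ => if p σ then f σ else 0) ≤ Real.sqrt t * Real.sqrt E := by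
  have h1 := ex_mul_sq_le (fun σ => if p σ then (1 : ℝ) else 0) f
  have e1 : (ex fun σ => (if p σ then (1 : ℝ) else 0) * f σ) = ex fun σ => if p σ then f σ else 0 :=
    ex_congr fun σ => by split_ifs <;> simp
  have e2 : (ex fun σ => (if p σ then (1 : ℝ) else 0) ^ 2) = pr p := by
    rw [pr_eq']
    exact ex_congr fun σ => by split_ifs <;> simp
  rw [e1, e2] at h1
  have h2 : 0 ≤ pr p := pr_nonneg p
  have h3 : 0 ≤ ex fun σ => f σ ^ 2 := ex_nonneg fun σ => sq_nonneg _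
  have h4 : (ex fun σ => if p σ then f σ else 0) ^ 2 ≤ (Real.sqrt t * Real.sqrt E) ^ 2 := by
    rw [mul_pow, Real.sq_sqrt (h2.trans hp), Real.sq_sqrt (h3.trans hE)]
    exact h1.trans (mul_le_mul hp hE h3 (h2.trans hp))
  exact le_of_sq_le_sq h4 (by positivity)

/-- One pattern. -/
theorem one_pattern {p : (V → Bool) → Prop} {F D : (V → Bool) → ℂ} {z : ℂ}
    {MQ DV : (V → Bool) → ℝ} (hMQ : ∀ s, 0 ≤ MQ s) (hDV : ∀ s, 0 ≤ DV s)
    (hk : ∀ s, p s ∨ ∃ u v : ℂ, F s = u - v ∧ ‖u‖ ^ 2 ≤ MQ s ∧ ‖v + z * D s‖ ^ 2 ≤ DV s)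
    {D0 E t t' t'' : ℝ} (hD : ∀ s, ‖D s‖ ≤ D0) (hE : (ex fun s => ‖F s‖ ^ 2) ≤ E)
    (h1 : ex MQ ≤ t) (h2 : ex DV ≤ t') (h3 : pr p ≤ t'') :
    (ex fun s => ‖F s - z * D s‖) ≤
      Real.sqrt t + Real.sqrt t' + Real.sqrt t'' * Real.sqrt (2 * E + 2 * (‖z‖ ^ 2 * D0 ^ 2)) := by
  have hpt : ∀ s, ‖F s - z * D s‖ ≤ (Real.sqrt (MQ s) + Real.sqrt (DV s)) +
      (if p s then ‖F s - z * D s‖ else 0) := by
    intro s
    by_cases hp : p s
    · rw [if_pos hp]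
      have := Real.sqrt_nonneg (MQ s)
      have := Real.sqrt_nonneg (DV s)
      linarith
    · rw [if_neg hp, add_zero]
      rcases hk s with h | ⟨u, v, e1, e2, e3⟩
      · exact absurd h hp
      · have e4 : F s - z * D s = u - (v + z * D s) := by rw [e1]; ring
        rw [e4]
        refine (norm_sub_le _ _).trans (add_le_add ?_ ?_)
        · exact Real.le_sqrt_of_sq_le e2
        · exact Real.le_sqrt_of_sq_le e3
  refine (ex_mono hpt).trans ?_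
  rw [ex_add, ex_add]
  refine add_le_add (add_le_add (ex_sqrt_le hMQ h1) (ex_sqrt_le hDV h2)) (ex_ite_le h3 ?_)
  have h4 : (ex fun s => ‖F s - z * D s‖ ^ 2) ≤
      ex fun s => 2 * ‖F s‖ ^ 2 + 2 * (‖z‖ ^ 2 * D0 ^ 2) := by
    apply ex_mono
    intro s
    have a1 : ‖F s - z * D s‖ ≤ ‖F s‖ + ‖z‖ * D0 := by
      refine (norm_sub_le _ _).trans (add_le_add le_rfl ?_)
      rw [norm_mul]
      exact mul_le_mul_of_nonneg_left (hD s) (norm_nonneg _)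
    have a2 : 0 ≤ ‖F s - z * D s‖ := norm_nonneg _
    nlinarith [sq_nonneg (‖F s‖ - ‖z‖ * D0)]
  refine h4.trans ?_
  rw [ex_add, ex_smul, ex_const]
  linarith

end cs

section world

variable {X : Set ℂ} {b : ZMod 3 → ℂ} {h : HullTri X b} {x₀ : X} {B : Set ℂ}
  {O3 : Fin 3 → Set ℂ} {h3 : Three3 X B O3} {w : X → Bool} {c : ℕ → Fc X b × ZMod 3} {n s₁ s₂ : ℕ}
  (hW : W3 (TP h x₀) (TC h h3) (piB X B) (Sum.inl ()) w c n s₁ s₂
      (fun j => {v : X | v.1 ∈ O3 j}) (pi3 X O3) Sum.inl)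

variable [Fintype X] [Fintype (CV X O3)] [Fintype (Fc X b × ZMod 3)]
include hW

/-- **The calibration inequality of one world.** -/
theorem world_cal {pos : X → ℂ} {W δ : ℝ} (hδ : 0 ≤ δ) (hW0 : 0 ≤ W)
    (hp : ArcPos (TP h x₀) c n s₁ s₂ pos W δ) {τ : ℂ} (hτ : τ ^ 2 + τ + 1 = 0) (hi : 0 < τ.im)
    {r : ℝ} (hr : 0 ≤ r)
    (hbad : (pr fun s : X → Bool => ∃ g, (TC h h3).Rel (patt X O3 2 s)
      ((TC h h3).nxt (c (s₁ - 1))) g ∧ g ≠ (TC h h3).nxt (c (s₁ - 1)) ∧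
      (TC h h3).src g = Sum.inl 1 ∧ (pos ((TP h x₀).src g)).re < r) ≤ 1 / 2)
    {Θ : Dt → ℂ} (hΘ : ∀ d, Θ (rt d) = τ ^ 2 * Θ d) {z : ℂ}
    {Bad : Fin 3 → (X → Bool) → Prop} {MQ DV : Fin 3 → (X → Bool) → ℝ}
    (hMQ : ∀ γ s, 0 ≤ MQ γ s) (hDV : ∀ γ s, 0 ≤ DV γ s)
    (hk : ∀ q, (TC h h3).InFace (c (s₁ - 1)) q → ∀ γ, ((TP h x₀).tgt q).1 ∈ O3 γ →
      ∀ s : X → Bool, Bad γ s ∨ ∃ u v : ℂ,
        (TC h h3).cls (patt X O3 γ s) q (th3 h h3 (c (s₁ - 1)) Θ) = u - v ∧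
        ‖u‖ ^ 2 ≤ MQ γ s ∧
        ‖v + z * ds (TC h h3) (fun d => pos ((TP h x₀).src d)) (patt X O3 γ s) q‖ ^ 2 ≤ DV γ s)
    {D0 E t t' t'' : ℝ}
    (hD : ∀ q, (TC h h3).InFace (c (s₁ - 1)) q → ∀ γ, ((TP h x₀).tgt q).1 ∈ O3 γ →
      ∀ s : X → Bool, ‖ds (TC h h3) (fun d => pos ((TP h x₀).src d)) (patt X O3 γ s) q‖ ≤ D0)
    (hE : ∑ d, ‖th3 h h3 (c (s₁ - 1)) Θ d‖ ^ 2 ≤ E)
    (h1 : ∀ γ, ex (MQ γ) ≤ t) (h2 : ∀ γ, ex (DV γ) ≤ t') (h4 : ∀ γ, pr (Bad γ) ≤ t'') :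
    ‖z‖ * (r / 4 - 10 * δ) ≤
      3 * (Real.sqrt t + Real.sqrt t' + Real.sqrt t'' * Real.sqrt (2 * E + 2 * (‖z‖ ^ 2 * D0 ^ 2))) := by
  have key := cal3_patt hW hδ hW0 hp hτ hi hr (ε := 1 / 2) hbad hΘ (z := z)
    (ε' := Real.sqrt t + Real.sqrt t' + Real.sqrt t'' *
      Real.sqrt (2 * E + 2 * (‖z‖ ^ 2 * D0 ^ 2))) ?_
  · have e1 : (1 - 1 / 2) * (r / 2) = r / 4 := by ring
    rwa [e1] at key
  · intro q hq γ hγ
    exact one_pattern (hMQ γ) (hDV γ) (hk q hq γ hγ) (hD q hq γ hγ)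
      ((ex_cls_sq_le hW hτ hΘ hq hγ).trans hE) (h1 γ) (h2 γ) (h4 γ)

/-- The displacement is bounded. -/
theorem ds_le {pos : X → ℂ} {D0 : ℝ} (hpos : ∀ i < n, ∀ j < n,
    ‖pos ((TP h x₀).src (c j)) - pos ((TP h x₀).src (c i))‖ ≤ D0) {σ : CV X O3 → Bool}
    {q : Fc X b × ZMod 3} (hq : (TC h h3).InFace (c (s₁ - 1)) q) :
    ‖ds (TC h h3) (fun d => pos ((TP h x₀).src d)) σ q‖ ≤ D0 := by
  have hn := hW.ring.pos
  by_cases hm : (TC h h3).Mi σ q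
  · obtain ⟨a1, a2, a3⟩ := hW.o_corners
    have hlab : ∃ α β γ : Fin 3, (TP h x₀).src q ∈ {v : X | v.1 ∈ O3 α} ∧
        (TP h x₀).apex q ∈ {v : X | v.1 ∈ O3 β} ∧ (TP h x₀).tgt q ∈ {v : X | v.1 ∈ O3 γ} := by
      rcases hq with rfl | rfl | rfl
      · exact ⟨1, 2, 0, a1, a3, a2⟩
      · refine ⟨0, 1, 2, ?_, ?_, ?_⟩
        · have : (TP h x₀).src ((TC h h3).nxt (c (s₁ - 1))) = (TP h x₀).tgt (c (s₁ - 1)) :=
            (TP h x₀).src_nxt' _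
          rw [this]; exact a2
        · have : (TP h x₀).apex ((TC h h3).nxt (c (s₁ - 1))) = (TP h x₀).src (c (s₁ - 1)) :=
            (TP h x₀).apex_nxt _
          rw [this]; exact a1
        · have : (TP h x₀).tgt ((TC h h3).nxt (c (s₁ - 1))) = (TP h x₀).apex (c (s₁ - 1)) :=
            (TP h x₀).tgt_nxt _
          rw [this]; exact a3
      · refine ⟨2, 0, 1, ?_, ?_, ?_⟩
        · have : (TP h x₀).src ((TC h h3).nxt ((TC h h3).nxt (c (s₁ - 1)))) =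
              (TP h x₀).apex (c (s₁ - 1)) := (TP h x₀).src_nxt2 _
          rw [this]; exact a3
        · have : (TP h x₀).apex ((TC h h3).nxt ((TC h h3).nxt (c (s₁ - 1)))) =
              (TP h x₀).tgt (c (s₁ - 1)) := (TP h x₀).apex_nxt2 _
          rw [this]; exact a2
        · have : (TP h x₀).tgt ((TC h h3).nxt ((TC h h3).nxt (c (s₁ - 1)))) =
              (TP h x₀).src (c (s₁ - 1)) := (TP h x₀).tgt_nxt2 _
          rw [this]; exact a1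
    obtain ⟨α, β, γ, hα, hβ, hγ⟩ := hlab
    obtain ⟨m, f, j₁, i₁, hP⟩ := hW.exists_path hq hm hα hβ hγ
    rw [hP.ds_eq' hW.contr pos]
    exact hpos i₁ hP.hi j₁ hP.hj
  · rw [ds_not _ hm, norm_zero]
    exact (norm_nonneg _).trans (hpos 0 hn 0 hn)

end world

end Vale.Agent.P148.R2.H251
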