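import Vale.Agent.P148.R2.H251.W3e
import Vale.Agent.P148.R2.H565.Loc12
import Vale.Agent.P148.R2.H400.Flip9
import Vale.Agent.P148.R2.H897.CalClose

/-!
# P148, row CAL: the three-class world on the Delaunay triangulation
-/

set_option linter.unusedSectionVars false

open Set Function Relation
open Vale.Agent.P148.R2.H258 Vale.Agent.P148.R2.H258.Tri Vale.Agent.P148.R2.H659
  Vale.Agent.P148.R2.H871 Vale.Agent.P148.R2.H953 Vale.Agent.P148.R2.H592
  Vale.Agent.P148.R2.H184 Vale.Agent.P148.R2.H203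
open Vale.Agent.P148.R2.H400 (TP TB piB secB piB_eq_iff contrB src_TP tgt_TP nbr_dt)

namespace Vale.Agent.P148.R2.H251

section hull

variable {X : Set ℂ} {b : ZMod 3 → ℂ} (h : HullTri X b) (x₀ : X) {B : Set ℂ}

/-- The points of a set of vertices. -/
def pts' (S : Set X) : Set ℂ := Subtype.val '' S

theorem mem_pts' {S : Set X} {x : X} : x.1 ∈ pts' S ↔ x ∈ S :=
  ⟨fun ⟨y, hy, hxy⟩ => by rwa [← Subtype.ext hxy], fun hx => ⟨x, hx, rfl⟩⟩

theorem connIn_pts' {S : Set X} (hS : SConn (TP h x₀) S) : ConnIn X (pts' S) := by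
  refine ⟨?_, ?_⟩
  · rintro _ ⟨x, -, rfl⟩
    exact x.2
  · rintro _ ⟨x, hx, rfl⟩ _ ⟨y, hy, rfl⟩
    obtain ⟨l, hl, hm⟩ := hS x hx y hy
    clear hx hy
    induction hl with
    | nil v => exact ReflTransGen.refl
    | cons d w l _ ih =>
      have h1 := hm d (by simp)
      refine ReflTransGen.head ⟨nbr_dt h x₀ d, ⟨_, h1.1, rfl⟩, ⟨_, h1.2, rfl⟩⟩
        (ih fun g hg => hm g (List.mem_cons_of_mem _ hg))

theorem sconn_of_connIn {Y : Set ℂ} (hY : ConnIn X Y) : SConn (TP h x₀) {v : X | v.1 ∈ Y} :=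
  H565.HT_wconn h x₀ hY

/-- The three frozen classes as sets of points. -/
structure Three3 (X B : Set ℂ) (O3 : Fin 3 → Set ℂ) : Prop where
  disj : Pairwise fun i j => Disjoint (O3 i) (O3 j)
  conn : ∀ j, ConnIn X (O3 j)
  ne : ∀ j, (O3 j).Nonempty
  cover : ⋃ j, O3 j = B

theorem Three3.fib {O3 : Fin 3 → Set ℂ} (h3 : Three3 X B O3) : Fib X (cmap X O3) :=
  fib_cmap h3.disj h3.conn h3.ne

/-- The contraction of the three classes. -/
noncomputable abbrev pi3 (X : Set ℂ) (O3 : Fin 3 → Set ℂ) : X → CV X O3 := fun x => cmap X O3 x.1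

/-- The three-class triangulation. -/
noncomputable abbrev TC (h : HullTri X b) {O3 : Fin 3 → Set ℂ} (h3 : Three3 X B O3) :
    Tri (CV X O3) (Fc X b × ZMod 3) := h.tri258 (cmap X O3) h3.fib

theorem Three3.mem {O3 : Fin 3 → Set ℂ} (h3 : Three3 X B O3) {x : ℂ} {j : Fin 3} (hx : x ∈ O3 j) :
    x ∈ B := by
  rw [← h3.cover]; exact mem_iUnion.2 ⟨j, hx⟩

theorem Three3.exists {O3 : Fin 3 → Set ℂ} (h3 : Three3 X B O3) {x : ℂ} (hx : x ∈ B) :
    ∃ j, x ∈ O3 j := by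
  rw [← h3.cover] at hx; exact mem_iUnion.1 hx

theorem pi3_eq_inl {O3 : Fin 3 → Set ℂ} (h3 : Three3 X B O3) {v : X} {j : Fin 3} :
    pi3 X O3 v = Sum.inl j ↔ v.1 ∈ O3 j :=
  ⟨fun h1 => mem_of_cmap v.2 h1, fun h1 => cmap_of_mem h3.disj h1⟩

theorem pi3_free {O3 : Fin 3 → Set ℂ} (h3 : Three3 X B O3) {v : X} (hv : v.1 ∉ B) :
    pi3 X O3 v = Sum.inr ⟨v.1, v.2, fun _ hj => hv (h3.mem hj)⟩ :=
  cmap_of_free v.2 fun _ hj => hv (h3.mem hj)

theorem pi3_inj {O3 : Fin 3 → Set ℂ} (h3 : Three3 X B O3) {u v : X} (hu : u.1 ∉ B)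
    (huv : pi3 X O3 u = pi3 X O3 v) : u = v := by
  rw [pi3_free h3 hu] at huv
  exact Subtype.ext (eq_of_cmap huv.symm).symm

theorem contr3 {O3 : Fin 3 → Set ℂ} (h3 : Three3 X B O3) :
    Contr (TP h x₀) (TC h h3) (pi3 X O3) :=
  contr_tri258 h _ _ fun x hx => by
    show cmap X O3 x = cmap X O3 (idmap X x₀ x).1
    rw [idmap_val hx]

theorem noloop_TP' (d : Fc X b × ZMod 3) : (TP h x₀).src d ≠ (TP h x₀).tgt d := fun he =>
  (nbr_dt h x₀ d).2.2.1 (congrArg Subtype.val he)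

/-- **The three-class world along an explored loop of the Delaunay triangulation.** -/
theorem exists_W3 (hB : ConnIn X B) (hI : ConnIn X (X \ B)) {w : X → Bool}
    {c : ℕ → Fc X b × ZMod 3} {n s₁ s₂ : ℕ}
    (hR : Ring (TP h x₀) (piB X B) (Sum.inl ()) w c n) (h1 : 0 < s₁) (h12 : s₁ < s₂) (h2 : s₂ < n)
    (ht : ∀ j, ∃ i y, InArc s₁ s₂ n j i ∧ y ∉ B ∧ nbr X ((TP h x₀).src (c i)).1 y) :
    ∃ (O3 : Fin 3 → Set ℂ) (h3 : Three3 X B O3),
      W3 (TP h x₀) (TC h h3) (piB X B) (Sum.inl ()) w c n s₁ s₂ (fun j => {v : X | v.1 ∈ O3 j})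
        (pi3 X O3) Sum.inl := by
  haveI : Finite X := h.fin
  haveI := h.finite_Fc
  have hfib : {v : X | piB X B v = Sum.inl ()} = {v : X | v.1 ∈ B} := by
    ext v; exact piB_eq_iff
  have hSB : SConn (TP h x₀) {v : X | piB X B v = Sum.inl ()} := by
    rw [hfib]; exact sconn_of_connIn h x₀ hB
  obtain ⟨S, a1, a2, a3, a4, a5, a6, a7⟩ := exists_three hR hSB h1 h12 h2
  have hS : ∀ {j : Fin 3} {v : X}, v ∈ S j → v.1 ∈ B := by
    intro j v hv
    have : v ∈ ⋃ j, S j := mem_iUnion.2 ⟨j, hv⟩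
    rw [a3] at this
    exact piB_eq_iff.1 this
  have harc : ∀ j i, InArc s₁ s₂ n j i → (TP h x₀).src (c i) ∈ S j := by
    rintro j i (⟨rfl, hi⟩ | ⟨rfl, hi, hi'⟩ | ⟨rfl, hi, hi'⟩)
    · exact a4 i hi
    · exact a5 i hi hi'
    · exact a6 i hi hi'
  have h3 : Three3 X B (fun j => pts' (S j)) := by
    refine ⟨?_, fun j => connIn_pts' h x₀ (a1 j), fun j => ?_, ?_⟩
    · intro i j hij
      rw [Set.disjoint_left]
      rintro _ ⟨x, hx, rfl⟩ ⟨y, hy, hxy⟩
      rw [Subtype.ext hxy] at hy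
      exact Set.disjoint_left.1 (a2 hij) hx hy
    · obtain ⟨i, y, hi, -⟩ := ht j
      exact ⟨_, _, harc j i hi, rfl⟩
    · ext x
      constructor
      · intro hx
        obtain ⟨j, y, hy, rfl⟩ := mem_iUnion.1 hx
        exact hS hy
      · intro hx
        have hxX := hB.subset hx
        have : (⟨x, hxX⟩ : X) ∈ ⋃ j, S j := by rw [a3]; exact piB_eq_iff.2 hx
        obtain ⟨j, hj⟩ := mem_iUnion.1 this
        exact mem_iUnion.2 ⟨j, ⟨_, hj, rfl⟩⟩
  have hSj : ∀ j, {v : X | v.1 ∈ pts' (S j)} = S j := fun j => by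
    ext v; exact mem_pts'
  refine ⟨fun j => pts' (S j), h3, ?_⟩
  refine {
    ring := hR
    pos1 := h1
    lt12 := h12
    lt2 := h2
    planar := h.planar258 _ _
    planar3 := h.planar258 _ _
    contr := contr3 h x₀ h3
    noloop := noloop_TP' h x₀
    conn := ?_
    disj := ?_
    cover := ?_
    free := ?_
    arc := ?_
    rgt := ?_
    mem := ?_
    inj := ?_
    touch := ?_ }
  · intro j; rw [hSj]; exact a1 j
  · intro i j hij; simp only [hSj]; exact a2 hij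
  · simp only [hSj]; exact a3
  · have : {v : X | piB X B v ≠ Sum.inl ()} = {v : X | v.1 ∈ X \ B} := by
      ext v
      constructor
      · intro hv
        exact ⟨v.2, fun hb => hv (piB_eq_iff.2 hb)⟩
      · intro hv hb
        exact hv.2 (piB_eq_iff.1 hb)
    rw [this]
    exact sconn_of_connIn h x₀ hI
  · intro j i hi; rw [hSj]; exact harc j i hi
  · intro k; rw [hSj]; exact a7 k
  · intro v j; exact pi3_eq_inl h3
  · intro u v hu huv
    exact pi3_inj h3 (fun hb => hu (piB_eq_iff.2 hb)) huv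
  · intro j
    obtain ⟨i, y, hi, hy, hn⟩ := ht j
    obtain ⟨q, hq1, hq2⟩ := H565.HT_dart h x₀ (x := (TP h x₀).src (c i)) (y := ⟨y, hn.2.1⟩) hn
    refine ⟨q, ?_, ?_⟩
    · rw [hSj]
      have h4 := harc j i hi
      change (TP h x₀).src q = _ at hq1
      rw [hq1]; exact h4
    · change (TP h x₀).tgt q = _ at hq2
      rw [hq2]
      intro hb
      exact hy (piB_eq_iff.1 hb)

end hull

end Vale.Agent.P148.R2.H251
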