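import Vale.Agent.P148.R2.H409.Wii
import Vale.Agent.P148.R2.H729.Wsum2
import Vale.Agent.P148.R2.H959.CalPos
import Vale.Agent.P148.R2.H910.Inst

/-!
# P148, row CAL: the mean of the windows next to the three arcs

* `nwx h x₀ M Θ k a₁ a₂ w` : the energy of the windows at the near cell `k`, with the reference gates
  `a₁`, `a₂`, for the composite colouring `w`.
* `wnr` : the sum over the three arcs `γ` and the near cells `k` between the last gate of the arc and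
  the first gate of its next copy, with the reference gates `ag + 6`, `bg - 6`.
* `qe_wnr` : its quenched mean is at most `C ms M`; `ev_wn` : the row for the scene of helper172.
-/

set_option linter.unusedSectionVars false

open Set Function Metric Filter
open scoped Classical ENNReal NNReal

namespace Vale.Agent.P148.R2.H251

open _root_.P148 _root_.P148.H729
open Vale.Agent.P148.R2.H592 (HullTri Fc idmap fib_id)
open Vale.Agent.P148.R2.H203 (wt wt_rot)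
open Vale.Agent.P148.R2.H184 (Dt dt rt Wt)
open Vale.Agent.P148.R2.N (ms nc ms_pos)
open Vale.Agent.P148.R2.H953 (ex glue ex_nonneg)
open Vale.Agent.P148.R2.H532 (WX)
open Vale.Agent.P148.R2.H126 (rf Rs)
open Vale.Agent.P148.R2.H409 (NX qe_WX)
open Vale.Agent.P148.R2.H400 (TP)
open Vale.Agent.P148.R2.H488 (cw hc cw_rot)
open Vale.Agent.P148.R2.H959 (ag bg)
open Vale.Agent.P148.R2.H172 (GateLaw combLaw FScene fscOf fsc fsc_eq mc xb GoodT exists_goodT fscOf_p pw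
  sum_pw_ofReal)
open Vale.Agent.P148.R2.H566 (W0 Ev EvMean UB)
open Vale.Agent.P148.R2.H291 (SiteOK bR CT)

universe u

/-! ### one set of sites -/

section one

variable {X : Set ℂ} {b : ZMod 3 → ℂ} [Fintype X] [Fintype (Fc X b × ZMod 3)]

/-- The energy of the windows at the near cell `k`, with the reference gates `a₁`, `a₂`. -/
noncomputable def nwx (h : HullTri X b) (x₀ : X) (M : ℕ) (Θ : Dt → ℂ) (k a₁ a₂ : ℕ)
    (w : X → Bool) : ℝ :=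
  ex fun c₃ => WX (TP h x₀) (Nat.card (Fc X b × ZMod 3)) (NX X M 2 k)
    (rf h x₀ M w a₁, rf h x₀ M w a₂) w (wt h (idmap X x₀) (fib_id X x₀) (cw (hc M k) Θ))
    (glue (Rs (TP h x₀) (Nat.card (Fc X b × ZMod 3)) (NX X M 2 k) (NX X M 3 k)
      (rf h x₀ M w a₁) w) w c₃)

theorem nwx_nonneg (h : HullTri X b) (x₀ : X) (M : ℕ) (Θ : Dt → ℂ) (k a₁ a₂ : ℕ)
    (w : X → Bool) : 0 ≤ nwx h x₀ M Θ k a₁ a₂ w :=
  ex_nonneg fun _ => H838.cotot_nonneg _ _ _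

/-- The sum over the arcs and the near cells. -/
noncomputable def wnr (h : HullTri X b) (x₀ : X) (M : ℕ) (Θ : Dt → ℂ) (g₀ g₁ g₂ : ℕ)
    (w : X → Bool) : ℝ :=
  ∑ γ : Fin 3, ∑ k ∈ Finset.Icc (bg M g₀ g₁ g₂ γ - 1) (ag g₀ g₁ g₂ γ + nc M),
    nwx h x₀ M Θ k (ag g₀ g₁ g₂ γ + 6) (bg M g₀ g₁ g₂ γ - 6) w

theorem wnr_nonneg (h : HullTri X b) (x₀ : X) (M : ℕ) (Θ : Dt → ℂ) (g₀ g₁ g₂ : ℕ)
    (w : X → Bool) : 0 ≤ wnr h x₀ M Θ g₀ g₁ g₂ w :=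
  Finset.sum_nonneg fun _ _ => Finset.sum_nonneg fun _ _ => nwx_nonneg _ _ _ _ _ _ _ _

/-- The part of one arc. -/
theorem sum_le_wnr (h : HullTri X b) (x₀ : X) (M : ℕ) (Θ : Dt → ℂ) (g₀ g₁ g₂ : ℕ)
    (w : X → Bool) (γ : Fin 3) {s : Finset ℕ}
    (hs : s ⊆ Finset.Icc (bg M g₀ g₁ g₂ γ - 1) (ag g₀ g₁ g₂ γ + nc M)) :
    ∑ k ∈ s, nwx h x₀ M Θ k (ag g₀ g₁ g₂ γ + 6) (bg M g₀ g₁ g₂ γ - 6) w ≤
      wnr h x₀ M Θ g₀ g₁ g₂ w := by
  refine (Finset.sum_le_sum_of_subset_of_nonneg hs fun _ _ _ => nwx_nonneg _ _ _ _ _ _ _ _).trans ?_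
  exact Finset.single_le_sum (f := fun γ : Fin 3 =>
    ∑ k ∈ Finset.Icc (bg M g₀ g₁ g₂ γ - 1) (ag g₀ g₁ g₂ γ + nc M),
      nwx h x₀ M Θ k (ag g₀ g₁ g₂ γ + 6) (bg M g₀ g₁ g₂ γ - 6) w)
    (fun _ _ => Finset.sum_nonneg fun _ _ => nwx_nonneg _ _ _ _ _ _ _ _) (Finset.mem_univ γ)

/-- One near cell. -/
theorem le_wnr (h : HullTri X b) (x₀ : X) (M : ℕ) (Θ : Dt → ℂ) (g₀ g₁ g₂ : ℕ)
    (w : X → Bool) (γ : Fin 3) {k : ℕ} (h1 : bg M g₀ g₁ g₂ γ - 1 ≤ k)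
    (h2 : k ≤ ag g₀ g₁ g₂ γ + nc M) :
    nwx h x₀ M Θ k (ag g₀ g₁ g₂ γ + 6) (bg M g₀ g₁ g₂ γ - 6) w ≤ wnr h x₀ M Θ g₀ g₁ g₂ w := by
  have := sum_le_wnr h x₀ M Θ g₀ g₁ g₂ w γ (s := {k}) (by
    rw [Finset.singleton_subset_iff, Finset.mem_Icc]
    exact ⟨h1, h2⟩)
  rwa [Finset.sum_singleton] at this

/-- **The quenched mean of the windows.** -/
theorem qe_wnr {M : ℕ} (hM : 0 < M) (h : HullTri X b) (x₀ : X) {τ : ℂ}
    (hτ : τ ^ 2 + τ + 1 = 0) {Θ : Dt → ℂ} (hΘ : ∀ d, Θ (rt d) = τ ^ 2 * Θ d) {c : ℝ} (hc0 : 0 < c)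
    (hH : ∀ k < nc M, c ≤ H953.pr ((combLaw hM X (Subtype.val : X → ℂ)).He k))
    (hC : ∀ k < nc M, c ≤ H953.pr ((combLaw hM X (Subtype.val : X → ℂ)).Ce k))
    {g₀ g₁ g₂ : ℕ} (hg : ∀ γ, ag g₀ g₁ g₂ γ + 11 ≤ bg M g₀ g₁ g₂ γ) {E : ℝ} (hE0 : 0 ≤ E)
    (hE : ∀ k, ∑ d, ‖wt h (idmap X x₀) (fib_id X x₀) (cw (hc M k) Θ) d‖ ^ 2 ≤ E) :
    (combLaw hM X (Subtype.val : X → ℂ)).qe (fun c₁ c₂ => wnr h x₀ M Θ g₀ g₁ g₂
      ((combLaw hM X (Subtype.val : X → ℂ)).w c₁ c₂)) ≤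
      3 * (nc M * ((c ^ 96)⁻¹ * (2 * E))) := by
  unfold wnr
  rw [GateLaw.qe_sum]
  have h3 : ∀ γ : Fin 3, (combLaw hM X (Subtype.val : X → ℂ)).qe (fun c₁ c₂ =>
      ∑ k ∈ Finset.Icc (bg M g₀ g₁ g₂ γ - 1) (ag g₀ g₁ g₂ γ + nc M),
        nwx h x₀ M Θ k (ag g₀ g₁ g₂ γ + 6) (bg M g₀ g₁ g₂ γ - 6)
          ((combLaw hM X (Subtype.val : X → ℂ)).w c₁ c₂)) ≤
      nc M * ((c ^ 96)⁻¹ * (2 * E)) := by
    intro γ
    have hγ := hg γ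
    rw [GateLaw.qe_sum]
    have h4 : ∀ k ∈ Finset.Icc (bg M g₀ g₁ g₂ γ - 1) (ag g₀ g₁ g₂ γ + nc M),
        (combLaw hM X (Subtype.val : X → ℂ)).qe (fun c₁ c₂ =>
          nwx h x₀ M Θ k (ag g₀ g₁ g₂ γ + 6) (bg M g₀ g₁ g₂ γ - 6)
            ((combLaw hM X (Subtype.val : X → ℂ)).w c₁ c₂)) ≤ (c ^ 96)⁻¹ * (2 * E) := by
      intro k hk
      rw [Finset.mem_Icc] at hk
      refine (qe_WX hM h x₀ (h.planar258 _ _) hτ (fun d => wt_rot h _ _ (cw_rot hΘ) d) hc0 hH hC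
        (L := Nat.card (Fc X b × ZMod 3)) (k := k) (a₁ := ag g₀ g₁ g₂ γ + 6)
        (a₂ := bg M g₀ g₁ g₂ γ - 6) (N := NX X M 2 k) (by omega) (by omega) (by omega)
        (by omega)).trans ?_
      exact mul_le_mul_of_nonneg_left (mul_le_mul_of_nonneg_left (hE k) zero_le_two)
        (by positivity)
    refine (Finset.sum_le_sum h4).trans ?_
    rw [Finset.sum_const, Nat.card_Icc, nsmul_eq_mul]
    refine mul_le_mul_of_nonneg_right ?_ (by positivity)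
    exact_mod_cast (show ag g₀ g₁ g₂ γ + nc M + 1 - (bg M g₀ g₁ g₂ γ - 1) ≤ nc M by omega)
  refine (Finset.sum_le_sum fun γ _ => h3 γ).trans ?_
  rw [Finset.sum_const, Finset.card_univ, Fintype.card_fin, nsmul_eq_mul]
  push_cast
  exact le_rfl

end one

/-- The instances do not matter. -/
theorem wnr_inst {X : Set ℂ} {b : ZMod 3 → ℂ} (i i' : Fintype X)
    (j j' : Fintype (Fc X b × ZMod 3)) (h : HullTri X b) (x₀ : X) (M : ℕ) (Θ : Dt → ℂ)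
    (g₀ g₁ g₂ : ℕ) (w : X → Bool) : @wnr X b i j h x₀ M Θ g₀ g₁ g₂ w =
      @wnr X b i' j' h x₀ M Θ g₀ g₁ g₂ w := by
  obtain rfl : i = i' := Subsingleton.elim _ _
  obtain rfl : j = j' := Subsingleton.elim _ _
  rfl

theorem nc_ms_le {M : ℕ} (hM : 0 < M) : (nc M : ℝ) * ms M ≤ 12 := by
  have h1 : (nc M : ℝ) ≤ 12 * M := by
    unfold nc
    push_cast
    have : (1 : ℝ) ≤ M := by exact_mod_cast hM
    linarith
  have h2 : (0 : ℝ) < M := by exact_mod_cast hM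
  unfold ms
  rw [mul_one_div, div_le_iff₀ h2]
  exact h1

/-! ### the scene -/

/-- The windows of a world of a scene with frames. -/
noncomputable def wnF {M : ℕ} (S : FScene M) (Θ : Dt → ℂ) (g₀ g₁ g₂ : ℕ) (i : S.ι) : ℝ≥0∞ :=
  ENNReal.ofReal (@wnr (S.w i).X (S.w i).b (S.w i).hull.fin.fintype
    (inferInstanceAs (Fintype (S.w i).D)) (S.w i).hull (S.x₀ i) M Θ g₀ g₁ g₂ (S.col i))

theorem wnF_eq {M : ℕ} {S : FScene M} {Θ : Dt → ℂ} {g₀ g₁ g₂ : ℕ} {i : S.ι}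
    [Fintype (S.w i).X] [Fintype (Fc (S.w i).X (S.w i).b × ZMod 3)] :
    wnF S Θ g₀ g₁ g₂ i = ENNReal.ofReal (wnr (S.w i).hull (S.x₀ i) M Θ g₀ g₁ g₂ (S.col i)) := by
  unfold wnF
  rw [wnr_inst]

/-- **The row of the windows**, for the scene of helper172 and any marks. -/
theorem ev_wn {τ : ℂ} {κ : ℝ} {Θ : Dt → ℂ} (hΘ : Wt τ κ Θ) : ∃ C : ℝ, 0 ≤ C ∧
    ∀ M : ℕ, 0 < M → ∀ g₀ g₁ g₂ : ℕ, (∀ γ, ag g₀ g₁ g₂ γ + 11 ≤ bg M g₀ g₁ g₂ γ) →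
    ∃ G : Set Pt → Prop, Ev.{u} G ∧ ∀ T, G T → SiteOK T 9 (ms M / 1000) ∧
      ∑ i, (fsc M T).p i * wnF (fsc M T) Θ g₀ g₁ g₂ i ≤ ENNReal.ofReal (C * ms M) := by
  obtain ⟨c, hc0, hg⟩ := exists_goodT.{u}
  refine ⟨max 0 (3 * (12 * ((c ^ 96)⁻¹ * (2 * CT κ 2)))), le_max_left _ _, ?_⟩
  intro M hM g₀ g₁ g₂ hgg
  have h0 := ms_pos hM
  refine ⟨fun T => GoodT c M T ∧ ∀ w : W0, w.X = H291.site T 9 → w.b = bR 9 →
      ∀ (x₀ : w.X) k, ∑ q : w.D, ‖thk w x₀ M Θ k q‖ ^ 2 ≤ CT κ (2 * ms M),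
    (hg M hM).and ((ev_thk.{u} hΘ hM).mono fun T hT => hT.2), ?_⟩
  rintro T ⟨h1, h2⟩
  refine ⟨h1.site, ?_⟩
  rw [fsc_eq hM h1.site]
  let iX : Fintype (H291.site T 9) := h1.site.hull.fin.fintype
  let iD : Fintype (Fc (H291.site T 9) (bR 9) × ZMod 3) :=
    W0.instFintypeD ((fscOf hM h1.site.hull).w (fun _ => true, fun _ => true))
  have hterm : ∀ i : (H291.site T 9 → Bool) × (H291.site T 9 → Bool),
      (fscOf hM h1.site.hull).p i * wnF (fscOf hM h1.site.hull) Θ g₀ g₁ g₂ i =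
      pw (combLaw hM (H291.site T 9) (Subtype.val : H291.site T 9 → ℂ)) i *
        ENNReal.ofReal (wnr h1.site.hull (xb h1.site.hull) M Θ g₀ g₁ g₂
          ((combLaw hM (H291.site T 9) (Subtype.val : H291.site T 9 → ℂ)).w i.1 i.2)) := by
    intro i
    have e2 : wnF (fscOf hM h1.site.hull) Θ g₀ g₁ g₂ i =
        ENNReal.ofReal (wnr h1.site.hull (xb h1.site.hull) M Θ g₀ g₁ g₂
          ((combLaw hM (H291.site T 9) (Subtype.val : H291.site T 9 → ℂ)).w i.1 i.2)) :=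
      @wnF_eq M (fscOf hM h1.site.hull) Θ g₀ g₁ g₂ i iX iD
    exact congrArg₂ (· * ·) (fscOf_p hM h1.site.hull i) e2
  have hsum : ∑ i, (fscOf hM h1.site.hull).p i * wnF (fscOf hM h1.site.hull) Θ g₀ g₁ g₂ i =
      ENNReal.ofReal ((combLaw hM (H291.site T 9) (Subtype.val : H291.site T 9 → ℂ)).qe
        fun c₁ c₂ => wnr h1.site.hull (xb h1.site.hull) M Θ g₀ g₁ g₂
          ((combLaw hM (H291.site T 9) (Subtype.val : H291.site T 9 → ℂ)).w c₁ c₂)) := by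
    rw [← sum_pw_ofReal _ fun _ _ => wnr_nonneg _ _ _ _ _ _ _ _]
    exact Finset.sum_congr rfl fun i _ => hterm i
  rw [hsum]
  refine ENNReal.ofReal_le_ofReal ?_
  have hE : ∀ k, ∑ d, ‖wt h1.site.hull (idmap (H291.site T 9) (xb h1.site.hull))
      (fib_id (H291.site T 9) (xb h1.site.hull)) (cw (hc M k) Θ) d‖ ^ 2 ≤ CT κ (2 * ms M) := by
    intro k
    exact (H910.sum_inst _ _ _).le.trans
      (h2 ((fscOf hM h1.site.hull).w (fun _ => true, fun _ => true)) rfl rfl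
        (xb h1.site.hull) k)
  refine (qe_wnr hM h1.site.hull (xb h1.site.hull) hΘ.tau hΘ.rot hc0 (h1.he hM).1 (h1.he hM).2
    hgg (H729.CT_nonneg _ _) hE).trans (le_trans ?_
      (mul_le_mul_of_nonneg_right (le_max_right _ _) h0.le))
  rw [CT_two]
  have h5 := nc_ms_le hM
  have h6 : (0 : ℝ) ≤ (c ^ 96)⁻¹ * (2 * CT κ 2) :=
    mul_nonneg (by positivity) (mul_nonneg zero_le_two (H729.CT_nonneg _ _))
  calc 3 * ((nc M : ℝ) * ((c ^ 96)⁻¹ * (2 * (CT κ 2 * ms M ^ 2))))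
      = 3 * (((nc M : ℝ) * ms M) * ((c ^ 96)⁻¹ * (2 * CT κ 2))) * ms M := by ring
    _ ≤ 3 * (12 * ((c ^ 96)⁻¹ * (2 * CT κ 2))) * ms M := by gcongr

/-- A bound on an event is a bound of the upper mean. -/
theorem evMean_of_le {G : Set Pt → Prop} {F : Set Pt → ℝ≥0∞} {c : ℝ≥0∞}
    (h : ∀ T, G T → F T ≤ c) : EvMean.{u} (fun T => ⨆ _ : G T, F T) c := by
  refine ⟨0, fun Ω _ P _ S lam _ _ => ⟨fun _ => c, measurable_const, ?_, ?_⟩⟩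
  · exact Eventually.of_forall fun ω => iSup_le fun hG => h _ hG
  · rw [MeasureTheory.lintegral_const, MeasureTheory.measure_univ, mul_one]

/-- The row of the windows, with upper means. -/
theorem evMean_wn {τ : ℂ} {κ : ℝ} {Θ : Dt → ℂ} (hΘ : Wt τ κ Θ) : ∃ C : ℝ, 0 ≤ C ∧
    ∀ M : ℕ, 0 < M → ∀ g₀ g₁ g₂ : ℕ, (∀ γ, ag g₀ g₁ g₂ γ + 11 ≤ bg M g₀ g₁ g₂ γ) →
    ∃ G : Set Pt → Prop, Ev.{u} G ∧
      EvMean.{u} (fun T => ⨆ _ : G T, ∑ i, (fsc M T).p i * wnF (fsc M T) Θ g₀ g₁ g₂ i)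
        (ENNReal.ofReal (C * ms M)) := by
  obtain ⟨C, hC, h⟩ := ev_wn.{u} hΘ
  refine ⟨C, hC, fun M hM g₀ g₁ g₂ hg => ?_⟩
  obtain ⟨G, hG, hb⟩ := h M hM g₀ g₁ g₂ hg
  exact ⟨G, hG, evMean_of_le fun T hT => (hb T hT).2⟩

end Vale.Agent.P148.R2.H251
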