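import Vale.Agent.P148.R2.H251.W3f
import Vale.Agent.P148.R2.H251.W3g
import Vale.Agent.P148.R2.H172.N3b
import Vale.Agent.P148.R2.H910.Inst

/-!
# P148, row CAL: patterns, weights and the calibration inequality in fresh colours

The three-class world on the Delaunay triangulation. `patt γ s` : the class `γ` white, the two
others black, the free vertices coloured by `s`. Means over all colourings of the world of functions
of the class of a dart of the frozen face are means over `s` of the pattern.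
-/

set_option linter.unusedSectionVars false

open Set Function Relation
open scoped Classical
open Vale.Agent.P148.R2.H258 Vale.Agent.P148.R2.H258.Tri Vale.Agent.P148.R2.H659
  Vale.Agent.P148.R2.H871 Vale.Agent.P148.R2.H953 Vale.Agent.P148.R2.H592
  Vale.Agent.P148.R2.H184 Vale.Agent.P148.R2.H203 Vale.Agent.P148.R2.H910
open Vale.Agent.P148.R2.H400 (TP TB piB secB piB_eq_iff contrB src_TP tgt_TP nbr_dt)

namespace Vale.Agent.P148.R2.H251

/-! ### means -/

section mean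

variable {A B V : Type*} [Fintype A] [Fintype B] [Fintype V]

theorem ex_eq' [inst : Fintype (V → Bool)] (F : (V → Bool) → ℝ) :
    ex F = (∑ σ : V → Bool, F σ) / 2 ^ Fintype.card V := by
  unfold ex
  congr 1
  exact Finset.sum_congr (Finset.ext fun x => ⟨fun _ => @Finset.mem_univ _ (_) x,
    fun _ => @Finset.mem_univ _ (_) x⟩) fun _ _ => rfl

theorem pr_eq' (P : (V → Bool) → Prop) [DecidablePred P] :
    pr P = ex fun σ => if P σ then 1 else 0 := by
  unfold pr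
  exact ex_congr fun σ => by congr

theorem ex_sumType (F : (A ⊕ B → Bool) → ℝ) :
    ex F = ex fun a : A → Bool => ex fun b : B → Bool => F (Sum.elim a b) := by
  have h1 : ∑ σ : A ⊕ B → Bool, F σ = ∑ p : (A → Bool) × (B → Bool), F (Sum.elim p.1 p.2) :=
    Fintype.sum_equiv (Equiv.sumArrowEquivProdArrow A B Bool) _ _ fun σ => by
      congr 1
      funext v
      cases v <;> rfl
  rw [ex_eq' F, h1, Fintype.sum_prod_type, Fintype.card_sum, pow_add]
  unfold ex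
  rw [← Finset.sum_div, div_div, mul_comm]

/-- The pattern: `γ` white, the others black. -/
def pg (γ : Fin 3) : Fin 3 → Bool := fun j => decide (j ≠ γ)

theorem four_ex {e : B → V} (he : Injective e) (γ : Fin 3) {F : (Fin 3 ⊕ B → Bool) → ℝ}
    (hneg : ∀ σ, F (fun v => !σ v) = F σ)
    (h0 : ∀ σ, F σ ≠ 0 → ∀ j, j ≠ γ → σ (Sum.inl j) ≠ σ (Sum.inl γ)) :
    4 * ex F = ex fun s : V → Bool => F (Sum.elim (pg γ) (s ∘ e)) := by
  set G : (Fin 3 → Bool) → ℝ := fun a => ex fun b : B → Bool => F (Sum.elim a b) with hG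
  have hGneg : ∀ a, G (fun j => !a j) = G a := by
    intro a
    rw [hG]
    simp only
    rw [← ex_not]
    apply ex_congr
    intro b
    rw [← hneg (Sum.elim a b)]
    congr 1
    funext v
    cases v <;> rfl
  have hG0 : ∀ a, a ≠ pg γ ∧ a ≠ (fun j => !pg γ j) → G a = 0 := by
    intro a ha
    have h1 : ∀ b : B → Bool, F (Sum.elim a b) = 0 := by
      intro b
      by_contra h2
      have h3 := h0 _ h2
      simp only [Sum.elim_inl] at h3
      by_cases h4 : a γ = true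
      · apply ha.2
        funext j
        by_cases hj : j = γ
        · subst hj; simp [pg, h4]
        · have := h3 j hj
          rw [h4] at this
          have : a j = false := by simpa using this
          simp [pg, hj, this]
      · have h4' : a γ = false := by simpa using h4
        apply ha.1
        funext j
        by_cases hj : j = γ
        · subst hj; simp [pg, h4']
        · have := h3 j hj
          rw [h4'] at this
          have : a j = true := by simpa using this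
          simp [pg, hj, this]
    rw [hG]
    simp only [h1]
    exact ex_const 0
  have hne : pg γ ≠ fun j => !pg γ j := by
    intro hh
    have := congrFun hh γ
    simp [pg] at this
  have hsum : ∑ a : Fin 3 → Bool, G a = 2 * G (pg γ) := by
    rw [Finset.sum_eq_add (pg γ) (fun j => !pg γ j) hne (fun a _ ha => hG0 a ha)
      (fun hh => absurd (Finset.mem_univ _) hh) (fun hh => absurd (Finset.mem_univ _) hh),
      hGneg]
    ring
  have h1 : ex F = 2 * G (pg γ) / 8 := by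
    rw [ex_sumType, ← hsum]
    change ex G = _
    rw [ex_eq' G, Fintype.card_fin]
    norm_num
  have h2 : (ex fun s : V → Bool => F (Sum.elim (pg γ) (s ∘ e))) = G (pg γ) :=
    H172.ex_marg he fun b : B → Bool => F (Sum.elim (pg γ) b)
  rw [h1, h2]
  ring

end mean

/-! ### closing for an arbitrary weight -/

section closing

variable {V V1 V3 D : Type*}
variable {T : Tri V D} {T3 : Tri V3 D} {π : V → V1} {O : V1} {w : V → Bool} {c : ℕ → D}
  {n s₁ s₂ : ℕ} {S : Fin 3 → Set V} {π3 : V → V3} {lab : Fin 3 → V3}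

theorem W3.good_q (hW : W3 T T3 π O w c n s₁ s₂ S π3 lab) {q : D}
    (hq : T3.InFace (c (s₁ - 1)) q) : T3.Good q := by
  have hgo := hW.good_o
  rcases hq with rfl | rfl | rfl
  · exact hgo
  · exact hgo.nxt
  · exact hgo.nxt.nxt

/-- **The class of the frozen face and its plane class.** -/
theorem W3.closing [Fintype D] (hW : W3 T T3 π O w c n s₁ s₂ S π3 lab) {σ : V3 → Bool} {q : D}
    (hq : T3.InFace (c (s₁ - 1)) q)
    (hm : T3.Mi σ q) {α β γ : Fin 3} (ha : T.src q ∈ S α) (hb : T.apex q ∈ S β)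
    (hc : T.tgt q ∈ S γ) : ∃ m f j₁ i₁ N, Path3 T T3 π O c n s₁ s₂ σ q α β m f j₁ i₁ ∧
      (∀ i, 1 ≤ i → i < m → ∃ k ≤ N, (T3.st σ)^[k] (f 1) = f i) ∧
      (T3.st σ)^[N] (f 1) = f (m - 1) ∧
      (∀ k, 0 < k → k ≤ N → π (T.src ((T3.st σ)^[k] (f 1))) ≠ O) ∧
      (∀ k ≤ N, π (T.tgt ((T3.st σ)^[k] (f 1))) ≠ O ∨
        ∃ i < n, InArc s₁ s₂ n γ i ∧ T.tgt ((T3.st σ)^[k] (f 1)) = T.src (c i)) ∧
      ∀ τ : V → Bool, (∀ v, π v ≠ O → τ v = σ (π3 v)) → τ (T.src (c i₁)) = σ (lab α) →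
        τ (T.src (c j₁)) = σ (lab α) →
        (∀ i < n, InArc s₁ s₂ n γ i → (∃ k ≤ N, T.tgt ((T3.st σ)^[k] (f 1)) = T.src (c i)) →
          τ (T.src (c i)) = σ (lab γ)) →
        (∀ k < gapL n j₁ i₁, T.Mi τ (cy c n (j₁ + k)) ∧
          H838.Joined T τ (τ (T.tgt (f 1))) Set.univ (T.tgt (f 1)) (T.tgt (cy c n (j₁ + k)))) →
        T.Mi τ (f 1) ∧
        (∀ g, T.Rel τ (f 1) g ↔ (∃ i, 1 ≤ i ∧ i < m ∧ g = f i) ∨
          ∃ k < gapL n j₁ i₁, g = cy c n (j₁ + k)) ∧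
        ∀ Θ : D → ℂ, T.cls τ (f 1) Θ = ∑ i ∈ Finset.Ico 1 m, Θ (f i) +
          ∑ k ∈ Finset.range (gapL n j₁ i₁), Θ (cy c n (j₁ + k)) := by
  obtain ⟨m, f, j₁, i₁, hp⟩ := hW.exists_path hq hm ha hb hc
  obtain ⟨N, a1, a2, a3, a4⟩ := hW.seen hq ha hb hc hp
  refine ⟨m, f, j₁, i₁, N, hp, a1, a2, a3, a4, ?_⟩
  intro τ hfr hx hy hγ hH
  have hgq := hW.good_q hq
  have hαβ : α ≠ β := by
    rintro rfl
    exact hgq.2.2 (by rw [hW.apex3 hb, hW.src3 ha])
  have hag := hW.agree ha hc hp a3 a4 hfr hx hγ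
  have hcol : ∀ k, k < gapL n j₁ i₁ → τ (T.src (cy c n (j₁ + k))) = σ (T3.src q) := by
    intro k
    induction k with
    | zero =>
      intro _
      unfold cy
      rw [add_zero, Nat.mod_eq_of_lt hp.hj, hy, hW.src3 ha]
    | succ k ih =>
      intro hk
      rw [← add_assoc, cy_next hW.ring, (hH k (by omega)).1.2]
      exact ih (by omega)
  have key := fun Θ : D → ℂ => hW.close3 hαβ hp (τ := τ) (K := N) a1 hag
    (by rw [hy, hW.src3 ha]) (fun k hk => by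
      obtain ⟨h1, h2⟩ := hH k hk
      obtain ⟨-, -, l, hl, hl2⟩ := h2
      exact ⟨h1, hcol k hk, l, hl, fun e he => ⟨(hl2 e he).1.1, (hl2 e he).2.1⟩⟩) Θ
  exact ⟨(key 0).1, (key 0).2.1, fun Θ => (key Θ).2.2⟩

end closing

/-! ### the Delaunay instance -/

section hull

variable {X : Set ℂ} {b : ZMod 3 → ℂ} (h : HullTri X b) (x₀ : X) {B : Set ℂ} {O3 : Fin 3 → Set ℂ}
  (h3 : Three3 X B O3)

/-- The inclusion of the free sites. -/
def frI (X : Set ℂ) (O3 : Fin 3 → Set ℂ) : Free X O3 → X := fun v => ⟨v.1, v.2.1⟩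

theorem frI_inj : Injective (frI X O3) := fun _ _ huv =>
  Subtype.ext (congrArg (Subtype.val : X → ℂ) huv)

/-- The class `γ` white, the two others black, the free sites coloured by `s`. -/
def patt (X : Set ℂ) (O3 : Fin 3 → Set ℂ) (γ : Fin 3) (s : X → Bool) : CV X O3 → Bool :=
  Sum.elim (pg γ) (s ∘ frI X O3)

@[simp] theorem patt_inl (γ j : Fin 3) (s : X → Bool) :
    patt X O3 γ s (Sum.inl j) = decide (j ≠ γ) := rfl

include h3 in
theorem patt_free (γ : Fin 3) (s : X → Bool) {x : X} (hx : x.1 ∉ B) :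
    patt X O3 γ s (pi3 X O3 x) = s x := by
  rw [pi3_free h3 hx]
  rfl

include h3 in
theorem patt_free' (γ : Fin 3) (s : X → Bool) {x : X} (hx : piB X B x ≠ Sum.inl ()) :
    patt X O3 γ s (pi3 X O3 x) = s x :=
  patt_free h3 γ s fun hb => hx (piB_eq_iff.2 hb)

include h3 in
theorem patt_mem (γ : Fin 3) (s : X → Bool) {x : X} {j : Fin 3} (hx : x.1 ∈ O3 j) :
    patt X O3 γ s (pi3 X O3 x) = decide (j ≠ γ) := by
  rw [(pi3_eq_inl h3).2 hx]
  rfl

variable {w : X → Bool} {c : ℕ → Fc X b × ZMod 3} {n s₁ s₂ : ℕ}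

/-- The weight of the three-class world: zero on the frozen face. -/
noncomputable def th3 (o : Fc X b × ZMod 3) (Θ : Dt → ℂ) : Fc X b × ZMod 3 → ℂ :=
  rs (fun d => ¬ (TC h h3).InFace o d) (wt h (cmap X O3) h3.fib Θ)

theorem th3_rot {τ : ℂ} {Θ : Dt → ℂ} (hΘ : ∀ d, Θ (rt d) = τ ^ 2 * Θ d) (o d : Fc X b × ZMod 3) :
    th3 h h3 o Θ ((TC h h3).nxt d) = τ ^ 2 * th3 h h3 o Θ d := by
  have h1 := wt_rot h (cmap X O3) h3.fib hΘ d
  unfold th3 rs
  simp only [(TC h h3).inFace_nxt]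
  split_ifs
  · rw [mul_zero]
  · exact h1

theorem th3_good (Θ : Dt → ℂ) (o d : Fc X b × ZMod 3) (hd : ¬ (TC h h3).Good d) :
    th3 h h3 o Θ d = 0 := by
  have h1 := wt_good h (cmap X O3) h3.fib Θ d hd
  unfold th3 rs
  split_ifs
  · exact h1
  · rfl

theorem th3_face (Θ : Dt → ℂ) {o d : Fc X b × ZMod 3} (hd : (TC h h3).InFace o d) :
    th3 h h3 o Θ d = 0 := by
  classical
  unfold th3 rs
  rw [if_neg (by simpa using hd)]

/-- The weight of the plane world. -/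
noncomputable abbrev thP (Θ : Dt → ℂ) : Fc X b × ZMod 3 → ℂ :=
  wt h (idmap X x₀) (fib_id X x₀) Θ

theorem th3_eq (Θ : Dt → ℂ) {o d : Fc X b × ZMod 3} (hg : (TC h h3).Good d)
    (hd : ¬ (TC h h3).InFace o d) : th3 h h3 o Θ d = thP h x₀ Θ d := by
  classical
  have hC := contr3 h x₀ h3
  have hgood' : (TP h x₀).Good d := by
    obtain ⟨g1, g2, g3⟩ := hg
    refine ⟨fun h1 => g1 ?_, fun h1 => g2 ?_, fun h1 => g3 ?_⟩
    · exact (hC.src _).trans ((congrArg _ h1).trans (hC.tgt _).symm)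
    · exact (hC.tgt _).trans ((congrArg _ h1).trans (hC.apex _).symm)
    · exact (hC.apex _).trans ((congrArg _ h1).trans (hC.src _).symm)
  unfold th3 rs
  rw [if_pos hd]
  show (if (TC h h3).Good d then Θ (dt d) else 0) = (if (TP h x₀).Good d then Θ (dt d) else 0)
  rw [if_pos hg, if_pos hgood']

theorem norm_th3_le (Θ : Dt → ℂ) (o d : Fc X b × ZMod 3) : ‖th3 h h3 o Θ d‖ ≤ ‖Θ (dt d)‖ := by
  classical
  unfold th3 rs wt
  split_ifs <;> simp

/-- The faces with a nonzero weight have a free corner. -/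
theorem th3_free (hW : W3 (TP h x₀) (TC h h3) (piB X B) (Sum.inl ()) w c n s₁ s₂
      (fun j => {v : X | v.1 ∈ O3 j}) (pi3 X O3) Sum.inl) (Θ : Dt → ℂ) {d : Fc X b × ZMod 3}
    (hd : th3 h h3 (c (s₁ - 1)) Θ d ≠ 0) : tail d ∉ B ∨ head d ∉ B ∨ vc d.1 d.2 ∉ B := by
  by_contra hcon
  push Not at hcon
  obtain ⟨h1, h2, h4⟩ := hcon
  have hg : (TC h h3).Good d := by
    by_contra hg
    exact hd (th3_good h h3 Θ _ d hg)
  apply hd
  apply th3_face
  refine hW.unique hg ?_ ?_ ?_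
  · rw [piB_eq_iff, src_TP]; exact h1
  · rw [piB_eq_iff, tgt_TP]; exact h2
  · rw [piB_eq_iff]
    have := H565.HT_apex h x₀ d
    rw [show ((TP h x₀).apex d : X).1 = vc d.1 d.2 from this]
    exact h4

variable {x₀}

section value

variable {h h3} (hW : W3 (TP h x₀) (TC h h3) (piB X B) (Sum.inl ()) w c n s₁ s₂
      (fun j => {v : X | v.1 ∈ O3 j}) (pi3 X O3) Sum.inl)
include hW

/-- The value of the class of the frozen face with the plane weight. -/
theorem cls_th3 [Fintype (Fc X b × ZMod 3)] (Θ : Dt → ℂ) {σ : CV X O3 → Bool}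
    {q : Fc X b × ZMod 3} (hq : (TC h h3).InFace (c (s₁ - 1)) q) {α β : Fin 3} {m : ℕ}
    {f : ℕ → Fc X b × ZMod 3} {j₁ i₁ : ℕ}
    (hp : Path3 (TP h x₀) (TC h h3) (piB X B) (Sum.inl ()) c n s₁ s₂ σ q α β m f j₁ i₁) :
    (TC h h3).cls σ q (th3 h h3 (c (s₁ - 1)) Θ) = ∑ i ∈ Finset.Ico 1 m, thP h x₀ Θ (f i) := by
  rw [hp.cls_eq _ (th3_face h h3 Θ hq)]
  apply Finset.sum_congr rfl
  intro i hi
  rw [Finset.mem_Ico] at hi
  have hmq : (TC h h3).Mi σ q := by
    have := hp.mi3 0 (by have := hp.two; omega)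
    rwa [hp.zero] at this
  refine th3_eq h x₀ h3 Θ (hp.good3 i hi.2) ?_
  intro hh
  have hne : f i ≠ q := by
    intro he
    have := hp.inj3 i hi.2 0 (by omega) (by rw [he, hp.zero])
    omega
  exact inFace_of_mi (TC h h3) hmq (hp.mi3 i hi.2) hne (inFace_trans (inFace_symm hq) hh)

/-- Means over all colourings of the world are means over the fresh colours. -/
theorem four_ex_patt [Fintype X] [Fintype (CV X O3)] {q : Fc X b × ZMod 3}
    (hq : (TC h h3).InFace (c (s₁ - 1)) q)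
    {γ : Fin 3} (hγ : ((TP h x₀).tgt q).1 ∈ O3 γ) {F : (CV X O3 → Bool) → ℝ}
    (hneg : ∀ σ, F (fun v => !σ v) = F σ) (h0 : ∀ σ, ¬ (TC h h3).Mi σ q → F σ = 0) :
    4 * ex F = ex fun s : X → Bool => F (patt X O3 γ s) := by
  classical
  haveI : Fintype (Free X O3) := by
    haveI : Finite (Free X O3) := Finite.of_injective _ (frI_inj (X := X) (O3 := O3))
    exact Fintype.ofFinite _
  have hsub : ‹Fintype (CV X O3)› = instFintypeSum (Fin 3) (Free X O3) := Subsingleton.elim _ _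
  subst hsub
  refine four_ex frI_inj γ hneg ?_
  intro σ hσ j hj
  have hm : (TC h h3).Mi σ q := by
    by_contra hm
    exact hσ (h0 σ hm)
  have hgq := hW.good_q hq
  obtain ⟨a1, a2, a3⟩ := hW.o_corners
  -- the labels of the corners of `q`
  have hlab : ∃ α β : Fin 3, (TP h x₀).src q ∈ {v : X | v.1 ∈ O3 α} ∧
      (TP h x₀).apex q ∈ {v : X | v.1 ∈ O3 β} := by
    rcases hq with rfl | rfl | rfl
    · exact ⟨1, 2, a1, a3⟩
    · refine ⟨0, 1, ?_, ?_⟩
      · have : (TP h x₀).src ((TC h h3).nxt (c (s₁ - 1))) = (TP h x₀).tgt (c (s₁ - 1)) :=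
          (TP h x₀).src_nxt' _
        rw [this]; exact a2
      · have : (TP h x₀).apex ((TC h h3).nxt (c (s₁ - 1))) = (TP h x₀).src (c (s₁ - 1)) :=
          (TP h x₀).apex_nxt _
        rw [this]; exact a1
    · refine ⟨2, 0, ?_, ?_⟩
      · have : (TP h x₀).src ((TC h h3).nxt ((TC h h3).nxt (c (s₁ - 1)))) =
            (TP h x₀).apex (c (s₁ - 1)) := (TP h x₀).src_nxt2 _
        rw [this]; exact a3
      · have : (TP h x₀).apex ((TC h h3).nxt ((TC h h3).nxt (c (s₁ - 1)))) =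
            (TP h x₀).tgt (c (s₁ - 1)) := (TP h x₀).apex_nxt2 _
        rw [this]; exact a2
  obtain ⟨α, β, hα, hβ⟩ := hlab
  have e1 := hW.src3 hα
  have e2 := hW.apex3 hβ
  have e3 : (TC h h3).tgt q = Sum.inl γ := hW.tgt3 hγ
  have hmi := hm
  unfold Tri.Mi at hmi
  rw [e1, e3, e2] at hmi
  rcases hW.third hgq hα hβ hγ j with rfl | rfl | rfl
  · exact hmi.1
  · rw [hmi.2]; exact hmi.1
  · exact absurd rfl hj

omit hW in
theorem cls_neg' {V' D' : Type*} [Fintype D'] (T' : Tri V' D') (σ : V' → Bool) (d : D') (Θ : D' → ℂ) :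
    T'.cls (fun v => !σ v) d Θ = T'.cls σ d Θ := by
  classical
  unfold Tri.cls
  apply Finset.sum_congr rfl
  intro e _
  have : T'.Rel (fun v => !σ v) e d ↔ T'.Rel σ e d := rel_neg T' σ e d
  simp only [this]

omit hW in
theorem ds_neg' {V' D' : Type*} [Fintype D'] (T' : Tri V' D') (P : D' → ℂ) (σ : V' → Bool) (d : D') :
    ds T' P (fun v => !σ v) d = ds T' P σ d := by
  classical
  unfold ds
  apply Finset.sum_congr rfl
  intro e _
  have : T'.Rel (fun v => !σ v) e d ↔ T'.Rel σ e d := rel_neg T' σ e d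
  simp only [this]

variable [Fintype X] [Fintype (CV X O3)] [Fintype (Fc X b × ZMod 3)]

/-- **The second moment of the class of the frozen face.** -/
theorem ex_cls_sq_le {τ : ℂ} (hτ : τ ^ 2 + τ + 1 = 0) {Θ : Dt → ℂ}
    (hΘ : ∀ d, Θ (rt d) = τ ^ 2 * Θ d) {q : Fc X b × ZMod 3}
    (hq : (TC h h3).InFace (c (s₁ - 1)) q) {γ : Fin 3} (hγ : ((TP h x₀).tgt q).1 ∈ O3 γ) :
    (ex fun s : X → Bool => ‖(TC h h3).cls (patt X O3 γ s) q (th3 h h3 (c (s₁ - 1)) Θ)‖ ^ 2) ≤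
      ∑ d, ‖th3 h h3 (c (s₁ - 1)) Θ d‖ ^ 2 := by
  rw [← four_ex_patt hW hq hγ
    (F := fun σ => ‖(TC h h3).cls σ q (th3 h h3 (c (s₁ - 1)) Θ)‖ ^ 2)
    (fun σ => by rw [cls_neg']) (fun σ hσ => by rw [cls_not _ hσ]; simp)]
  have h1 := sum_tot (TC h h3) (h.planar258 _ _) hτ (th3_rot h h3 hΘ (c (s₁ - 1)))
    (th3_good h h3 Θ (c (s₁ - 1)))
  have h2 : (ex fun σ => ‖(TC h h3).cls σ q (th3 h h3 (c (s₁ - 1)) Θ)‖ ^ 2) ≤
      ex fun σ => tot (TC h h3) σ (th3 h h3 (c (s₁ - 1)) Θ) :=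
    ex_mono fun σ => cls_sq_le _ _ q _
  have h4 : (ex fun σ => tot (TC h h3) σ (th3 h h3 (c (s₁ - 1)) Θ)) =
      1 / 4 * ∑ d, ‖th3 h h3 (c (s₁ - 1)) Θ d‖ ^ 2 := by
    have h5 : ∑ σ : CV X O3 → Bool, tot (TC h h3) σ (th3 h h3 (c (s₁ - 1)) Θ) =
        2 ^ Fintype.card (CV X O3) / 4 * ∑ d, ‖th3 h h3 (c (s₁ - 1)) Θ d‖ ^ 2 :=
      (sum_inst _ _ _).trans h1
    rw [ex_eq', h5]
    have : (2 : ℝ) ^ Fintype.card (CV X O3) ≠ 0 := by positivity
    field_simp
  rw [h4] at h2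
  linarith

/-- **The calibration inequality in fresh colours**, positive orientation. -/
theorem cal3_patt {pos : X → ℂ} {W δ : ℝ} (hδ : 0 ≤ δ) (hW0 : 0 ≤ W)
    (hp : ArcPos (TP h x₀) c n s₁ s₂ pos W δ) {τ : ℂ} (hτ : τ ^ 2 + τ + 1 = 0) (hi : 0 < τ.im)
    {r : ℝ} (hr : 0 ≤ r) {ε : ℝ}
    (hbad : (pr fun s : X → Bool => ∃ g, (TC h h3).Rel (patt X O3 2 s)
      ((TC h h3).nxt (c (s₁ - 1))) g ∧ g ≠ (TC h h3).nxt (c (s₁ - 1)) ∧
      (TC h h3).src g = Sum.inl 1 ∧ (pos ((TP h x₀).src g)).re < r) ≤ ε)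
    {Θ : Dt → ℂ} (hΘ : ∀ d, Θ (rt d) = τ ^ 2 * Θ d) {z : ℂ} {ε' : ℝ}
    (hh : ∀ q, (TC h h3).InFace (c (s₁ - 1)) q → ∀ γ, ((TP h x₀).tgt q).1 ∈ O3 γ →
      (ex fun s : X → Bool => ‖(TC h h3).cls (patt X O3 γ s) q (th3 h h3 (c (s₁ - 1)) Θ) -
        z * ds (TC h h3) (fun d => pos ((TP h x₀).src d)) (patt X O3 γ s) q‖) ≤ ε') :
    ‖z‖ * ((1 - ε) * (r / 2) - 10 * δ) ≤ 3 * ε' := by
  classical
  obtain ⟨a1, a2, a3⟩ := hW.o_corners
  refine hW.cal3 hδ hW0 hp hτ hi hr (ε := ε) ?_ (Θ := th3 h h3 (c (s₁ - 1)) Θ)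
    (th3_rot h h3 hΘ _) (th3_face h h3 Θ (Or.inl rfl)) (z := z) (ε' := ε') ?_
  · have hq : (TC h h3).InFace (c (s₁ - 1)) ((TC h h3).nxt (c (s₁ - 1))) := Or.inr (Or.inl rfl)
    have hγ : ((TP h x₀).tgt ((TC h h3).nxt (c (s₁ - 1)))).1 ∈ O3 2 := by
      have : (TP h x₀).tgt ((TC h h3).nxt (c (s₁ - 1))) = (TP h x₀).apex (c (s₁ - 1)) :=
        (TP h x₀).tgt_nxt _
      rw [this]; exact a3
    have h1 := four_ex_patt hW hq hγ (F := fun σ => if (∃ g, (TC h h3).Rel σ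
      ((TC h h3).nxt (c (s₁ - 1))) g ∧ g ≠ (TC h h3).nxt (c (s₁ - 1)) ∧
      (TC h h3).src g = Sum.inl 1 ∧ (pos ((TP h x₀).src g)).re < r) then 1 else 0) ?_ ?_
    · rw [pr_eq'] at hbad ⊢
      exact h1.trans_le hbad
    · intro σ
      have : ∀ g, (TC h h3).Rel (fun v => !σ v) ((TC h h3).nxt (c (s₁ - 1))) g ↔
          (TC h h3).Rel σ ((TC h h3).nxt (c (s₁ - 1))) g := fun g => rel_neg _ σ _ g
      simp only [this]
    · intro σ hσ
      rw [if_neg]
      rintro ⟨g, hg, -⟩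
      exact hσ hg.1
  · intro q hq
    obtain ⟨γ, hγ⟩ : ∃ γ, ((TP h x₀).tgt q).1 ∈ O3 γ := by
      rcases hq with rfl | rfl | rfl
      · exact ⟨0, a2⟩
      · refine ⟨2, ?_⟩
        have : (TP h x₀).tgt ((TC h h3).nxt (c (s₁ - 1))) = (TP h x₀).apex (c (s₁ - 1)) :=
          (TP h x₀).tgt_nxt _
        rw [this]; exact a3
      · refine ⟨1, ?_⟩
        have : (TP h x₀).tgt ((TC h h3).nxt ((TC h h3).nxt (c (s₁ - 1)))) =
            (TP h x₀).src (c (s₁ - 1)) := (TP h x₀).tgt_nxt2 _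
        rw [this]; exact a1
    rw [four_ex_patt hW hq hγ ?_ ?_]
    · exact hh q hq γ hγ
    · intro σ
      rw [cls_neg', ds_neg']
    · intro σ hσ
      rw [cls_not _ hσ, ds_not _ hσ]
      simp

end value

end hull

end Vale.Agent.P148.R2.H251
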