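import Vale.Agent.P148.R2.H251.W3h
import Vale.Agent.P148.R2.H291.EvW
import Vale.Agent.P148.R2.H910.Inst

/-!
# P148, row CAL: the energy of the three-class weight

`th3_le_EQ` : on the environment event the energy of the weight `th3` is at most the energy of
the plane set in a disc; `th3_energy` : it is at most the constant `CT κ (2 R)`.
-/

set_option linter.unusedSectionVars false

open Set Function Metric _root_.P148
open scoped Classical ENNReal NNReal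
open Vale.Agent.P148.R2.H258 Vale.Agent.P148.R2.H258.Tri Vale.Agent.P148.R2.H659
  Vale.Agent.P148.R2.H871 Vale.Agent.P148.R2.H592
  Vale.Agent.P148.R2.H184 Vale.Agent.P148.R2.H291
open Vale.Agent.P148.R2.H566 (W0)
open Vale.Agent.P148.R2.H400 (TP TB piB secB piB_eq_iff contrB src_TP tgt_TP nbr_dt)

namespace Vale.Agent.P148.R2.H251

variable {w : W0} {Y : Set ℂ} {R s : ℝ} {x₀ : w.X} {O3 : Fin 3 → Set ℂ}
  {h3 : Three3 w.X w.B O3} {col : w.X → Bool} {c : ℕ → Fc w.X w.b × ZMod 3} {n s₁ s₂ : ℕ}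

/-- Faces with a free corner are local. -/
theorem lf_corner (h : InEnv w Y R s) {q : Fc w.X w.b × ZMod 3}
    (hq : tail q ∉ w.B ∨ head q ∉ w.B ∨ vc q.1 q.2 ∉ w.B) :
    LF w.X (closedBall 0 (R + s)) (dt q) := by
  rcases hq with hq | hq | hq
  · exact h.lf (q := q) hq
  · have h3 := h.lf (q := ((q.1, q.2 + 1) : Fc w.X w.b × ZMod 3))
      (by rw [HullTri.tail_next]; exact hq)
    rw [dt_next] at h3
    exact LF_rt.1 h3
  · have h3 := h.lf (q := ((q.1, q.2 + 1 + 1) : Fc w.X w.b × ZMod 3))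
      (by
        have e := HullTri.tail_next ((q.1, q.2 + 1) : Fc w.X w.b × ZMod 3)
        have e' := HullTri.head_next (q : Fc w.X w.b × ZMod 3)
        rw [e, e']; exact hq)
    have e := dt_next ((q.1, q.2 + 1) : Fc w.X w.b × ZMod 3)
    rw [e, dt_next] at h3
    exact LF_rt.1 (LF_rt.1 h3)

/-- **The energy of the three-class weight.** -/
theorem th3_le_EQ [hf : Fintype (Fc w.X w.b × ZMod 3)] (h : InEnv w Y R s)
    (hW : W3 (TP w.hull x₀) (TC w.hull h3) (piB w.X w.B) (Sum.inl ()) col c n s₁ s₂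
      (fun j => {v : w.X | v.1 ∈ O3 j}) (pi3 w.X O3) Sum.inl) (Θ : Dt → ℂ) :
    ENNReal.ofReal (∑ d, ‖th3 w.hull h3 (c (s₁ - 1)) Θ d‖ ^ 2) ≤
      EQ Y (closedBall 0 (R + s)) Θ := by
  have hs := h.hs
  have hsub : closedBall (0 : ℂ) (R + s) ⊆ closedBall 0 (R + 5 * s) :=
    closedBall_subset_closedBall (by linarith)
  have e0 : ∑ d, ‖th3 w.hull h3 (c (s₁ - 1)) Θ d‖ ^ 2 =
      ∑ d : w.D, ‖th3 w.hull h3 (c (s₁ - 1)) Θ d‖ ^ 2 := H910.sum_inst _ _ _
  rw [e0, EQ_congr (inter_sub hsub h.agree) Θ]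
  unfold EQ
  rw [tsum_dt (Q := closedBall 0 (R + s)) w.hull (F := fun d =>
    if LF w.X (closedBall 0 (R + s)) d then ENNReal.ofReal (‖Θ d‖ ^ 2) else 0) (fun d hd => by
      by_contra hcon
      exact hd (if_neg hcon))]
  have h1 : ∀ q : w.D, ENNReal.ofReal (‖th3 w.hull h3 (c (s₁ - 1)) Θ q‖ ^ 2) ≤
      if LF w.X (closedBall 0 (R + s)) (dt q) then ENNReal.ofReal (‖Θ (dt q)‖ ^ 2) else 0 := by
    intro q
    by_cases h0 : th3 w.hull h3 (c (s₁ - 1)) Θ q = 0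
    · rw [h0]; simp
    · rw [if_pos (lf_corner h (th3_free w.hull x₀ h3 hW Θ h0))]
      exact ENNReal.ofReal_le_ofReal (by
        have := norm_th3_le w.hull h3 Θ (c (s₁ - 1)) q
        gcongr)
  calc ENNReal.ofReal (∑ d : w.D, ‖th3 w.hull h3 (c (s₁ - 1)) Θ d‖ ^ 2)
      = ∑ d : w.D, ENNReal.ofReal (‖th3 w.hull h3 (c (s₁ - 1)) Θ d‖ ^ 2) :=
        ENNReal.ofReal_sum_of_nonneg fun _ _ => by positivity
    _ ≤ _ := Finset.sum_le_sum fun q _ => h1 q

theorem CT_nonneg' (κ R : ℝ) : 0 ≤ CT κ R := by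
  have : (0 : ℝ) ≤ CD 2 3 := H291.CD_nonneg _ _
  unfold CT
  positivity

/-- **The energy is at most a constant** on the environment event. -/
theorem th3_energy [Fintype (Fc w.X w.b × ZMod 3)] {κ : ℝ} {Θ : Dt → ℂ} {s' : ℝ}
    {I : Finset (ℂ × ℝ)} {T : Set Pt} (hG : GEnv κ Θ R s' I T) (h : InEnv w (pts T) R s)
    (hsR : s ≤ R) (hW : W3 (TP w.hull x₀) (TC w.hull h3) (piB w.X w.B) (Sum.inl ()) col c n s₁ s₂
      (fun j => {v : w.X | v.1 ∈ O3 j}) (pi3 w.X O3) Sum.inl) :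
    ∑ d, ‖th3 w.hull h3 (c (s₁ - 1)) Θ d‖ ^ 2 ≤ CT κ (2 * R) := by
  have h1 := (th3_le_EQ h hW Θ).trans (le_trans (b := EQ (pts T) (closedBall 0 (2 * R)) Θ) (by
    unfold EQ
    refine ENNReal.tsum_le_tsum fun d => ?_
    split_ifs with h1 h2 h2
    · exact le_rfl
    · exact absurd (h1.mono (closedBall_subset_closedBall (by linarith))) h2
    · exact zero_le
    · exact le_rfl) hG.tot)
  exact (ENNReal.ofReal_le_ofReal_iff (CT_nonneg' _ _)).1 h1

end Vale.Agent.P148.R2.H251
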