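import Vale.Agent.P148.R2.H251.CalW2
import Vale.Agent.P148.R2.H897.CalTime

/-!
# P148, row CAL: from the dichotomy of helper897 to the input of `world_cal_e`

`BadK` : the bad alternatives of the dichotomy for one pattern (something seen near the marks, a free
path from the marks, or the two ends close to each other). `hk_of_dich` : the input `hk` of
`world_cal` from `Dich` for every fresh colouring and the bounds of the two values in the closed case.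
-/

set_option linter.unusedSectionVars false

open Set Function Relation
open scoped Classical
open Vale.Agent.P148.R2.H258 Vale.Agent.P148.R2.H258.Tri Vale.Agent.P148.R2.H659
  Vale.Agent.P148.R2.H871 Vale.Agent.P148.R2.H953 Vale.Agent.P148.R2.H592
  Vale.Agent.P148.R2.H184 Vale.Agent.P148.R2.H203 Vale.Agent.P148.R2.H910
  Vale.Agent.P148.R2.H897
open Vale.Agent.P148.R2.H838 (Joined)
open Vale.Agent.P148.R2.H400 (TP TB piB secB piB_eq_iff contrB src_TP tgt_TP nbr_dt)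

namespace Vale.Agent.P148.R2.H251

section bad

variable {V V1 V3 D : Type*}

/-- The bad alternatives: `G1`, `G2`, or the two ends at distance at most `ρ`; with the path and the
reach of the third arc. -/
def BadK [Fintype D] (T : Tri V D) (T3 : Tri V3 D) (π : V → V1) (O : V1)
    (c : ℕ → D) (n s₁ s₂ : ℕ) (π3 : V → V3) (lab : Fin 3 → V3) (σ : V3 → Bool) (q : D)
    (α β γ : Fin 3) (Z Z' : Set V) (pos : V → ℂ) (ρ : ℝ) : Prop :=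
  ∃ m f j₁ i₁ N, Path3 T T3 π O c n s₁ s₂ σ q α β m f j₁ i₁ ∧
    (T3.st σ)^[N] (f 1) = f (m - 1) ∧
    (∀ i, 1 ≤ i → i < m → ∃ k ≤ N, (T3.st σ)^[k] (f 1) = f i) ∧
    (∃ i < n, InArc s₁ s₂ n γ i ∧ (T.tgt (f 1) = T.src (c i) ∨
      ∃ u, (∃ e, T.src e = T.src (c i) ∧ T.tgt e = u) ∧
        Joined T (fun v => σ (π3 v)) (σ (lab γ)) {v | π v ≠ O} u (T.tgt (f 1)))) ∧
    ((∃ z ∈ Z', z ∈ Sn T T3 σ (f 1) N ∧
        BArm T {v | π v ≠ O} (fun v => σ (π3 v)) (σ (T3.src q)) z (f 1) (f (m - 1))) ∨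
      (∃ z ∈ Z, ∃ u, Nb T u z ∧
        Joined T (fun v => σ (π3 v)) (σ (lab γ)) {v | π v ≠ O} u (T.tgt (f 1))) ∨
      ‖pos (T.src (c j₁)) - pos (T.src (c i₁))‖ ≤ ρ)

/-- The closed case, with the two ends at distance larger than `ρ`. -/
def ClosedK [Fintype D] (T : Tri V D) (T3 : Tri V3 D) (π : V → V1) (O : V1)
    (c : ℕ → D) (n s₁ s₂ : ℕ) (π3 : V → V3) (lab : Fin 3 → V3) (σ : V3 → Bool) (q : D)
    (α β γ : Fin 3) (Z Z' : Set V) (τ : V → Bool) (pos : V → ℂ) (ρ : ℝ) (m : ℕ) (f : ℕ → D)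
    (j₁ i₁ N : ℕ) : Prop :=
  Path3 T T3 π O c n s₁ s₂ σ q α β m f j₁ i₁ ∧
    (T3.st σ)^[N] (f 1) = f (m - 1) ∧
    (∀ i, 1 ≤ i → i < m → ∃ k ≤ N, (T3.st σ)^[k] (f 1) = f i) ∧
    (∀ z ∈ Sn T T3 σ (f 1) N, z ∉ Z') ∧
    T.Mi τ (f 1) ∧ (∀ g, T.Rel τ (f 1) g ↔ (∃ i, 1 ≤ i ∧ i < m ∧ g = f i) ∨
      ∃ k < gapL n j₁ i₁, g = cy c n (j₁ + k)) ∧
    (∃ i < n, InArc s₁ s₂ n γ i ∧ T.src (c i) ∉ Z ∧ (T.tgt (f 1) = T.src (c i) ∨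
      ∃ u, (∃ e, T.src e = T.src (c i) ∧ T.tgt e = u) ∧
        Joined T (fun v => σ (π3 v)) (σ (lab γ)) {v | π v ≠ O ∧ v ∉ Z} u (T.tgt (f 1)))) ∧
    ρ < ‖pos (T.src (c j₁)) - pos (T.src (c i₁))‖

theorem dich_cases [Fintype D] {T : Tri V D} {T3 : Tri V3 D} {π : V → V1} {O : V1}
    {c : ℕ → D} {n s₁ s₂ : ℕ} {π3 : V → V3} {lab : Fin 3 → V3} {σ : V3 → Bool} {q : D}
    {α β γ : Fin 3} {Z Z' : Set V} {τ : V → Bool}
    (h : Dich T T3 π O c n s₁ s₂ π3 lab σ q α β γ Z Z' τ) (pos : V → ℂ) (ρ : ℝ) :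
    BadK T T3 π O c n s₁ s₂ π3 lab σ q α β γ Z Z' pos ρ ∨
      ∃ m f j₁ i₁ N, ClosedK T T3 π O c n s₁ s₂ π3 lab σ q α β γ Z Z' τ pos ρ m f j₁ i₁ N ∧
        ∀ Θ : D → ℂ, T.cls τ (f 1) Θ = ∑ i ∈ Finset.Ico 1 m, Θ (f i) +
          ∑ k ∈ Finset.range (gapL n j₁ i₁), Θ (cy c n (j₁ + k)) := by
  obtain ⟨m, f, j₁, i₁, N, a1, a2, a3, a4, h5⟩ := h
  rcases h5 with h5 | ⟨h5, h6 | ⟨h6, h7, h8, h9⟩⟩
  · exact Or.inl ⟨m, f, j₁, i₁, N, a1, a2, a3, a4, Or.inl h5⟩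
  · exact Or.inl ⟨m, f, j₁, i₁, N, a1, a2, a3, a4, Or.inr (Or.inl h6)⟩
  · rcases le_or_gt ‖pos (T.src (c j₁)) - pos (T.src (c i₁))‖ ρ with h10 | h10
    · exact Or.inl ⟨m, f, j₁, i₁, N, a1, a2, a3, a4, Or.inr (Or.inr h10)⟩
    · exact Or.inr ⟨m, f, j₁, i₁, N, ⟨a1, a2, a3, h5, h6, h7, h9, h10⟩, h8⟩

end bad

section hull

variable {X : Set ℂ} {b : ZMod 3 → ℂ} {h : HullTri X b} {x₀ : X} {B : Set ℂ}
  {O3 : Fin 3 → Set ℂ} {h3 : Three3 X B O3} {w : X → Bool} {c : ℕ → Fc X b × ZMod 3} {n s₁ s₂ : ℕ}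
  (hW : W3 (TP h x₀) (TC h h3) (piB X B) (Sum.inl ()) w c n s₁ s₂
      (fun j => {v : X | v.1 ∈ O3 j}) (pi3 X O3) Sum.inl)

/-- The labels of the source and of the apex of the dart of the frozen face with target in the class
`γ`. -/
def sa (γ : Fin 3) : Fin 3 × Fin 3 := if γ = 0 then (1, 2) else if γ = 2 then (0, 1) else (2, 0)

include hW in
theorem sa_spec {q : Fc X b × ZMod 3} (hq : (TC h h3).InFace (c (s₁ - 1)) q) {γ : Fin 3}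
    (hγ : ((TP h x₀).tgt q).1 ∈ O3 γ) :
    ((TP h x₀).src q).1 ∈ O3 (sa γ).1 ∧ ((TP h x₀).apex q).1 ∈ O3 (sa γ).2 := by
  obtain ⟨a1, a2, a3⟩ := hW.o_corners
  have hu : ∀ {v : X} {i j : Fin 3}, v.1 ∈ O3 i → v.1 ∈ O3 j → i = j := fun hi hj =>
    hW.cls_unique (v := _) hi hj
  rcases hq with rfl | rfl | rfl
  · obtain rfl := hu a2 hγ
    exact ⟨a1, a3⟩
  · have e1 : (TP h x₀).src ((TC h h3).nxt (c (s₁ - 1))) = (TP h x₀).tgt (c (s₁ - 1)) :=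
      (TP h x₀).src_nxt' _
    have e2 : (TP h x₀).apex ((TC h h3).nxt (c (s₁ - 1))) = (TP h x₀).src (c (s₁ - 1)) :=
      (TP h x₀).apex_nxt _
    have e3 : (TP h x₀).tgt ((TC h h3).nxt (c (s₁ - 1))) = (TP h x₀).apex (c (s₁ - 1)) :=
      (TP h x₀).tgt_nxt _
    rw [e3] at hγ
    obtain rfl := hu a3 hγ
    rw [e1, e2]
    exact ⟨a2, a1⟩
  · have e1 : (TP h x₀).src ((TC h h3).nxt ((TC h h3).nxt (c (s₁ - 1)))) =
        (TP h x₀).apex (c (s₁ - 1)) := (TP h x₀).src_nxt2 _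
    have e2 : (TP h x₀).apex ((TC h h3).nxt ((TC h h3).nxt (c (s₁ - 1)))) =
        (TP h x₀).tgt (c (s₁ - 1)) := (TP h x₀).apex_nxt2 _
    have e3 : (TP h x₀).tgt ((TC h h3).nxt ((TC h h3).nxt (c (s₁ - 1)))) =
        (TP h x₀).src (c (s₁ - 1)) := (TP h x₀).tgt_nxt2 _
    rw [e3] at hγ
    obtain rfl := hu a1 hγ
    rw [e1, e2]
    exact ⟨a3, a2⟩

include hW in
/-- The dart of the frozen face is minority for its pattern. -/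
theorem mi_patt {q : Fc X b × ZMod 3} (hq : (TC h h3).InFace (c (s₁ - 1)) q) {γ : Fin 3}
    (hγ : ((TP h x₀).tgt q).1 ∈ O3 γ) (s : X → Bool) : (TC h h3).Mi (patt X O3 γ s) q := by
  obtain ⟨h1, h2⟩ := sa_spec hW hq hγ
  have e1 : (TC h h3).src q = Sum.inl (sa γ).1 := hW.src3 h1
  have e2 : (TC h h3).apex q = Sum.inl (sa γ).2 := hW.apex3 h2
  have e3 : (TC h h3).tgt q = Sum.inl γ := hW.tgt3 hγ
  unfold Tri.Mi
  rw [e1, e2, e3, patt_inl, patt_inl, patt_inl]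
  have h7 : γ = 0 ∨ γ = 1 ∨ γ = 2 := (by decide : ∀ j : Fin 3, j = 0 ∨ j = 1 ∨ j = 2) γ
  rcases h7 with rfl | rfl | rfl <;> simp [sa]

variable [Fintype X] [Fintype (CV X O3)] [Fintype (Fc X b × ZMod 3)]

/-- The bad event of the colouring `s` for the pattern `γ`. -/
def BadA (h : HullTri X b) (x₀ : X) (B : Set ℂ) (h3 : Three3 X B O3) (c : ℕ → Fc X b × ZMod 3)
    (n s₁ s₂ : ℕ) (Z Z' : Fin 3 → Set X) (pos : X → ℂ) (ρ : ℝ) (γ : Fin 3) (s : X → Bool) : Prop :=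
  ∃ q, (TC h h3).InFace (c (s₁ - 1)) q ∧ ((TP h x₀).tgt q).1 ∈ O3 γ ∧
    BadK (TP h x₀) (TC h h3) (piB X B) (Sum.inl ()) c n s₁ s₂ (pi3 X O3) Sum.inl
      (patt X O3 γ s) q (sa γ).1 (sa γ).2 γ (Z γ) (Z' γ) pos ρ

include hW in
/-- **The input of `world_cal`** from the dichotomy. -/
theorem hk_of_dich {pos : X → ℂ} {Θ : Dt → ℂ} {z : ℂ} {ρ : ℝ} {Z Z' : Fin 3 → Set X}
    {tau : Fin 3 → (X → Bool) → X → Bool} {MQ DV : Fin 3 → (X → Bool) → ℝ}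
    (hdich : ∀ q, (TC h h3).InFace (c (s₁ - 1)) q → ∀ γ, ((TP h x₀).tgt q).1 ∈ O3 γ →
      ∀ s : X → Bool, Dich (TP h x₀) (TC h h3) (piB X B) (Sum.inl ()) c n s₁ s₂ (pi3 X O3) Sum.inl
        (patt X O3 γ s) q (sa γ).1 (sa γ).2 γ (Z γ) (Z' γ) (tau γ s))
    (hMQ : ∀ q, (TC h h3).InFace (c (s₁ - 1)) q → ∀ γ, ((TP h x₀).tgt q).1 ∈ O3 γ →
      ∀ s, ¬ BadA h x₀ B h3 c n s₁ s₂ Z Z' pos ρ γ s →
      ∀ m f j₁ i₁ N, ClosedK (TP h x₀) (TC h h3) (piB X B) (Sum.inl ()) c n s₁ s₂ (pi3 X O3)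
        Sum.inl (patt X O3 γ s) q (sa γ).1 (sa γ).2 γ (Z γ) (Z' γ) (tau γ s) pos ρ m f j₁ i₁ N →
        ‖(TP h x₀).cls (tau γ s) (f 1) (thP h x₀ Θ)‖ ^ 2 ≤ MQ γ s)
    (hDV : ∀ q, (TC h h3).InFace (c (s₁ - 1)) q → ∀ γ, ((TP h x₀).tgt q).1 ∈ O3 γ →
      ∀ s, ¬ BadA h x₀ B h3 c n s₁ s₂ Z Z' pos ρ γ s →
      ∀ m f j₁ i₁ N, ClosedK (TP h x₀) (TC h h3) (piB X B) (Sum.inl ()) c n s₁ s₂ (pi3 X O3)
        Sum.inl (patt X O3 γ s) q (sa γ).1 (sa γ).2 γ (Z γ) (Z' γ) (tau γ s) pos ρ m f j₁ i₁ N →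
        ‖∑ k ∈ Finset.range (gapL n j₁ i₁), thP h x₀ Θ (cy c n (j₁ + k)) +
          z * (pos ((TP h x₀).src (c j₁)) - pos ((TP h x₀).src (c i₁)))‖ ^ 2 ≤ DV γ s) :
    ∀ q, (TC h h3).InFace (c (s₁ - 1)) q → ∀ γ, ((TP h x₀).tgt q).1 ∈ O3 γ →
      ∀ s : X → Bool, BadA h x₀ B h3 c n s₁ s₂ Z Z' pos ρ γ s ∨ ∃ u v : ℂ,
        (TC h h3).cls (patt X O3 γ s) q (th3 h h3 (c (s₁ - 1)) Θ) = u - v ∧
        ‖u‖ ^ 2 ≤ MQ γ s ∧
        ‖v + z * ds (TC h h3) (fun d => pos ((TP h x₀).src d)) (patt X O3 γ s) q‖ ^ 2 ≤ DV γ s := by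
  intro q hq γ hγ s
  by_cases hb : BadA h x₀ B h3 c n s₁ s₂ Z Z' pos ρ γ s
  · exact Or.inl hb
  rcases dich_cases (hdich q hq γ hγ s) pos ρ with h1 | ⟨m, f, j₁, i₁, N, h1, h2⟩
  · exact (hb ⟨q, hq, hγ, h1⟩).elim
  · refine Or.inr ⟨(TP h x₀).cls (tau γ s) (f 1) (thP h x₀ Θ),
      ∑ k ∈ Finset.range (gapL n j₁ i₁), thP h x₀ Θ (cy c n (j₁ + k)), ?_,
      hMQ q hq γ hγ s hb m f j₁ i₁ N h1, ?_⟩
    · rw [cls_th3 hW Θ hq h1.1, h2 (thP h x₀ Θ)]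
      ring
    · rw [h1.1.ds_eq' hW.contr pos]
      exact hDV q hq γ hγ s hb m f j₁ i₁ N h1

end hull

end Vale.Agent.P148.R2.H251
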