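import Vale.Agent.P148.R2.H251.CalW

/-!
# P148, row CAL: the calibration inequality of one world, linear form
-/

set_option linter.unusedSectionVars false

open Set Function Relation
open scoped Classical
open Vale.Agent.P148.R2.H258 Vale.Agent.P148.R2.H258.Tri Vale.Agent.P148.R2.H659
  Vale.Agent.P148.R2.H871 Vale.Agent.P148.R2.H953 Vale.Agent.P148.R2.H592
  Vale.Agent.P148.R2.H184 Vale.Agent.P148.R2.H203 Vale.Agent.P148.R2.H910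
open Vale.Agent.P148.R2.H400 (TP TB piB secB piB_eq_iff contrB src_TP tgt_TP nbr_dt)

namespace Vale.Agent.P148.R2.H251

variable {X : Set ℂ} {b : ZMod 3 → ℂ} {h : HullTri X b} {x₀ : X} {B : Set ℂ}
  {O3 : Fin 3 → Set ℂ} {h3 : Three3 X B O3} {w : X → Bool} {c : ℕ → Fc X b × ZMod 3} {n s₁ s₂ : ℕ}
  (hW : W3 (TP h x₀) (TC h h3) (piB X B) (Sum.inl ()) w c n s₁ s₂
      (fun j => {v : X | v.1 ∈ O3 j}) (pi3 X O3) Sum.inl)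

variable [Fintype X] [Fintype (CV X O3)] [Fintype (Fc X b × ZMod 3)]
include hW

/-- **The calibration inequality of one world**, linear form: `e` bounds the plane classes and the
deviation, `om` the arms. -/
theorem world_cal_e {pos : X → ℂ} {W δ : ℝ} (hδ : 0 ≤ δ) (hW0 : 0 ≤ W)
    (hp : ArcPos (TP h x₀) c n s₁ s₂ pos W δ) {τ : ℂ} (hτ : τ ^ 2 + τ + 1 = 0) (hi : 0 < τ.im)
    {r : ℝ} (hr : 0 ≤ r) (hδr : 10 * δ ≤ r / 8)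
    (hbad : (pr fun s : X → Bool => ∃ g, (TC h h3).Rel (patt X O3 2 s)
      ((TC h h3).nxt (c (s₁ - 1))) g ∧ g ≠ (TC h h3).nxt (c (s₁ - 1)) ∧
      (TC h h3).src g = Sum.inl 1 ∧ (pos ((TP h x₀).src g)).re < r) ≤ 1 / 2)
    {Θ : Dt → ℂ} (hΘ : ∀ d, Θ (rt d) = τ ^ 2 * Θ d) {z : ℂ}
    {Bad : Fin 3 → (X → Bool) → Prop} {MQ DV : Fin 3 → (X → Bool) → ℝ}
    (hMQ : ∀ γ s, 0 ≤ MQ γ s) (hDV : ∀ γ s, 0 ≤ DV γ s)
    (hk : ∀ q, (TC h h3).InFace (c (s₁ - 1)) q → ∀ γ, ((TP h x₀).tgt q).1 ∈ O3 γ →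
      ∀ s : X → Bool, Bad γ s ∨ ∃ u v : ℂ,
        (TC h h3).cls (patt X O3 γ s) q (th3 h h3 (c (s₁ - 1)) Θ) = u - v ∧
        ‖u‖ ^ 2 ≤ MQ γ s ∧
        ‖v + z * ds (TC h h3) (fun d => pos ((TP h x₀).src d)) (patt X O3 γ s) q‖ ^ 2 ≤ DV γ s)
    {D0 E C e om : ℝ} (hD0 : 0 ≤ D0) (hE0 : 0 ≤ E) (hC : 0 ≤ C) (he : 0 ≤ e) (hom : 0 ≤ om)
    (hD : ∀ q, (TC h h3).InFace (c (s₁ - 1)) q → ∀ γ, ((TP h x₀).tgt q).1 ∈ O3 γ →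
      ∀ s : X → Bool, ‖ds (TC h h3) (fun d => pos ((TP h x₀).src d)) (patt X O3 γ s) q‖ ≤ D0)
    (hE : ∑ d, ‖th3 h h3 (c (s₁ - 1)) Θ d‖ ^ 2 ≤ E)
    (h1 : ∀ γ, ex (MQ γ) ≤ e ^ 2) (h2 : ∀ γ, ex (DV γ) ≤ C ^ 2 * e ^ 2 + (om * (1 + ‖z‖)) ^ 2)
    (h4 : ∀ γ, pr (Bad γ) ≤ om ^ 2) :
    r / 8 * ‖z‖ ≤ 3 * (1 + C) * e +
      3 * (1 + Real.sqrt (2 * E) + 2 * D0) * om * (1 + ‖z‖) := by
  have key := world_cal hW hδ hW0 hp hτ hi hr hbad hΘ hMQ hDV hk hD hE h1 h2 h4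
  have hz := norm_nonneg z
  have hs : 0 ≤ Real.sqrt (2 * E) := Real.sqrt_nonneg _
  have e1 : Real.sqrt (e ^ 2) = e := Real.sqrt_sq he
  have e2 : Real.sqrt (C ^ 2 * e ^ 2 + (om * (1 + ‖z‖)) ^ 2) ≤ C * e + om * (1 + ‖z‖) := by
    rw [Real.sqrt_le_left (by positivity)]
    have : 0 ≤ (C * e) * (om * (1 + ‖z‖)) := by positivity
    nlinarith
  have e3 : Real.sqrt (om ^ 2) = om := Real.sqrt_sq hom
  have e4 : Real.sqrt (2 * E + 2 * (‖z‖ ^ 2 * D0 ^ 2)) ≤ Real.sqrt (2 * E) + 2 * (‖z‖ * D0) := by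
    rw [Real.sqrt_le_left (by positivity)]
    have h3 : Real.sqrt (2 * E) ^ 2 = 2 * E := Real.sq_sqrt (by positivity)
    have h4 : 0 ≤ Real.sqrt (2 * E) * (‖z‖ * D0) := by positivity
    nlinarith [mul_nonneg hz hD0]
  rw [e1, e3] at key
  have e5 : om * Real.sqrt (2 * E + 2 * (‖z‖ ^ 2 * D0 ^ 2)) ≤
      om * (Real.sqrt (2 * E) + 2 * (‖z‖ * D0)) := mul_le_mul_of_nonneg_left e4 hom
  have e6 : ‖z‖ * (10 * δ) ≤ ‖z‖ * (r / 8) := mul_le_mul_of_nonneg_left hδr hz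
  have e7 : om * Real.sqrt (2 * E) ≤ om * Real.sqrt (2 * E) * (1 + ‖z‖) := by
    have : 0 ≤ om * Real.sqrt (2 * E) * ‖z‖ := by positivity
    linarith
  have e8 : om * (2 * (‖z‖ * D0)) ≤ om * (2 * D0) * (1 + ‖z‖) := by
    have : 0 ≤ om * (2 * D0) := by positivity
    nlinarith
  have e9 : 3 * (1 + Real.sqrt (2 * E) + 2 * D0) * om * (1 + ‖z‖) =
      3 * (om * (1 + ‖z‖)) + 3 * (om * Real.sqrt (2 * E) * (1 + ‖z‖)) +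
        3 * (om * (2 * D0) * (1 + ‖z‖)) := by ring
  rw [e9]
  have e10 : ‖z‖ * (r / 4 - 10 * δ) = ‖z‖ * (r / 4) - ‖z‖ * (10 * δ) := by ring
  rw [e10] at key
  have e11 : ‖z‖ * (r / 4) = r / 8 * ‖z‖ + ‖z‖ * (r / 8) := by ring
  nlinarith

end Vale.Agent.P148.R2.H251
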