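import Vale.Agent.P148.R2.H184.L9
import Vale.Agent.P148.R2.H258.A5

/-!
# The two weights have the same value on closed classes (P148, row ORI)
-/

open MeasureTheory Set Metric Topology Filter Function
open scoped ENNReal NNReal

namespace Vale.Agent.P148.R2.H251

open H592 H184 _root_.P148 _root_.P148.H729

/-- The sum of the steps `head - tail` over the class of `d`. -/
noncomputable def stepSum (X Q : Set ℂ) (c : ℂ → Bool) (d : Dt) : ℂ :=
  ∑ᶠ e ∈ cl X Q c d, (e.2.1 - e.1)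

section quenched

variable {X : Set ℂ} {b : ZMod 3 → ℂ} (h : HullTri X b) {V : Type*} (π : ℂ → V) (hπ : Fib X π)
  {Q : Set ℂ}

include h hπ in
/-- The value of a local class on `th τ` does not depend on `τ`. -/
theorem W_th [Finite V] (hF : Faith X Q π) {σ : V → Bool} {q : Fc X b × ZMod 3}
    (hq : InL X Q (pc π σ) (dt q)) (hm : Mn (pc π σ) (dt q)) {τ : ℂ} (hτ : τ ^ 2 + τ + 1 = 0) :
    W X Q (pc π σ) (th τ) (dt q) = stepSum X Q (pc π σ) (dt q) := by
  classical
  have := h.finite_Fc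
  have hm' : (h.tri258 π hπ).Mi σ q := (mi_iff h π hπ σ q).2 hm
  have hg : (h.tri258 π hπ).apex q ≠ (h.tri258 π hπ).src q := by
    rw [apex_eq, src_eq]
    intro he
    have h1 := hq.lf.mem'
    exact hq.lf.ne.2.2 (hF _ h1.2.2.1 h1.2.2.2 _ h1.1.1 he)
  obtain ⟨m, f, hm0, hf0, hfm, hnext, hinj, hrel, -⟩ :=
    (h.tri258 π hπ).class_cycle (h.planar258 π hπ) hm' hg
  have hset : {e | (h.tri258 π hπ).Rel σ e q} = f '' Set.Iio m := by
    ext e
    constructor
    · intro he
      obtain ⟨i, hi, rfl⟩ := (hrel e).1 ((h.tri258 π hπ).rel_symm he)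
      exact ⟨i, hi, rfl⟩
    · rintro ⟨i, hi, rfl⟩
      exact (h.tri258 π hπ).rel_symm ((hrel _).2 ⟨i, hi, rfl⟩)
  have hfinj : Set.InjOn f (Set.Iio m) := by
    intro i hi k hk hik
    exact hinj i hi k hk (by rw [hik])
  have hsum : ∀ F : Dt → ℂ, (∑ᶠ e ∈ cl X Q (pc π σ) (dt q), F e) =
      ∑ i ∈ Finset.range m, F (dt (f i)) := by
    intro F
    rw [cl_eq_image h π hπ hF hq, finsum_mem_image (dt_injective h).injOn, hset,
      finsum_mem_image hfinj]
    have : (Set.Iio m : Set ℕ) = ↑(Finset.range m) := by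
      ext i; simp
    rw [this, finsum_mem_coe_finset]
  have hlf : ∀ i < m, LF X Q (dt (f i)) := by
    intro i hi
    have h1 : Rl X Q (pc π σ) (dt q) (dt (f i)) :=
      (rel_iff h π hπ hF hq).1 ((hrel _).2 ⟨i, hi, rfl⟩)
    exact (h1.inL_right h.three).lf
  have hstep : ∀ i < m, (dt (f i)).2.2 = (dt (f (i + 1))).1 := by
    intro i hi
    have h1 := hnext i hi
    rw [apex_eq, src_eq] at h1
    have h2 := (hlf i hi).mem'
    have h3 : (dt (f (i + 1))).1 ∈ X := by
      rcases Nat.lt_or_ge (i + 1) m with h4 | h4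
      · exact (hlf _ h4).1.1
      · have : i + 1 = m := by omega
        rw [this, hfm, ← hf0]
        exact (hlf 0 (by omega)).1.1
    exact hF _ h2.2.2.1 h2.2.2.2 _ h3 h1.symm
  unfold W stepSum
  rw [hsum, hsum]
  have e1 : ∑ i ∈ Finset.range m, (dt (f i)).2.2 = ∑ i ∈ Finset.range m, (dt (f i)).1 := by
    rw [Finset.sum_congr rfl fun i hi => hstep i (Finset.mem_range.1 hi)]
    have e2 := Finset.sum_range_succ (fun i => (dt (f i)).1) m
    have e3 := Finset.sum_range_succ' (fun i => (dt (f i)).1) m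
    rw [hf0] at e3
    rw [hfm] at e2
    have := e2.symm.trans e3
    exact (add_right_cancel this).symm
  have e4 : ∑ i ∈ Finset.range m, th τ (dt (f i)) =
      ∑ i ∈ Finset.range m, (dt (f i)).2.1 + τ * ∑ i ∈ Finset.range m, (dt (f i)).2.2 +
        τ ^ 2 * ∑ i ∈ Finset.range m, (dt (f i)).1 := by
    rw [Finset.mul_sum, Finset.mul_sum, ← Finset.sum_add_distrib, ← Finset.sum_add_distrib]
    rfl
  rw [e4, e1, Finset.sum_sub_distrib]
  linear_combination (∑ i ∈ Finset.range m, (dt (f i)).1) * hτ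

include h hπ in
theorem gg_th [Finite V] (hF : Faith X Q π) (σ : V → Bool) (d : Dt) {τ τ' : ℂ}
    (hτ : τ ^ 2 + τ + 1 = 0) (hτ' : τ' ^ 2 + τ' + 1 = 0) :
    gg X Q (pc π σ) (th τ) d = gg X Q (pc π σ) (th τ') d := by
  by_cases hd : InL X Q (pc π σ) d
  · obtain ⟨q, rfl⟩ := exists_dt h hd.lf
    by_cases hm : Mn (pc π σ) (dt q)
    · unfold gg
      rw [W_th h π hπ hF hd hm hτ, W_th h π hπ hF hd hm hτ']
    · have : cl X Q (pc π σ) (dt q) = ∅ := by
        ext e
        simp only [cl, mem_ofPred_eq, mem_empty_iff_false, iff_false]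
        exact fun he => hm he.1
      unfold gg W
      rw [this]
      simp
  · rw [gg_zero _ hd, gg_zero _ hd]

include h hπ in
theorem SQ_th [Finite V] (hF : Faith X Q π) (σ : V → Bool) {τ τ' : ℂ}
    (hτ : τ ^ 2 + τ + 1 = 0) (hτ' : τ' ^ 2 + τ' + 1 = 0) :
    SQ X Q (pc π σ) (th τ) = SQ X Q (pc π σ) (th τ') := by
  unfold SQ
  exact tsum_congr fun d => by rw [gg_th h π hπ hF σ d hτ hτ']

end quenched

/-- **The local energies of the two weights agree.** -/
theorem SC_th {T : Set Pt} {ρ : ℝ} (hT : Generic T (bfar ρ)) (hρ : 0 < ρ)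
    {Q : Set ℂ} (hQ : Q ⊆ ball 0 (ρ / 2)) {τ τ' : ℂ}
    (hτ : τ ^ 2 + τ + 1 = 0) (hτ' : τ' ^ 2 + τ' + 1 = 0) (hfin : (T ∩ Q ×ˢ univ).Finite) :
    SC Q (th τ) T = SC Q (th τ') T := by
  classical
  have hH := hT.hullTri_ball hρ hQ
  set X := XU T Q (bfar ρ) with hX
  have hXQ : X ∩ Q = pts T ∩ Q := XU_inter hρ hQ T
  have hfinX : Finite X := hH.fin.to_subtype
  let x₀ : X := ⟨bfar ρ 0, hH.mem 0⟩
  have hπ := fib_id X x₀
  have hidm : ∀ x (hx : x ∈ X), idmap X x₀ x = ⟨x, hx⟩ := by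
    intro x hx
    unfold idmap
    rw [dif_pos hx]
  have hF : Faith X Q (idmap X x₀) := by
    intro x hx hxQ y hy hxy
    rw [hidm x hx, hidm y hy] at hxy
    exact congrArg Subtype.val hxy
  have key : ∀ Θ : Dt → ℂ, SC Q Θ T = SQ X Q (pc (idmap X x₀) fun i => col T i) Θ := by
    intro Θ
    rw [SC_eq Θ hfin]
    unfold SG
    refine SQ_congr hXQ.symm ?_ Θ
    intro x hx
    have hx' : x ∈ X ∩ Q := by rw [hXQ]; exact hx
    unfold pc
    rw [hidm x hx'.1]
  rw [key, key, SQ_th hH _ hπ hF _ hτ hτ']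

/-- The energies of the faces: the wrong weight sees the area. -/
theorem norm_th_sq {τ : ℂ} (hτ : τ ^ 2 + τ + 1 = 0) (d : Dt) :
    ‖th (τ ^ 2) d‖ ^ 2 = ‖th τ d‖ ^ 2 + 4 * τ.im * cr d.1 d.2.1 d.2.2 := by
  have h1 := congrArg Complex.re hτ
  have h2 := congrArg Complex.im hτ
  simp only [pow_two, Complex.add_re, Complex.mul_re, Complex.one_re, Complex.zero_re,
    Complex.add_im, Complex.mul_im, Complex.one_im, Complex.zero_im, add_zero] at h1 h2
  have him : τ.im ≠ 0 := by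
    intro h0
    rw [h0] at h1
    nlinarith [sq_nonneg (τ.re + 1 / 2)]
  have hre : τ.re = -(1 / 2) := by
    have : τ.im * (2 * τ.re + 1) = 0 := by linarith
    rcases mul_eq_zero.1 this with h3 | h3
    · exact absurd h3 him
    · linarith
  have him2 : τ.im * τ.im = 3 / 4 := by
    rw [hre] at h1
    linarith
  have e1 : (τ ^ 2).re = -(1 / 2) := by
    rw [pow_two, Complex.mul_re, hre, him2]; norm_num
  have e2 : (τ ^ 2).im = -τ.im := by
    rw [pow_two, Complex.mul_im, hre]; ring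
  have e3 : (τ ^ 2) ^ 2 = τ := by
    linear_combination (τ ^ 2 - τ) * hτ
  rw [← Complex.normSq_eq_norm_sq, ← Complex.normSq_eq_norm_sq]
  unfold th cr
  rw [e3]
  simp only [Complex.normSq_apply, Complex.add_re, Complex.mul_re, Complex.add_im,
    Complex.mul_im, hre, e1, e2]
  ring

end Vale.Agent.P148.R2.H251
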