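import Vale.Agent.P148.R2.H251.Ori1
import Vale.Agent.P148.R2.H219.St2
import Vale.Agent.P148.R2.H291.Unif

/-!
# The missing energy of the wrong weight is positive (P148, row ORI)
-/

open MeasureTheory Set Metric Topology Filter Function
open scoped ENNReal NNReal

namespace Vale.Agent.P148.R2.H251

open H592 H184 _root_.P148 _root_.P148.H729

/-- A Delaunay triangle which contains a stable point is small. -/
theorem small_face {X : Set ℂ} {u v w c z : ℂ} {s : ℝ} (hu : u ∈ X) (hv : v ∈ X) (hw : w ∈ X)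
    (hcu : c ∈ vcell X u) (hcv : c ∈ vcell X v) (hcw : c ∈ vcell X w)
    (hz : z ∈ H219.Tr u v w) (hs : H291.Stab X z s) (h0 : 0 < s) :
    dist c u ≤ s / 8 ∧ dist z c ≤ dist c u := by
  have e1 : dist c v = dist c u := le_antisymm (hcv _ hu) (hcu _ hv)
  have e2 : dist c w = dist c u := le_antisymm (hcw _ hu) (hcu _ hw)
  set r := dist c u with hr
  have hD : dist z c ≤ r := by
    obtain ⟨a, b, ha, hb, hab, rfl⟩ := H219.mem_Tr.1 hz
    have e3 : u + ((a : ℂ) * (v - u) + b * (w - u)) - c =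
        ((1 - a - b : ℝ) : ℂ) * (u - c) + (a : ℂ) * (v - c) + (b : ℂ) * (w - c) := by
      push_cast; ring
    rw [dist_eq_norm, e3]
    refine (norm_add₃_le).trans ?_
    rw [norm_mul, norm_mul, norm_mul, Complex.norm_real, Complex.norm_real, Complex.norm_real,
      Real.norm_of_nonneg ha, Real.norm_of_nonneg hb, Real.norm_of_nonneg (by linarith),
      ← dist_eq_norm, ← dist_eq_norm, ← dist_eq_norm, dist_comm u, dist_comm v, dist_comm w,
      e1, e2, ← hr]
    nlinarith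
  refine ⟨?_, hD⟩
  by_contra hlt
  push Not at hlt
  obtain ⟨y, hy1, hy2⟩ : ∃ y, dist y z ≤ 4 * s ∧ dist c y + s / 8 < r := by
    by_cases hDs : dist z c ≤ s
    · exact ⟨c, by rw [dist_comm]; linarith, by rw [dist_self]; linarith⟩
    · push Not at hDs
      have hD0 : 0 < dist z c := by linarith
      refine ⟨z + (s / dist z c : ℝ) • (c - z), ?_, ?_⟩
      · rw [dist_eq_norm, add_sub_cancel_left, norm_smul, Real.norm_of_nonneg (by positivity),
          ← dist_eq_norm, dist_comm c z]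
        rw [div_mul_cancel₀ _ hD0.ne']
        linarith
      · have e4 : c - (z + (s / dist z c : ℝ) • (c - z)) = (1 - s / dist z c : ℝ) • (c - z) := by
          module
        rw [dist_eq_norm, e4, norm_smul, Real.norm_of_nonneg (by
          rw [sub_nonneg, div_le_one hD0]; exact hDs.le), ← dist_eq_norm, dist_comm c z, sub_mul,
          div_mul_cancel₀ _ hD0.ne', one_mul]
        linarith
  obtain ⟨x, hx, hxy⟩ := hs y (by rw [mem_closedBall]; exact hy1)
  have h1 := hcu x hx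
  have h2 := dist_triangle c y x
  rw [← hr] at h1
  linarith

section area

open Classical in
/-- Twice the area of the local faces (each face is counted three times). -/
noncomputable def AR (X Q : Set ℂ) : ℝ≥0∞ :=
  ∑' d : Dt, if LF X Q d then ENNReal.ofReal (cr d.1 d.2.1 d.2.2) else 0

theorem AR_congr {X X' Q : Set ℂ} (hX : X ∩ Q = X' ∩ Q) : AR X Q = AR X' Q := by
  classical
  unfold AR
  refine tsum_congr fun d => ?_
  have : LF X Q d ↔ LF X' Q d := ⟨fun h => h.congr hX, fun h => h.congr hX.symm⟩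
  simp only [this]

theorem EQ_th {X Q : Set ℂ} {τ : ℂ} (hτ : τ ^ 2 + τ + 1 = 0) (him : 0 < τ.im) :
    EQ X Q (th (τ ^ 2)) = EQ X Q (th τ) + ENNReal.ofReal (4 * τ.im) * AR X Q := by
  classical
  unfold EQ AR
  rw [← ENNReal.tsum_mul_left, ← ENNReal.tsum_add]
  refine tsum_congr fun d => ?_
  by_cases hd : LF X Q d
  · rw [if_pos hd, if_pos hd, if_pos hd, norm_th_sq hτ,
      ENNReal.ofReal_add (by positivity) (mul_nonneg (by positivity) hd.2.1.le),
      ENNReal.ofReal_mul (by positivity)]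
  · rw [if_neg hd, if_neg hd, if_neg hd]
    simp

variable {X : Set ℂ} {b : ZMod 3 → ℂ} (h : HullTri X b)
include h

theorem local_face {Q : Set ℂ} {z : ℂ} {s : ℝ} (hz : z ∈ H219.Tr (b 0) (b 1) (b 2))
    (hs : H291.Stab X z s) (h0 : 0 < s) (hQ : closedBall z (s / 4) ⊆ Q) :
    ∃ t : Fc X b, z ∈ H219.TF t ∧ LF X Q (dt (t, 0)) ∧
      volume (H219.TF t) ≤ ENNReal.ofReal (cr (dt (t, 0)).1 (dt (t, 0)).2.1 (dt (t, 0)).2.2) := by
  obtain ⟨t, ht, hzt⟩ := H219.HT.cover h hz
  have e1 : (dt (t, 0) : Dt) = (vc t 1, vc t 2, vc t 0) := by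
    unfold dt tail head
    rfl
  have hf1 : face X (vc t 1) (vc t 2) (vc t 0) := face_rot ht
  have hL : LF X univ (dt (t, 0)) := by
    rw [LF_univ, e1]
    exact hf1
  have hc := hL.mem_vcell
  rw [e1] at hc
  simp only at hc
  have hzt' : z ∈ H219.Tr (vc t 1) (vc t 2) (vc t 0) := by
    rw [H219.Tr_rot ht.2]; exact hzt
  have h1 := small_face hf1.1.1 hf1.1.2.1 hf1.1.2.2.1 hc.1 hc.2.1 hc.2.2 hzt' hs h0
  have hcr : cr (vc t 1) (vc t 2) (vc t 0) = cr (vc t 0) (vc t 1) (vc t 2) := cr_rot _ _ _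
  refine ⟨t, hzt, ⟨hL.1, hL.2.1, ?_, hL.2.2.2⟩, ?_⟩
  · refine Subset.trans ?_ hQ
    rw [e1]
    intro y hy
    rw [mem_closedBall] at hy ⊢
    have := dist_triangle y (cc (vc t 1, vc t 2, vc t 0)) z
    rw [dist_comm (cc (vc t 1, vc t 2, vc t 0)) z] at this
    simp only at hy
    linarith [h1.1, h1.2]
  · rw [e1]
    simp only
    unfold H219.TF
    rw [H219.volume_Tr, hcr]
    refine ENNReal.ofReal_le_ofReal ?_
    have hp : 0 < cr (vc t 0) (vc t 1) (vc t 2) := ht.2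
    rw [H219.crs_eq_cr, abs_of_pos hp]
    linarith

theorem le_AR {Q A : Set ℂ} {s : ℝ} (h0 : 0 < s) (hA : ∀ z ∈ A, z ∈ H219.Tr (b 0) (b 1) (b 2) ∧
    H291.Stab X z s ∧ closedBall z (s / 4) ⊆ Q) : volume A ≤ AR X Q := by
  classical
  have := h.finite_Fc
  have : Fintype (Fc X b) := Fintype.ofFinite _
  unfold AR
  rw [tsum_dt (Q := Q) h (by intro d hd; by_contra hc; exact hd (if_neg hc))]
  have h1 : A ⊆ ⋃ t ∈ (Finset.univ.filter fun t : Fc X b => LF X Q (dt (t, 0)) ∧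
      volume (H219.TF t) ≤ ENNReal.ofReal (cr (dt (t, 0)).1 (dt (t, 0)).2.1 (dt (t, 0)).2.2)),
      H219.TF t := by
    intro z hz
    obtain ⟨a1, a2, a3⟩ := hA z hz
    obtain ⟨t, b1, b2, b3⟩ := local_face h a1 a2 h0 a3
    exact mem_biUnion (by simp [b2, b3]) b1
  calc volume A ≤ _ := measure_mono h1
    _ ≤ ∑ t ∈ (Finset.univ.filter fun t : Fc X b => LF X Q (dt (t, 0)) ∧
      volume (H219.TF t) ≤ ENNReal.ofReal (cr (dt (t, 0)).1 (dt (t, 0)).2.1 (dt (t, 0)).2.2)),
        volume (H219.TF t) := measure_biUnion_finset_le _ _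
    _ ≤ ∑ t ∈ (Finset.univ.filter fun t : Fc X b => LF X Q (dt (t, 0)) ∧
      volume (H219.TF t) ≤ ENNReal.ofReal (cr (dt (t, 0)).1 (dt (t, 0)).2.1 (dt (t, 0)).2.2)),
        (if LF X Q (dt (t, 0)) then
          ENNReal.ofReal (cr (dt (t, 0)).1 (dt (t, 0)).2.1 (dt (t, 0)).2.2) else 0) := by
        refine Finset.sum_le_sum fun t ht => ?_
        rw [Finset.mem_filter] at ht
        rw [if_pos ht.2.1]
        exact ht.2.2
    _ ≤ ∑ t : Fc X b, (if LF X Q (dt (t, 0)) then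
          ENNReal.ofReal (cr (dt (t, 0)).1 (dt (t, 0)).2.1 (dt (t, 0)).2.2) else 0) :=
        Finset.sum_le_sum_of_subset (Finset.subset_univ _)
    _ ≤ ∑ q : Fc X b × ZMod 3, (if LF X Q (dt q) then
          ENNReal.ofReal (cr (dt q).1 (dt q).2.1 (dt q).2.2) else 0) := by
        rw [Fintype.sum_prod_type]
        refine Finset.sum_le_sum fun t _ => ?_
        exact Finset.single_le_sum (f := fun j : ZMod 3 => if LF X Q (dt (t, j)) then
          ENNReal.ofReal (cr (dt (t, j)).1 (dt (t, j)).2.1 (dt (t, j)).2.2) else 0)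
          (fun _ _ => zero_le) (Finset.mem_univ (0 : ZMod 3))

end area

section final

universe u

theorem finite_window' {Ω : Type*} [MeasurableSpace Ω] {P : Measure Ω} {S : Ω → Set Pt}
    {lam : ℝ≥0} (h : IsColouredPoisson P S lam) {Q : Set ℂ} (hb : Bornology.IsBounded Q)
    (ω : Ω) : (S ω ∩ Q ×ˢ univ).Finite := by
  obtain ⟨r, hr⟩ := hb.subset_ball 0
  exact (h.locFin ω r).subset (inter_subset_inter_right _ (prod_mono hr subset_rfl))

/-- **The missing energy of the wrong weight is positive.** -/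
theorem ori {τ : ℂ} (hτ : τ ^ 2 + τ + 1 = 0) (him : 0 < τ.im) : ∃ c₀ K : ℝ, 0 < c₀ ∧ 0 < K ∧
    ∀ (Ω : Type u) [MeasurableSpace Ω] (P : Measure Ω) [IsProbabilityMeasure P]
      (S : Ω → Set Pt) (lam : ℝ≥0), IsColouredPoisson P S lam →
      ∀ (x : ℂ) (L : ℝ), 0 < L → K ≤ lam * L ^ 2 →
      4 * ∫⁻ ω, SC (sqr x L) (th (τ ^ 2)) (S ω) ∂P + ENNReal.ofReal (c₀ * L ^ 2) ≤
        ∫⁻ ω, EQ (pts (S ω)) (sqr x L) (th (τ ^ 2)) ∂P := by
  have hτ2 : (τ ^ 2) ^ 2 + τ ^ 2 + 1 = 0 := by linear_combination (τ ^ 2 - τ + 1) * hτ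
  obtain ⟨K, hK0, hK⟩ : ∃ K : ℝ, 0 < K ∧ ∀ y : ℝ, K ≤ y →
      16 * (H291.net.card : ℝ) * Real.exp (-(Real.pi / 4096 * y)) ≤ 1 / 2 := by
    have h1 : Tendsto (fun y : ℝ => 16 * (H291.net.card : ℝ) * Real.exp (-(Real.pi / 4096 * y)))
        atTop (𝓝 (16 * (H291.net.card : ℝ) * 0)) := by
      refine Tendsto.const_mul _ ?_
      have h2 : Tendsto (fun y : ℝ => Real.pi / 4096 * y) atTop atTop :=
        tendsto_id.const_mul_atTop (by positivity)
      exact Real.tendsto_exp_neg_atTop_nhds_zero.comp h2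
    rw [mul_zero] at h1
    obtain ⟨K, hK⟩ := eventually_atTop.1 (h1.eventually_le_const (show (0 : ℝ) < 1 / 2 by norm_num))
    exact ⟨max K 1, by positivity, fun y hy => hK y ((le_max_left _ _).trans hy)⟩
  refine ⟨4 * τ.im * (Real.pi / 16) * (1 / 2), K, by positivity, hK0, ?_⟩
  intro Ω _ P _ S lam h x L hL hKL
  -- the centre of the square
  set ctr : ℂ := x + ⟨L / 2, L / 2⟩ with hctr
  set s : ℝ := L / 2 with hs
  have hs0 : 0 < s := by positivity
  set ρ : ℝ := 2 * (‖ctr‖ + 4 * L) with hρ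
  have hρ0 : 0 < ρ := by positivity
  set A : Set ℂ := closedBall ctr (L / 4) with hA
  have hsqr : sqr x L ⊆ ball 0 (ρ / 2) := by
    intro z hz
    rw [mem_ball_zero_iff]
    have h1 : ‖z - ctr‖ ≤ L := by
      refine (Complex.norm_le_abs_re_add_abs_im _).trans ?_
      have h2 : |(z - ctr).re| ≤ L / 2 := by
        rw [hctr, abs_le]; simp only [Complex.sub_re, Complex.add_re]
        constructor <;> linarith [hz.1.1, hz.1.2]
      have h3 : |(z - ctr).im| ≤ L / 2 := by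
        rw [hctr, abs_le]; simp only [Complex.sub_im, Complex.add_im]
        constructor <;> linarith [hz.2.1, hz.2.2]
      linarith
    have h4 : ‖z‖ ≤ ‖z - ctr‖ + ‖ctr‖ := by
      have := norm_add_le (z - ctr) ctr
      rwa [sub_add_cancel] at this
    rw [hρ]; linarith
  have hball : ∀ z ∈ A, closedBall z (5 * s) ⊆ ball 0 (ρ / 2) := by
    intro z hz y hy
    rw [mem_ball_zero_iff]
    rw [hA, mem_closedBall, dist_eq_norm] at hz
    rw [mem_closedBall, dist_eq_norm] at hy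
    have h4 : ‖y‖ ≤ ‖y - z‖ + ‖z - ctr‖ + ‖ctr‖ := by
      have := norm_add₃_le (a := y - z) (b := z - ctr) (c := ctr)
      rwa [sub_add_sub_cancel, sub_add_cancel] at this
    rw [hρ]; rw [hs] at hy; linarith
  have hAQ : ∀ z ∈ A, closedBall z (s / 4) ⊆ sqr x L := by
    intro z hz y hy
    rw [hA, mem_closedBall, dist_eq_norm] at hz
    rw [mem_closedBall, dist_eq_norm] at hy
    have h4 : ‖y - ctr‖ ≤ L / 8 + L / 4 := by
      have := norm_add_le (y - z) (z - ctr)
      rw [sub_add_sub_cancel] at this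
      rw [hs] at hy
      linarith
    have h5 := (Complex.abs_re_le_norm (y - ctr)).trans h4
    have h6 := (Complex.abs_im_le_norm (y - ctr)).trans h4
    rw [abs_le] at h5 h6
    rw [hctr] at h5 h6
    simp only [Complex.sub_re, Complex.add_re, Complex.sub_im, Complex.add_im] at h5 h6
    exact ⟨⟨by linarith, by linarith⟩, by linarith, by linarith⟩
  -- the local energies agree
  have hSC : ∫⁻ ω, SC (sqr x L) (th (τ ^ 2)) (S ω) ∂P = ∫⁻ ω, SC (sqr x L) (th τ) (S ω) ∂P := by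
    refine lintegral_congr_ae ?_
    filter_upwards [ae_generic h (bfar ρ)] with ω hω
    exact SC_th hω hρ0 hsqr hτ2 hτ (finite_window' h (isBounded_sqr x L) ω)
  have h1 : ∫⁻ ω, SC (sqr x L) (th τ) (S ω) ∂P ≤
      4⁻¹ * ∫⁻ ω, EQ (pts (S ω)) (sqr x L) (th τ) ∂P :=
    lintegral_SC_le h (isOpen_sqr x L) (isBounded_sqr x L) hτ (wt_th hτ).rot (wt_th hτ).meas
  have h2 : 4 * ∫⁻ ω, SC (sqr x L) (th τ) (S ω) ∂P ≤
      ∫⁻ ω, EQ (pts (S ω)) (sqr x L) (th τ) ∂P := by
    calc 4 * ∫⁻ ω, SC (sqr x L) (th τ) (S ω) ∂P ≤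
        4 * (4⁻¹ * ∫⁻ ω, EQ (pts (S ω)) (sqr x L) (th τ) ∂P) := by gcongr
      _ = _ := by
        rw [← mul_assoc, ENNReal.mul_inv_cancel (by norm_num) (by norm_num), one_mul]
  -- the area
  have harea : ∀ᵐ ω ∂P, ω ∉ H291.badU S ctr (L / 4) s →
      volume A ≤ AR (pts (S ω)) (sqr x L) := by
    filter_upwards [ae_generic h (bfar ρ)] with ω hω hb
    have hH := hω.hullTri_ball hρ0 (subset_refl (ball (0 : ℂ) (ρ / 2)))
    have hXU := XU_inter hρ0 (subset_refl (ball (0 : ℂ) (ρ / 2))) (S ω)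
    have hXQ : XU (S ω) (ball 0 (ρ / 2)) (bfar ρ) ∩ sqr x L = pts (S ω) ∩ sqr x L := by
      have e := congrArg (fun Y => Y ∩ sqr x L) hXU
      rwa [inter_assoc, inter_assoc, inter_eq_self_of_subset_right hsqr] at e
    rw [← AR_congr hXQ]
    refine le_AR hH hs0 fun z hz => ⟨?_, ?_, hAQ z hz⟩
    · have hz' : ‖z‖ < ρ / 2 := by
        have := hball z hz (mem_closedBall_self (by positivity))
        rwa [mem_ball_zero_iff] at this
      rw [H219.mem_Tr_iff (bfar_ccw hρ0)]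
      refine ⟨(bfar_inside hρ0 hz' 0).le, (bfar_inside hρ0 hz' 1).le, ?_⟩
      have := (bfar_inside hρ0 hz' 2).le
      have e2 : (2 : ZMod 3) + 1 = 0 := by decide
      rwa [e2] at this
    · refine (H291.stab_of_notMem_badU hs0 hb hz).congr hs0 ?_
      rintro y ⟨hy1, hy2⟩
      exact Or.inl ⟨hy1, hball z hz hy2⟩
  have hbad : P (H291.badU S ctr (L / 4) s) ≤ ENNReal.ofReal (1 / 2) := by
    refine (H291.badU_le h ctr (by positivity) hs0).trans (ENNReal.ofReal_le_ofReal ?_)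
    have e1 : (2 * (L / 4) / s + 3) ^ 2 = 16 := by
      rw [hs]; field_simp; norm_num
    have e2 : (lam : ℝ) * (Real.pi / 1024 * s ^ 2) = Real.pi / 4096 * (lam * L ^ 2) := by
      rw [hs]; ring
    rw [e1, e2]
    exact hK _ hKL
  have hgood : ENNReal.ofReal (1 / 2) ≤ P (H291.badU S ctr (L / 4) s)ᶜ := by
    rw [prob_compl_eq_one_sub (H291.measurableSet_badU h _ _ _)]
    refine ENNReal.le_sub_of_add_le_left (measure_ne_top _ _) ?_
    calc P (H291.badU S ctr (L / 4) s) + ENNReal.ofReal (1 / 2)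
        ≤ ENNReal.ofReal (1 / 2) + ENNReal.ofReal (1 / 2) := by gcongr
      _ = 1 := by
        rw [← ENNReal.ofReal_add (by norm_num) (by norm_num)]
        norm_num
  have hvol : ENNReal.ofReal (Real.pi / 16 * L ^ 2) ≤ volume A := by
    rw [hA, Complex.volume_closedBall, ← ENNReal.ofReal_pow (by positivity)]
    have : ((NNReal.pi : ℝ≥0∞)) = ENNReal.ofReal Real.pi := by
      rw [← NNReal.coe_real_pi, ENNReal.ofReal_coe_nnreal]
    rw [this, ← ENNReal.ofReal_mul (by positivity)]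
    refine ENNReal.ofReal_le_ofReal (le_of_eq ?_)
    ring
  have h4 : ENNReal.ofReal (4 * τ.im * (Real.pi / 16) * (1 / 2) * L ^ 2) ≤
      ∫⁻ ω, ENNReal.ofReal (4 * τ.im) * AR (pts (S ω)) (sqr x L) ∂P := by
    calc ENNReal.ofReal (4 * τ.im * (Real.pi / 16) * (1 / 2) * L ^ 2)
        = ENNReal.ofReal (4 * τ.im) * ENNReal.ofReal (Real.pi / 16 * L ^ 2) *
            ENNReal.ofReal (1 / 2) := by
          rw [← ENNReal.ofReal_mul (by positivity), ← ENNReal.ofReal_mul (by positivity)]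
          congr 1; ring
      _ ≤ ENNReal.ofReal (4 * τ.im) * volume A * P (H291.badU S ctr (L / 4) s)ᶜ := by gcongr
      _ = ∫⁻ ω in (H291.badU S ctr (L / 4) s)ᶜ, ENNReal.ofReal (4 * τ.im) * volume A ∂P := by
          rw [setLIntegral_const]
      _ ≤ ∫⁻ ω in (H291.badU S ctr (L / 4) s)ᶜ,
            ENNReal.ofReal (4 * τ.im) * AR (pts (S ω)) (sqr x L) ∂P := by
          refine lintegral_mono_ae ?_
          have hm := H291.measurableSet_badU h ctr (L / 4) s
          filter_upwards [ae_restrict_of_ae harea, ae_restrict_mem hm.compl] with ω h5 h6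
          gcongr
          exact h5 h6
      _ ≤ _ := setLIntegral_le_lintegral _ _
  calc 4 * ∫⁻ ω, SC (sqr x L) (th (τ ^ 2)) (S ω) ∂P +
        ENNReal.ofReal (4 * τ.im * (Real.pi / 16) * (1 / 2) * L ^ 2)
      ≤ ∫⁻ ω, EQ (pts (S ω)) (sqr x L) (th τ) ∂P +
        ∫⁻ ω, ENNReal.ofReal (4 * τ.im) * AR (pts (S ω)) (sqr x L) ∂P := by
        rw [hSC]; exact add_le_add h2 h4
    _ ≤ ∫⁻ ω, (EQ (pts (S ω)) (sqr x L) (th τ) +
          ENNReal.ofReal (4 * τ.im) * AR (pts (S ω)) (sqr x L)) ∂P := le_lintegral_add _ _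
    _ = _ := by
        refine lintegral_congr fun ω => ?_
        rw [EQ_th hτ him]

end final

end Vale.Agent.P148.R2.H251
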