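import Vale.Agent.P148.R2.H838.X1
import Vale.Agent.P148.R2.H258.A9

/-!
# P148, row CAL: three connected classes and a connected free region meet in exactly one face

`T` is a planar triangulation without loops; its vertices are partitioned into four connected sets
`A`, `B`, `C` (frozen classes) and `I` (free region), and `I` is adjacent to each of `A`, `B`, `C`.
Then there is at most one face with corners in `A`, `B`, `C`, whatever its orientation.
-/

open Function
open Vale.Agent.P148.R2.H258 Vale.Agent.P148.R2.H258.Tri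

namespace Vale.Agent.P148.R2.H251

variable {V D : Type*}

/-- `S` is connected by walks inside `S` (the same as `H565.WConn`). -/
def SConn (T : Tri V D) (S : Set V) : Prop :=
  ∀ x ∈ S, ∀ y ∈ S, ∃ l, T.Walk x y l ∧ ∀ g ∈ l, T.src g ∈ S ∧ T.tgt g ∈ S

variable (T : Tri V D)

theorem mu_reverse' (l : List D) (f : D) : T.mu (l.map T.rev).reverse f = T.mu l f := by
  classical
  have h1 : ∀ x : D, ((l.map T.rev).reverse.count x : ZMod 2) = (l.count (T.rev x) : ZMod 2) := by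
    intro x
    rw [List.count_reverse]
    congr 1
    have hinj : Injective T.rev := fun a b hab => by
      have := congrArg T.rev hab
      rwa [T.rev_rev, T.rev_rev] at this
    have := List.count_map_of_injective l T.rev hinj (T.rev x)
    rwa [T.rev_rev] at this
  unfold Tri.mu
  rw [h1, h1, T.rev_rev]
  ring

theorem mu_singleton_rev (e d : D) : T.mu [T.rev e] d = T.mu [e] d := by
  have := mu_reverse' T [e] d
  simpa using this

/-- A closed walk through `S` has a constant potential on two adjacent connected sets off `S`. -/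
theorem const_far {u : V} {Γ : List D} (hw : T.Walk u u Γ) {N : D → ZMod 2} (hN : T.Pot Γ N)
    {C I : Set V} (hC : SConn T C) (hI : SConn T I) (hCn : ∀ f ∈ Γ, T.src f ∉ C)
    (hIn : ∀ f ∈ Γ, T.src f ∉ I) {f : D} (hf : T.src f ∈ C) (hf' : T.tgt f ∈ I) {e e' : D}
    (he : T.src e ∈ C) (he' : T.src e' ∈ I) : N e = N e' := by
  obtain ⟨p, hp, hp'⟩ := hC _ he _ hf
  obtain ⟨q, hq, hq'⟩ := hI _ hf' _ he'
  refine H838.pot_const_walk hw hN.1 hN.2 (hp.append (Walk.cons f _ _ hq)) ?_ ?_ rfl rfl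
  · intro g hg k hk hkg
    rw [List.mem_append, List.mem_cons] at hg
    rcases hg with hg | rfl | hg
    · exact hCn k hk (by rw [hkg]; exact (hp' g hg).1)
    · exact hCn k hk (by rw [hkg]; exact hf)
    · exact hIn k hk (by rw [hkg]; exact (hq' g hg).1)
  · intro k hk hke
    exact hIn k hk (by rw [hke]; exact he')

/-- The closed walk formed by two edges between `A` and `B` and paths inside `A` and `B`. -/
theorem two_edges {A B : Set V} {a b : D} {p q : List D} (ha : T.src a ∈ A) (ha' : T.tgt a ∈ B)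
    (_hb : T.src b ∈ A) (hb' : T.tgt b ∈ B) (hp : T.Walk (T.src a) (T.src b) p)
    (hp' : ∀ g ∈ p, T.src g ∈ A ∧ T.tgt g ∈ A) (hq : T.Walk (T.tgt a) (T.tgt b) q)
    (hq' : ∀ g ∈ q, T.src g ∈ B ∧ T.tgt g ∈ B) :
    T.Walk (T.src a) (T.src a) ([a] ++ (q ++ ([T.rev b] ++ (p.map T.rev).reverse))) ∧
      (∀ f ∈ ([a] ++ (q ++ ([T.rev b] ++ (p.map T.rev).reverse))), T.src f ∈ A ∨ T.src f ∈ B) ∧
      ∀ d, T.mu ([a] ++ (q ++ ([T.rev b] ++ (p.map T.rev).reverse))) d =
        T.mu [a] d + T.mu [b] d + T.mu p d + T.mu q d := by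
  refine ⟨?_, ?_, ?_⟩
  · refine (Walk.single a).append (hq.append ?_)
    have h1 := Walk.single (T := T) (T.rev b)
    rw [T.src_rev, T.tgt_rev] at h1
    exact h1.append hp.reverse
  · intro f hf
    simp only [List.mem_append, List.mem_singleton, List.mem_reverse, List.mem_map] at hf
    rcases hf with rfl | hf | rfl | ⟨g, hg, rfl⟩
    · exact Or.inl ha
    · exact Or.inr (hq' f hf).1
    · rw [T.src_rev]; exact Or.inr hb'
    · rw [T.src_rev]; exact Or.inl (hp' g hg).2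
  · intro d
    rw [T.mu_append, T.mu_append, T.mu_append, mu_reverse', mu_singleton_rev]
    ring

section

variable {T}
variable (hP : T.Planar) (hnl : ∀ d, T.src d ≠ T.tgt d) {A B C I : Set V}
  (hA : SConn T A) (hB : SConn T B) (hC : SConn T C) (hI : SConn T I)
  (hAB : Disjoint A B) (hAC : Disjoint A C) (hBC : Disjoint B C)
  (hAI : Disjoint A I) (hBI : Disjoint B I) (hCI : Disjoint C I)
  (hfa : ∃ f, T.src f ∈ A ∧ T.tgt f ∈ I) (hfb : ∃ f, T.src f ∈ B ∧ T.tgt f ∈ I)
  (hfc : ∃ f, T.src f ∈ C ∧ T.tgt f ∈ I)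
include hP hnl hA hB hC hI hAB hAC hBC hAI hBI hCI hfa hfb hfc

theorem three_key {o e₁ e₂ e₃ : D} (hoA : T.src o ∈ A) (hoB : T.tgt o ∈ B) (hoC : T.apex o ∈ C)
    (h1 : T.src e₁ ∈ A) (h2 : T.src e₂ ∈ B) (h3 : T.src e₃ ∈ C) (h12 : T.tgt e₁ = T.src e₂)
    (h23 : T.tgt e₂ = T.src e₃) (h31 : T.tgt e₃ = T.src e₁) :
    ∃ S : D → ZMod 2, (∀ d, S (T.nxt d) = S d) ∧
      (∀ d, S d + S (T.rev d) =
        (T.mu [o] d + T.mu [T.nxt o] d + T.mu [T.nxt (T.nxt o)] d) +
          (T.mu [e₁] d + T.mu [e₂] d + T.mu [e₃] d)) ∧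
      ∀ d, T.src d ∈ I → S d = S o := by
  have dj : ∀ {X Y : Set V}, Disjoint X Y → ∀ v, v ∈ X → v ∉ Y :=
    fun h v hv hv' => Set.disjoint_left.1 h hv hv'
  obtain ⟨fa, hfa1, hfa2⟩ := hfa
  obtain ⟨fb, hfb1, hfb2⟩ := hfb
  obtain ⟨fc, hfc1, hfc2⟩ := hfc
  obtain ⟨pA, hpA, hpA'⟩ := hA _ hoA _ h1
  obtain ⟨pB, hpB, hpB'⟩ := hB _ hoB _ h2
  obtain ⟨pC, hpC, hpC'⟩ := hC _ hoC _ h3
  -- the walk between `A` and `B`
  obtain ⟨w1, s1, m1⟩ := two_edges T (a := o) (b := e₁) hoA hoB h1 (by rw [h12]; exact h2) hpA hpA'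
    (by rw [h12]; exact hpB) hpB'
  -- the walk between `B` and `C`
  obtain ⟨w2, s2, m2⟩ := two_edges T (A := B) (B := C) (a := T.nxt o) (b := e₂) (p := pB) (q := pC)
    (by rw [T.src_nxt']; exact hoB) (by rw [T.tgt_nxt]; exact hoC) h2 (by rw [h23]; exact h3)
    (by rw [T.src_nxt']; exact hpB) hpB' (by rw [T.tgt_nxt, h23]; exact hpC) hpC'
  -- the walk between `C` and `A`
  obtain ⟨w3, s3, m3⟩ := two_edges T (A := C) (B := A) (a := T.nxt (T.nxt o)) (b := e₃) (p := pC)
    (q := pA) (by rw [T.src_nxt2]; exact hoC) (by rw [T.tgt_nxt2]; exact hoA) h3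
    (by rw [h31]; exact h1) (by rw [T.src_nxt2]; exact hpC) hpC'
    (by rw [T.tgt_nxt2, h31]; exact hpA) hpA'
  obtain ⟨N1, hN1, -⟩ := T.exists_pot hP w1 o
  obtain ⟨N2, hN2, -⟩ := T.exists_pot hP w2 o
  obtain ⟨N3, hN3, -⟩ := T.exists_pot hP w3 o
  refine ⟨fun d => N1 d + N2 d + N3 d, ?_, ?_, ?_⟩
  · intro d
    simp only [hN1.1, hN2.1, hN3.1]
  · intro d
    have a1 := hN1.2 d (Or.inl (hnl d))
    have a2 := hN2.2 d (Or.inl (hnl d))
    have a3 := hN3.2 d (Or.inl (hnl d))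
    rw [m1] at a1
    rw [m2] at a2
    rw [m3] at a3
    have e : N1 d + N2 d + N3 d + (N1 (T.rev d) + N2 (T.rev d) + N3 (T.rev d)) =
        (N1 d + N1 (T.rev d)) + (N2 d + N2 (T.rev d)) + (N3 d + N3 (T.rev d)) := by ring
    change N1 d + N2 d + N3 d + (N1 (T.rev d) + N2 (T.rev d) + N3 (T.rev d)) = _
    rw [e, a1, a2, a3]
    generalize T.mu [o] d = x1
    generalize T.mu [T.nxt o] d = x2
    generalize T.mu [T.nxt (T.nxt o)] d = x3
    generalize T.mu [e₁] d = y1
    generalize T.mu [e₂] d = y2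
    generalize T.mu [e₃] d = y3
    generalize T.mu pA d = z1
    generalize T.mu pB d = z2
    generalize T.mu pC d = z3
    have h : ∀ z : ZMod 2, z + z = 0 := by decide
    linear_combination h z1 + h z2 + h z3
  · intro d hd
    have b1 : N1 (T.nxt (T.nxt o)) = N1 d :=
      const_far T w1 hN1 hC hI
        (fun f hf hf' => (s1 f hf).elim (fun h => dj hAC _ h hf') (fun h => dj hBC _ h hf'))
        (fun f hf hf' => (s1 f hf).elim (fun h => dj hAI _ h hf') (fun h => dj hBI _ h hf'))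
        hfc1 hfc2 (by rw [T.src_nxt2]; exact hoC) hd
    have b2 : N2 o = N2 d :=
      const_far T w2 hN2 hA hI
        (fun f hf hf' => (s2 f hf).elim (fun h => dj hAB _ hf' h) (fun h => dj hAC _ hf' h))
        (fun f hf hf' => (s2 f hf).elim (fun h => dj hBI _ h hf') (fun h => dj hCI _ h hf'))
        hfa1 hfa2 hoA hd
    have b3 : N3 (T.nxt o) = N3 d :=
      const_far T w3 hN3 hB hI
        (fun f hf hf' => (s3 f hf).elim (fun h => dj hBC _ hf' h) (fun h => dj hAB _ h hf'))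
        (fun f hf hf' => (s3 f hf).elim (fun h => dj hCI _ h hf') (fun h => dj hAI _ h hf'))
        hfb1 hfb2 (by rw [T.src_nxt']; exact hoB) hd
    rw [hN1.1, hN1.1] at b1
    rw [hN3.1] at b3
    change N1 d + N2 d + N3 d = N1 o + N2 o + N3 o
    rw [b1, b2, b3]

omit hP hnl hA hB hC hI hAB hAC hBC hAI hBI hCI hfa hfb hfc in
theorem three_inv {M : D → ZMod 2} (h1 : ∀ d, M (T.nxt d) = M d) (h2 : ∀ d, M (T.rev d) = M d)
    {d e : D} (h : T.src d = T.src e) : M d = M e := by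
  have key : ∀ f g : D, Relation.EqvGen
      (fun f g => g = T.rev (T.nxt (T.nxt f)) ∨ (T.src f = T.src (T.rev f) ∧ g = T.rev f)) f g →
      M f = M g := by
    intro f g hfg
    induction hfg with
    | rel f g h =>
      rcases h with rfl | ⟨-, rfl⟩
      · rw [h2, h1, h1]
      · rw [h2]
    | refl f => rfl
    | symm f g _ ih => exact ih.symm
    | trans f g k _ _ ih1 ih2 => exact ih1.trans ih2
  exact key d e (T.link d e h)

omit hP hnl hA hB hC hI hAB hAC hBC hAI hBI hCI hfa hfb hfc in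
theorem walk_inv {M : D → ZMod 2} (h1 : ∀ d, M (T.nxt d) = M d) (h2 : ∀ d, M (T.rev d) = M d)
    {u v : V} {l : List D} (hw : T.Walk u v l) {d e : D} (hd : T.src d = u) (he : T.src e = v) :
    M d = M e := by
  induction hw generalizing d with
  | nil v => exact three_inv h1 h2 (hd.trans he.symm)
  | cons f w l _ ih =>
    rw [three_inv h1 h2 hd, ← h2 f]
    exact ih (T.src_rev f) he

theorem three_unique {o g : D} (hoA : T.src o ∈ A) (hoB : T.tgt o ∈ B) (hoC : T.apex o ∈ C)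
    (hg : (T.src g ∈ A ∧ T.tgt g ∈ B ∧ T.apex g ∈ C) ∨
      (T.src g ∈ B ∧ T.tgt g ∈ A ∧ T.apex g ∈ C)) : T.InFace g o := by
  classical
  have dj : ∀ {X Y : Set V}, Disjoint X Y → ∀ v, v ∈ X → v ∉ Y :=
    fun h v hv hv' => Set.disjoint_left.1 h hv hv'
  -- the potential
  obtain ⟨S, hS1, hS2, hS3⟩ : ∃ S : D → ZMod 2, (∀ d, S (T.nxt d) = S d) ∧
      (∀ d, S d + S (T.rev d) =
        (T.mu [o] d + T.mu [T.nxt o] d + T.mu [T.nxt (T.nxt o)] d) +
          (T.mu [g] d + T.mu [T.nxt g] d + T.mu [T.nxt (T.nxt g)] d)) ∧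
      ∀ d, T.src d ∈ I → S d = S o := by
    rcases hg with ⟨h1, h2, h3⟩ | ⟨h1, h2, h3⟩
    · exact three_key hP hnl hA hB hC hI hAB hAC hBC hAI hBI hCI hfa hfb hfc hoA hoB hoC
        (e₁ := g) (e₂ := T.nxt g) (e₃ := T.nxt (T.nxt g)) h1 (by rw [T.src_nxt']; exact h2)
        (by rw [T.src_nxt2]; exact h3) (by rw [T.src_nxt']) (by rw [T.tgt_nxt, T.src_nxt2])
        (by rw [T.tgt_nxt2])
    · obtain ⟨S, a1, a2, a3⟩ := three_key hP hnl hA hB hC hI hAB hAC hBC hAI hBI hCI hfa hfb hfc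
        hoA hoB hoC (e₁ := T.rev g) (e₂ := T.rev (T.nxt (T.nxt g))) (e₃ := T.rev (T.nxt g))
        (by rw [T.src_rev]; exact h2) (by rw [T.src_rev, T.tgt_nxt2]; exact h1)
        (by rw [T.src_rev, T.tgt_nxt]; exact h3) (by rw [T.tgt_rev, T.src_rev, T.tgt_nxt2])
        (by rw [T.tgt_rev, T.src_rev, T.src_nxt2, T.tgt_nxt])
        (by rw [T.tgt_rev, T.src_rev, T.src_nxt'])
      refine ⟨S, a1, fun d => ?_, a3⟩
      rw [a2 d, mu_singleton_rev, mu_singleton_rev, mu_singleton_rev]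
      ring
  -- indicator of a face
  have hδ : ∀ f : D, (∀ d, (if T.InFace f (T.nxt d) then (1 : ZMod 2) else 0) =
      if T.InFace f d then 1 else 0) := by
    intro f d
    simp only [T.inFace_nxt]
  have hne : ∀ f : D, f ≠ T.nxt f ∧ f ≠ T.nxt (T.nxt f) ∧ T.nxt f ≠ T.nxt (T.nxt f) := by
    intro f
    refine ⟨fun h => hnl f ?_, fun h => hnl (T.nxt (T.nxt f)) ?_, fun h => hnl (T.nxt f) ?_⟩
    · rw [← T.src_nxt', ← h]
    · rw [T.tgt_nxt2, ← h]
    · rw [T.tgt_nxt, ← T.src_nxt2, ← h]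
  have hmu1 : ∀ f d : D, T.mu [f] d = (if f = d then (1 : ZMod 2) else 0) +
      (if f = T.rev d then 1 else 0) := by
    intro f d
    rw [T.mu_cons, T.mu_nil, add_zero]
  have hind : ∀ f d : D, (if T.InFace f d then (1 : ZMod 2) else 0) =
      (if f = d then (1 : ZMod 2) else 0) + (if T.nxt f = d then 1 else 0) +
        (if T.nxt (T.nxt f) = d then 1 else 0) := by
    intro f d
    obtain ⟨n1, n2, n3⟩ := hne f
    unfold Tri.InFace
    by_cases c1 : f = d
    · subst c1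
      rw [if_pos (Or.inl rfl), if_pos rfl, if_neg (fun h => n1 h.symm), if_neg (fun h => n2 h.symm)]
      simp
    · by_cases c2 : T.nxt f = d
      · subst c2
        rw [if_pos (Or.inr (Or.inl rfl)), if_neg c1, if_pos rfl, if_neg (fun h => n3 h.symm)]
        simp
      · by_cases c3 : T.nxt (T.nxt f) = d
        · subst c3
          rw [if_pos (Or.inr (Or.inr rfl)), if_neg c1, if_neg c2, if_pos rfl]
          simp
        · rw [if_neg, if_neg c1, if_neg c2, if_neg c3]
          · simp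
          · rintro (h | h | h)
            · exact c1 h.symm
            · exact c2 h.symm
            · exact c3 h.symm
  have hδ2 : ∀ f d : D, (if T.InFace f d then (1 : ZMod 2) else 0) +
      (if T.InFace f (T.rev d) then (1 : ZMod 2) else 0) =
      T.mu [f] d + T.mu [T.nxt f] d + T.mu [T.nxt (T.nxt f)] d := by
    intro f d
    rw [hind, hind, hmu1, hmu1, hmu1]
    ring
  set M : D → ZMod 2 := fun d => S d + (if T.InFace o d then 1 else 0) +
    (if T.InFace g d then 1 else 0) with hM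
  have hM1 : ∀ d, M (T.nxt d) = M d := by
    intro d
    simp only [hM, hS1, T.inFace_nxt]
  have hM2 : ∀ d, M (T.rev d) = M d := by
    intro d
    have e1 := hS2 d
    have e2 := hδ2 o d
    have e3 := hδ2 g d
    simp only [hM]
    rw [← e2, ← e3] at e1
    generalize S d = x at e1 ⊢
    generalize S (T.rev d) = x' at e1 ⊢
    generalize (if T.InFace o d then (1 : ZMod 2) else 0) = y at e1 ⊢
    generalize (if T.InFace o (T.rev d) then (1 : ZMod 2) else 0) = y' at e1 ⊢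
    generalize (if T.InFace g d then (1 : ZMod 2) else 0) = z at e1 ⊢
    generalize (if T.InFace g (T.rev d) then (1 : ZMod 2) else 0) = z' at e1 ⊢
    revert x x' y y' z z'
    decide
  -- a dart with source in `I`
  obtain ⟨fa, hfa1, hfa2⟩ := hfa
  obtain ⟨p, hp, -⟩ := hA _ hoA _ hfa1
  have hMo : M o = M (T.rev fa) := by
    rw [walk_inv hM1 hM2 hp (d := o) (e := fa) rfl rfl, hM2]
  have hIo : ∀ f : D, (T.src f ∈ A ∨ T.src f ∈ B ∨ T.src f ∈ C) →
      (T.tgt f ∈ A ∨ T.tgt f ∈ B ∨ T.tgt f ∈ C) → (T.apex f ∈ A ∨ T.apex f ∈ B ∨ T.apex f ∈ C) →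
      ¬ T.InFace f (T.rev fa) := by
    intro f c1 c2 c3 h
    have hn : ∀ v, (v ∈ A ∨ v ∈ B ∨ v ∈ C) → v ∉ I := by
      rintro v (h | h | h)
      · exact dj hAI v h
      · exact dj hBI v h
      · exact dj hCI v h
    rcases h with h | h | h
    · exact hn _ c1 (by rw [← h, T.src_rev]; exact hfa2)
    · exact hn _ c2 (by rw [← T.src_nxt', ← h, T.src_rev]; exact hfa2)
    · exact hn _ c3 (by rw [← T.src_nxt2, ← h, T.src_rev]; exact hfa2)
  have h1 : ¬ T.InFace o (T.rev fa) :=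
    hIo o (Or.inl hoA) (Or.inr (Or.inl hoB)) (Or.inr (Or.inr hoC))
  have h2 : ¬ T.InFace g (T.rev fa) := by
    rcases hg with ⟨a1, a2, a3⟩ | ⟨a1, a2, a3⟩
    · exact hIo g (Or.inl a1) (Or.inr (Or.inl a2)) (Or.inr (Or.inr a3))
    · exact hIo g (Or.inr (Or.inl a1)) (Or.inl a2) (Or.inr (Or.inr a3))
  have h3 : S (T.rev fa) = S o := hS3 _ (by rw [T.src_rev]; exact hfa2)
  by_contra hcon
  have h4 : T.InFace o o := Or.inl rfl
  simp only [hM, if_pos h4, if_neg hcon, if_neg h1, if_neg h2, h3] at hMo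
  generalize S o = x at hMo
  revert x
  decide

end

end Vale.Agent.P148.R2.H251
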