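import Vale.Agent.P148.R2.H251.W3a
import Vale.Agent.P148.R2.H659.Close1

/-!
# P148, row CAL: partition of the frozen set along an explored loop

`H659.Ring T π O w c n`: the closed strand of `c 0` and its main cycle, in the frozen set
`{π = O}`.  The cycle is cut at the indices `s₁ < s₂`; the frozen set has a partition into three
connected classes which contain `c i`, `i < s₁` (class 1), `s₁ ≤ i < s₂` (class 2) and `s₂ ≤ i < n`
together with the other side of the strand (class 0).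
-/

open Function
open Vale.Agent.P148.R2.H258 Vale.Agent.P148.R2.H258.Tri Vale.Agent.P148.R2.H659

namespace Vale.Agent.P148.R2.H251

variable {V V1 D : Type*} {T : Tri V D}

/-! ### connected sets -/

theorem SConn.lift {S S' : Set V} (h : SConn T S) (hS : S ⊆ S') {x y : V} (hx : x ∈ S)
    (hy : y ∈ S) : ∃ l, T.Walk x y l ∧ ∀ g ∈ l, T.src g ∈ S' ∧ T.tgt g ∈ S' := by
  obtain ⟨l, h1, h2⟩ := h x hx y hy
  exact ⟨l, h1, fun g hg => ⟨hS (h2 g hg).1, hS (h2 g hg).2⟩⟩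

theorem swalk_rev {S : Set V} {x y : V}
    (h : ∃ l, T.Walk x y l ∧ ∀ g ∈ l, T.src g ∈ S ∧ T.tgt g ∈ S) :
    ∃ l, T.Walk y x l ∧ ∀ g ∈ l, T.src g ∈ S ∧ T.tgt g ∈ S := by
  obtain ⟨l, h1, h2⟩ := h
  refine ⟨_, h1.reverse, fun g hg => ?_⟩
  rw [List.mem_reverse, List.mem_map] at hg
  obtain ⟨e, he, rfl⟩ := hg
  rw [T.src_rev, T.tgt_rev]
  exact ⟨(h2 e he).2, (h2 e he).1⟩

theorem swalk_trans {S : Set V} {x y z : V}
    (h : ∃ l, T.Walk x y l ∧ ∀ g ∈ l, T.src g ∈ S ∧ T.tgt g ∈ S)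
    (h' : ∃ l, T.Walk y z l ∧ ∀ g ∈ l, T.src g ∈ S ∧ T.tgt g ∈ S) :
    ∃ l, T.Walk x z l ∧ ∀ g ∈ l, T.src g ∈ S ∧ T.tgt g ∈ S := by
  obtain ⟨l, h1, h2⟩ := h
  obtain ⟨m, h3, h4⟩ := h'
  refine ⟨l ++ m, h1.append h3, fun g hg => ?_⟩
  rw [List.mem_append] at hg
  exact hg.elim (h2 g) (h4 g)

theorem sconn_of_hub {S : Set V} {x : V}
    (h : ∀ y ∈ S, ∃ l, T.Walk x y l ∧ ∀ g ∈ l, T.src g ∈ S ∧ T.tgt g ∈ S) : SConn T S :=
  fun y hy z hz => swalk_trans (swalk_rev (h y hy)) (h z hz)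

theorem SConn.insert {S : Set V} (h : SConn T S) {e : D} (he : T.src e ∈ S) :
    SConn T (insert (T.tgt e) S) := by
  refine sconn_of_hub (x := T.src e) ?_
  rintro y (rfl | hy)
  · refine ⟨[e], Walk.single e, fun g hg => ?_⟩
    rw [List.mem_singleton] at hg
    subst hg
    exact ⟨Set.mem_insert_of_mem _ he, Set.mem_insert _ _⟩
  · exact h.lift (Set.subset_insert _ _) he hy

theorem SConn.union {S S' : Set V} (h : SConn T S) (h' : SConn T S') {e : D} (he : T.src e ∈ S)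
    (he' : T.tgt e ∈ S') : SConn T (S ∪ S') := by
  refine sconn_of_hub (x := T.src e) ?_
  rintro y (hy | hy)
  · exact h.lift Set.subset_union_left he hy
  · refine swalk_trans ⟨[e], Walk.single e, fun g hg => ?_⟩
      (h'.lift Set.subset_union_right he' hy)
    rw [List.mem_singleton] at hg
    subst hg
    exact ⟨Or.inl he, Or.inr he'⟩

/-- The set of values of a sequence whose consecutive values are equal or adjacent. -/
theorem sconn_seq {u : ℕ → V} {a m : ℕ}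
    (h : ∀ i, a ≤ i → i < m → u (i + 1) = u i ∨ ∃ e, T.src e = u i ∧ T.tgt e = u (i + 1)) :
    SConn T {v | ∃ i, a ≤ i ∧ i ≤ m ∧ u i = v} := by
  by_cases ham : a ≤ m
  · refine sconn_of_hub (x := u a) ?_
    rintro y ⟨i, h1, h2, rfl⟩
    induction i with
    | zero =>
      have : a = 0 := by omega
      subst this
      exact ⟨[], Walk.nil _, fun g hg => by simp at hg⟩
    | succ i ih =>
      rcases Nat.lt_or_ge i a with h3 | h3
      · have : a = i + 1 := by omega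
        subst this
        exact ⟨[], Walk.nil _, fun g hg => by simp at hg⟩
      · have h4 := ih h3 (by omega)
        rcases h i h3 (by omega) with h5 | ⟨e, h5, h6⟩
        · rw [h5]; exact h4
        · refine swalk_trans h4 ⟨[e], by rw [← h5, ← h6]; exact Walk.single e, fun g hg => ?_⟩
          rw [List.mem_singleton] at hg
          subst hg
          exact ⟨⟨i, h3, by omega, h5.symm⟩, ⟨i + 1, by omega, h2, h6.symm⟩⟩
  · rintro x ⟨i, h1, h2, -⟩
    omega

theorem walk_exit {A : Set V} {x y : V} {l : List D} (h : T.Walk x y l) (hx : x ∈ A) (hy : y ∉ A) :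
    ∃ e ∈ l, T.src e ∈ A ∧ T.tgt e ∉ A := by
  induction h with
  | nil v => exact absurd hx hy
  | cons d w l _ ih =>
    by_cases h1 : T.tgt d ∈ A
    · obtain ⟨e, he, h2⟩ := ih h1 hy
      exact ⟨e, List.mem_cons_of_mem _ he, h2⟩
    · exact ⟨d, by simp, hx, h1⟩

/-- **Extension.** Disjoint connected subsets of a connected set extend to a partition into
connected sets. -/
theorem exists_sext [Finite V] {E : Set V} (hE : SConn T E) {ι : Type*} (O : ι → Set V)
    (hO : ∀ j, SConn T (O j)) (hd : Pairwise fun i j => Disjoint (O i) (O j))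
    (hsub : ∀ j, O j ⊆ E) (hne : ∃ j, (O j).Nonempty) :
    ∃ O' : ι → Set V, (∀ j, O j ⊆ O' j) ∧ (∀ j, SConn T (O' j)) ∧
      (Pairwise fun i j => Disjoint (O' i) (O' j)) ∧ ⋃ j, O' j = E := by
  classical
  generalize hn : (E \ ⋃ j, O j).ncard = n
  induction n using Nat.strong_induction_on generalizing O with
  | _ n ih =>
    by_cases hcov : E ⊆ ⋃ j, O j
    · exact ⟨O, fun _ => subset_rfl, hO, hd, Set.Subset.antisymm (Set.iUnion_subset hsub) hcov⟩
    · obtain ⟨w, hwE, hw⟩ := Set.not_subset.1 hcov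
      obtain ⟨j₀, r, hr⟩ := hne
      obtain ⟨l, hl1, hl2⟩ := hE r (hsub j₀ hr) w hwE
      obtain ⟨e, hel, ha, hc⟩ := walk_exit hl1 (Set.mem_iUnion.2 ⟨j₀, hr⟩) hw
      obtain ⟨j, haj⟩ := Set.mem_iUnion.1 ha
      have hcE := (hl2 e hel).2
      have hfin : (E \ ⋃ j, O j).Finite := Set.toFinite _
      set O₁ : ι → Set V := fun i => if i = j then insert (T.tgt e) (O i) else O i with hO₁
      have e1 : O₁ j = insert (T.tgt e) (O j) := by simp [hO₁]
      have e2 : ∀ i, i ≠ j → O₁ i = O i := fun i hi => by simp [hO₁, hi]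
      have hle : ∀ i, O i ⊆ O₁ i := by
        intro i
        by_cases hi : i = j
        · subst hi; rw [e1]; exact Set.subset_insert _ _
        · rw [e2 i hi]
      have hcn : ∀ i, T.tgt e ∉ O i := fun i hi => hc (Set.mem_iUnion.2 ⟨i, hi⟩)
      have hcm : T.tgt e ∈ ⋃ i, O₁ i :=
        Set.mem_iUnion.2 ⟨j, by rw [e1]; exact Set.mem_insert _ _⟩
      have hlt : (E \ ⋃ i, O₁ i).ncard < n := by
        rw [← hn]
        refine Set.ncard_lt_ncard ?_ hfin
        refine ⟨Set.sdiff_subset_sdiff_right (Set.iUnion_mono hle), fun h => ?_⟩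
        exact (h ⟨hcE, hc⟩).2 hcm
      have g1 : ∀ i, SConn T (O₁ i) := by
        intro i
        by_cases hi : i = j
        · subst hi; rw [e1]; exact (hO i).insert haj
        · rw [e2 i hi]; exact hO i
      have g2 : Pairwise fun i k => Disjoint (O₁ i) (O₁ k) := by
        intro i k hik
        by_cases hi : i = j
        · subst hi
          rw [e1, e2 k (Ne.symm hik), Set.disjoint_insert_left]
          exact ⟨hcn k, hd hik⟩
        · by_cases hk : k = j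
          · subst hk
            rw [e1, e2 i hi, Set.disjoint_insert_right]
            exact ⟨hcn i, hd hik⟩
          · rw [e2 i hi, e2 k hk]
            exact hd hik
      have g3 : ∀ i, O₁ i ⊆ E := by
        intro i
        by_cases hi : i = j
        · subst hi; rw [e1]; exact Set.insert_subset hcE (hsub i)
        · rw [e2 i hi]; exact hsub i
      obtain ⟨O', h1, h2, h3, h4⟩ := ih _ hlt O₁ g1 g2 g3 ⟨j₀, r, hle j₀ hr⟩ rfl
      exact ⟨O', fun i => (hle i).trans (h1 i), h2, h3, h4⟩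

/-! ### the seeds -/

variable {π : V → V1} {O : V1} {w : V → Bool} {c : ℕ → D} {n : ℕ}

theorem cyc_adj (hR : Ring T π O w c n) {i : ℕ} (hi : i + 1 < n) :
    T.src (c (i + 1)) = T.src (c i) ∨
      ∃ e, T.src e = T.src (c i) ∧ T.tgt e = T.src (c (i + 1)) :=
  Or.inr ⟨T.rev (T.nxt (T.nxt (c i))), by rw [T.src_rev, T.tgt_nxt2],
    by rw [T.tgt_rev, T.src_nxt2, hR.next i hi]⟩

theorem tgt_adj {d : D} (hd : T.Bi w d) : T.tgt (T.st w d) = T.tgt d ∨
    ∃ e, T.src e = T.tgt d ∧ T.tgt e = T.tgt (T.st w d) := by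
  by_cases hm : T.Mi w d
  · exact Or.inl (T.tgt_st_mi hm)
  · exact Or.inr ⟨T.nxt d, T.src_nxt' d, by rw [T.tgt_nxt, T.tgt_st_nmi hd hm]⟩

/-- The vertices on the right of the strand. -/
def Rgt (T : Tri V D) (w : V → Bool) (c : ℕ → D) : Set V :=
  {v | ∃ k, T.tgt ((T.st w)^[k] (c 0)) = v}

theorem sconn_rgt [Finite D] (hb : T.Bi w (c 0)) : SConn T (Rgt T w c) := by
  refine sconn_of_hub (x := T.tgt (c 0)) ?_
  rintro y ⟨k, rfl⟩
  have h1 : SConn T {v | ∃ i, 0 ≤ i ∧ i ≤ k ∧ T.tgt ((T.st w)^[i] (c 0)) = v} := by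
    refine sconn_seq fun i _ _ => ?_
    rw [iterate_succ', comp_apply]
    exact tgt_adj ((T.bi_iter i).2 hb)
  have h2 : {v | ∃ i, 0 ≤ i ∧ i ≤ k ∧ T.tgt ((T.st w)^[i] (c 0)) = v} ⊆ Rgt T w c := by
    rintro v ⟨i, _, _, h⟩
    exact ⟨i, h⟩
  exact h1.lift h2 ⟨0, le_rfl, Nat.zero_le _, rfl⟩ ⟨k, Nat.zero_le _, le_rfl, rfl⟩

/-- The sources of the cycle with indices in `[a, b)`. -/
def Arc (T : Tri V D) (c : ℕ → D) (a b : ℕ) : Set V := {v | ∃ i, a ≤ i ∧ i < b ∧ T.src (c i) = v}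

theorem sconn_arc (hR : Ring T π O w c n) {a b : ℕ} (hb : b ≤ n) : SConn T (Arc T c a b) := by
  rcases Nat.eq_zero_or_pos b with rfl | hb0
  · rintro x ⟨i, _, h, _⟩; omega
  · have h1 : SConn T {v | ∃ i, a ≤ i ∧ i ≤ b - 1 ∧ T.src (c i) = v} :=
      sconn_seq fun i _ h2 => cyc_adj hR (by omega)
    have h2 : Arc T c a b = {v | ∃ i, a ≤ i ∧ i ≤ b - 1 ∧ T.src (c i) = v} := by
      ext v
      exact ⟨fun ⟨i, h3, h4, h5⟩ => ⟨i, h3, by omega, h5⟩,
        fun ⟨i, h3, h4, h5⟩ => ⟨i, h3, by omega, h5⟩⟩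
    rw [h2]; exact h1

theorem arc_col (hR : Ring T π O w c n) {a b : ℕ} (hb : b ≤ n) {v : V} (hv : v ∈ Arc T c a b) :
    w v = w (T.src (c 0)) := by
  obtain ⟨i, -, h2, rfl⟩ := hv
  obtain ⟨k, hk⟩ := hR.str i (by omega)
  rw [← hk, T.col_src_iter w (c 0) k]

theorem rgt_col {v : V} (hv : v ∈ Rgt T w c) : w v = w (T.tgt (c 0)) := by
  obtain ⟨k, rfl⟩ := hv
  rw [T.col_tgt_iter w (c 0) k]

theorem arc_disj_rgt (hR : Ring T π O w c n) {a b : ℕ} (hb : b ≤ n) :
    Disjoint (Arc T c a b) (Rgt T w c) := by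
  rw [Set.disjoint_left]
  intro v h1 h2
  exact (hR.mi 0 hR.pos).1 (by rw [← arc_col hR hb h1, ← rgt_col h2])

theorem arc_disj (hR : Ring T π O w c n) {a b a' b' : ℕ} (hb : b ≤ n) (hb' : b' ≤ n)
    (h : b ≤ a' ∨ b' ≤ a) : Disjoint (Arc T c a b) (Arc T c a' b') := by
  rw [Set.disjoint_left]
  rintro v ⟨i, h1, h2, rfl⟩ ⟨j, h3, h4, h5⟩
  have := hR.inj i (by omega) j (by omega) h5.symm
  omega

/-- **Partition of the frozen set.** -/
theorem exists_three [Finite V] [Finite D] (hR : Ring T π O w c n) (hB : SConn T {v | π v = O})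
    {s₁ s₂ : ℕ} (h1 : 0 < s₁) (h12 : s₁ < s₂) (h2 : s₂ < n) :
    ∃ S : Fin 3 → Set V, (∀ j, SConn T (S j)) ∧ (Pairwise fun i j => Disjoint (S i) (S j)) ∧
      ⋃ j, S j = {v | π v = O} ∧ (∀ i < s₁, T.src (c i) ∈ S 1) ∧
      (∀ i, s₁ ≤ i → i < s₂ → T.src (c i) ∈ S 2) ∧ (∀ i, s₂ ≤ i → i < n → T.src (c i) ∈ S 0) ∧
      ∀ k, T.tgt ((T.st w)^[k] (c 0)) ∈ S 0 := by
  classical
  have hfib : ∀ {a b : ℕ}, b ≤ n → Arc T c a b ⊆ {v | π v = O} := by
    rintro a b hb v ⟨i, _, hi, rfl⟩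
    exact (hR.fib (by omega)).1
  set S₀ : Fin 3 → Set V := fun j =>
    if j = 0 then Arc T c s₂ n ∪ Rgt T w c else if j = 1 then Arc T c 0 s₁ else Arc T c s₁ s₂
    with hS₀
  have e0 : S₀ 0 = Arc T c s₂ n ∪ Rgt T w c := by simp [hS₀]
  have e1 : S₀ 1 = Arc T c 0 s₁ := by simp [hS₀]
  have e2 : S₀ 2 = Arc T c s₁ s₂ := by simp [hS₀]
  have hconn : ∀ j, SConn T (S₀ j) := by
    intro j
    fin_cases j
    · change SConn T (S₀ 0)
      rw [e0]
      refine (sconn_arc hR le_rfl).union (sconn_rgt (hR.mi 0 hR.pos).bi) (e := c s₂)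
        ⟨s₂, le_rfl, h2, rfl⟩ ?_
      obtain ⟨k, hk⟩ := hR.str s₂ h2
      exact ⟨k, by rw [hk]⟩
    · change SConn T (S₀ 1)
      rw [e1]; exact sconn_arc hR (by omega)
    · change SConn T (S₀ 2)
      rw [e2]; exact sconn_arc hR (by omega)
  have d01 : Disjoint (S₀ 0) (S₀ 1) := by
    rw [e0, e1, Set.disjoint_union_left]
    exact ⟨arc_disj hR le_rfl (by omega) (Or.inr (by omega)),
      (arc_disj_rgt hR (by omega)).symm⟩
  have d02 : Disjoint (S₀ 0) (S₀ 2) := by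
    rw [e0, e2, Set.disjoint_union_left]
    exact ⟨arc_disj hR le_rfl (by omega) (Or.inr (by omega)),
      (arc_disj_rgt hR (by omega)).symm⟩
  have d12 : Disjoint (S₀ 1) (S₀ 2) := by
    rw [e1, e2]
    exact arc_disj hR (by omega) (by omega) (Or.inl le_rfl)
  have hdis : Pairwise fun i j => Disjoint (S₀ i) (S₀ j) := by
    intro i j hij
    fin_cases i <;> fin_cases j
    · exact absurd rfl hij
    · exact d01
    · exact d02
    · exact d01.symm
    · exact absurd rfl hij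
    · exact d12
    · exact d02.symm
    · exact d12.symm
    · exact absurd rfl hij
  have hsub : ∀ j, S₀ j ⊆ {v | π v = O} := by
    intro j
    fin_cases j
    · change S₀ 0 ⊆ _
      rw [e0]
      refine Set.union_subset (hfib le_rfl) ?_
      rintro v ⟨k, rfl⟩
      exact (hR.seen k).2
    · change S₀ 1 ⊆ _
      rw [e1]; exact hfib (by omega)
    · change S₀ 2 ⊆ _
      rw [e2]; exact hfib (by omega)
  obtain ⟨S, a1, a2, a3, a4⟩ := exists_sext hB S₀ hconn hdis hsub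
    ⟨1, T.src (c 0), by rw [e1]; exact ⟨0, le_rfl, h1, rfl⟩⟩
  refine ⟨S, a2, a3, a4, fun i hi => a1 1 ?_, fun i hi hi' => a1 2 ?_, fun i hi hi' => a1 0 ?_,
    fun k => a1 0 ?_⟩
  · rw [e1]; exact ⟨i, Nat.zero_le _, hi, rfl⟩
  · rw [e2]; exact ⟨i, hi, hi', rfl⟩
  · rw [e0]; exact Or.inl ⟨i, hi, hi', rfl⟩
  · rw [e0]; exact Or.inr ⟨k, rfl⟩

end Vale.Agent.P148.R2.H251
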