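import Vale.Agent.P148.R2.H251.W3b
import Vale.Agent.P148.R2.H953.Cal3

/-!
# P148, row CAL: the world with three frozen classes along an explored loop

`T3` is the contraction of the three connected classes of `exists_three`.  The outer face of the
calibration is the minority dart `c (s₁ - 1)` of the loop (source in class 1, target in class 0,
apex in class 2).  Every other face of `T3` with three different corners has a free corner, and
the frozen corners of such a face are vertices of the main cycle in the right arc.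
-/

open Function
open Vale.Agent.P148.R2.H258 Vale.Agent.P148.R2.H258.Tri Vale.Agent.P148.R2.H659
  Vale.Agent.P148.R2.H871 Vale.Agent.P148.R2.H953

namespace Vale.Agent.P148.R2.H251

variable {V V1 V3 D : Type*}

/-- The arc of the main cycle with number `j` (`1`: indices `< s₁`, `2`: `[s₁, s₂)`, `0`: the
rest). -/
def InArc (s₁ s₂ n : ℕ) (j : Fin 3) (i : ℕ) : Prop :=
  (j = 1 ∧ i < s₁) ∨ (j = 2 ∧ s₁ ≤ i ∧ i < s₂) ∨ (j = 0 ∧ s₂ ≤ i ∧ i < n)

/-- The world with three frozen classes. -/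
structure W3 (T : Tri V D) (T3 : Tri V3 D) (π : V → V1) (O : V1) (w : V → Bool) (c : ℕ → D)
    (n s₁ s₂ : ℕ) (S : Fin 3 → Set V) (π3 : V → V3) (lab : Fin 3 → V3) : Prop where
  ring : Ring T π O w c n
  pos1 : 0 < s₁
  lt12 : s₁ < s₂
  lt2 : s₂ < n
  planar : T.Planar
  planar3 : T3.Planar
  contr : Contr T T3 π3
  noloop : ∀ d, T.src d ≠ T.tgt d
  conn : ∀ j, SConn T (S j)
  disj : Pairwise fun i j => Disjoint (S i) (S j)
  cover : ⋃ j, S j = {v | π v = O}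
  free : SConn T {v | π v ≠ O}
  arc : ∀ j i, InArc s₁ s₂ n j i → T.src (c i) ∈ S j
  rgt : ∀ k, T.tgt ((T.st w)^[k] (c 0)) ∈ S 0
  mem : ∀ v j, π3 v = lab j ↔ v ∈ S j
  inj : ∀ u v, π u ≠ O → π3 u = π3 v → u = v
  touch : ∀ j, ∃ e, T.src e ∈ S j ∧ π (T.tgt e) ≠ O

variable {T : Tri V D} {T3 : Tri V3 D} {π : V → V1} {O : V1} {w : V → Bool} {c : ℕ → D}
  {n s₁ s₂ : ℕ} {S : Fin 3 → Set V} {π3 : V → V3} {lab : Fin 3 → V3}

theorem inFace_symm {f g : D} (h : T.InFace f g) : T.InFace g f := by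
  rcases h with h | h | h
  · exact Or.inl h.symm
  · exact Or.inr (Or.inr (by rw [h, T.nxt3]))
  · exact Or.inr (Or.inl (by rw [h, T.nxt3]))

theorem inFace_trans {f g k : D} (h : T.InFace f g) (h' : T.InFace g k) : T.InFace f k := by
  rcases h' with h' | h' | h'
  · rw [h']; exact h
  · rw [h', T.inFace_nxt]; exact h
  · rw [h', T.inFace_nxt, T.inFace_nxt]; exact h

theorem contr_inFace (hC : Contr T T3 π3) {f g : D} : T3.InFace f g ↔ T.InFace f g := by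
  unfold Tri.InFace
  rw [hC.nxt, hC.nxt]

namespace W3

variable (hW : W3 T T3 π O w c n s₁ s₂ S π3 lab)
include hW

theorem frozen {v : V} {j : Fin 3} (hv : v ∈ S j) : π v = O := by
  have : v ∈ ⋃ j, S j := Set.mem_iUnion.2 ⟨j, hv⟩
  rwa [hW.cover] at this

theorem exists_cls {v : V} (hv : π v = O) : ∃ j, v ∈ S j := by
  have : v ∈ ⋃ j, S j := by rw [hW.cover]; exact hv
  exact Set.mem_iUnion.1 this

theorem cls_unique {v : V} {i j : Fin 3} (hi : v ∈ S i) (hj : v ∈ S j) : i = j := by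
  by_contra hne
  exact Set.disjoint_left.1 (hW.disj hne) hi hj

theorem lab_inj {i j : Fin 3} (h : lab i = lab j) : i = j := by
  obtain ⟨e, he, -⟩ := hW.touch i
  have h1 := (hW.mem _ _).2 he
  rw [h] at h1
  exact hW.cls_unique he ((hW.mem _ _).1 h1)

theorem tgt_mem {i : ℕ} (hi : i < n) : T.tgt (c i) ∈ S 0 := by
  obtain ⟨k, hk⟩ := hW.ring.str i hi
  rw [← hk]; exact hW.rgt k

theorem o_corners : T.src (c (s₁ - 1)) ∈ S 1 ∧ T.tgt (c (s₁ - 1)) ∈ S 0 ∧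
    T.apex (c (s₁ - 1)) ∈ S 2 := by
  have h1 := hW.pos1
  have h12 := hW.lt12
  have h2 := hW.lt2
  refine ⟨hW.arc 1 _ (Or.inl ⟨rfl, by omega⟩), hW.tgt_mem (by omega), ?_⟩
  rw [← hW.ring.next (s₁ - 1) (by omega)]
  have : s₁ - 1 + 1 = s₁ := by omega
  rw [this]
  exact hW.arc 2 _ (Or.inr (Or.inl ⟨rfl, le_rfl, h12⟩))

theorem src3 {d : D} {j : Fin 3} (h : T.src d ∈ S j) : T3.src d = lab j := by
  rw [hW.contr.src]; exact (hW.mem _ _).2 h

theorem tgt3 {d : D} {j : Fin 3} (h : T.tgt d ∈ S j) : T3.tgt d = lab j := by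
  rw [hW.contr.tgt]; exact (hW.mem _ _).2 h

theorem apex3 {d : D} {j : Fin 3} (h : T.apex d ∈ S j) : T3.apex d = lab j := by
  rw [hW.contr.apex]; exact (hW.mem _ _).2 h

theorem good_o : T3.Good (c (s₁ - 1)) := by
  obtain ⟨a1, a2, a3⟩ := hW.o_corners
  refine ⟨?_, ?_, ?_⟩
  · rw [hW.src3 a1, hW.tgt3 a2]
    exact fun h => absurd (hW.lab_inj h) (by decide)
  · rw [hW.tgt3 a2, hW.apex3 a3]
    exact fun h => absurd (hW.lab_inj h) (by decide)
  · rw [hW.apex3 a3, hW.src3 a1]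
    exact fun h => absurd (hW.lab_inj h) (by decide)

/-- Uniqueness of the frozen face. -/
theorem unique {g : D} (hg : T3.Good g) (h1 : π (T.src g) = O) (h2 : π (T.tgt g) = O)
    (h3 : π (T.apex g) = O) : T3.InFace (c (s₁ - 1)) g := by
  obtain ⟨x, hx⟩ := hW.exists_cls h1
  obtain ⟨y, hy⟩ := hW.exists_cls h2
  obtain ⟨z, hz⟩ := hW.exists_cls h3
  have hxy : x ≠ y := by
    rintro rfl
    exact hg.1 (by rw [hW.src3 hx, hW.tgt3 hy])
  have hyz : y ≠ z := by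
    rintro rfl
    exact hg.2.1 (by rw [hW.tgt3 hy, hW.apex3 hz])
  have hzx : z ≠ x := by
    rintro rfl
    exact hg.2.2 (by rw [hW.apex3 hz, hW.src3 hx])
  obtain ⟨a1, a2, a3⟩ := hW.o_corners
  have dj : ∀ i j : Fin 3, i ≠ j → Disjoint (S i) (S j) := fun i j h => hW.disj h
  have dI : ∀ j, Disjoint (S j) {v | π v ≠ O} := fun j =>
    Set.disjoint_left.2 fun v hv hv' => hv' (hW.frozen hv)
  have key : ∀ g' : D, T.InFace g g' →
      ((T.src g' ∈ S 1 ∧ T.tgt g' ∈ S 0 ∧ T.apex g' ∈ S 2) ∨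
        (T.src g' ∈ S 0 ∧ T.tgt g' ∈ S 1 ∧ T.apex g' ∈ S 2)) → T3.InFace (c (s₁ - 1)) g := by
    intro g' hf hc
    have h4 := three_unique hW.planar hW.noloop (hW.conn 1) (hW.conn 0) (hW.conn 2) hW.free
      (dj 1 0 (by decide)) (dj 1 2 (by decide)) (dj 0 2 (by decide)) (dI 1) (dI 0) (dI 2)
      (hW.touch 1) (hW.touch 0) (hW.touch 2) a1 a2 a3 hc
    rw [contr_inFace hW.contr]
    exact inFace_symm (inFace_trans hf h4)
  have f0 : T.InFace g g := Or.inl rfl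
  have f1 : T.InFace g (T.nxt g) := Or.inr (Or.inl rfl)
  have f2 : T.InFace g (T.nxt (T.nxt g)) := Or.inr (Or.inr rfl)
  -- corners of the rotated darts
  have e1 : T.src (T.nxt g) ∈ S y := by rw [T.src_nxt']; exact hy
  have e2 : T.tgt (T.nxt g) ∈ S z := by rw [T.tgt_nxt]; exact hz
  have e3 : T.apex (T.nxt g) ∈ S x := by rw [T.apex_nxt]; exact hx
  have e4 : T.src (T.nxt (T.nxt g)) ∈ S z := by rw [T.src_nxt2]; exact hz
  have e5 : T.tgt (T.nxt (T.nxt g)) ∈ S x := by rw [T.tgt_nxt2]; exact hx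
  have e6 : T.apex (T.nxt (T.nxt g)) ∈ S y := by rw [T.apex_nxt2]; exact hy
  have h3' : ∀ x y z : Fin 3, x ≠ y → y ≠ z → z ≠ x →
      (x = 1 ∧ y = 0 ∧ z = 2) ∨ (x = 0 ∧ y = 1 ∧ z = 2) ∨ (y = 1 ∧ z = 0 ∧ x = 2) ∨
      (y = 0 ∧ z = 1 ∧ x = 2) ∨ (z = 1 ∧ x = 0 ∧ y = 2) ∨ (z = 0 ∧ x = 1 ∧ y = 2) := by
    decide
  rcases h3' x y z hxy hyz hzx with ⟨rfl, rfl, rfl⟩ | ⟨rfl, rfl, rfl⟩ | ⟨rfl, rfl, rfl⟩ |
    ⟨rfl, rfl, rfl⟩ | ⟨rfl, rfl, rfl⟩ | ⟨rfl, rfl, rfl⟩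
  · exact key g f0 (Or.inl ⟨hx, hy, hz⟩)
  · exact key g f0 (Or.inr ⟨hx, hy, hz⟩)
  · exact key _ f1 (Or.inl ⟨e1, e2, e3⟩)
  · exact key _ f1 (Or.inr ⟨e1, e2, e3⟩)
  · exact key _ f2 (Or.inl ⟨e4, e5, e6⟩)
  · exact key _ f2 (Or.inr ⟨e4, e5, e6⟩)

theorem inArc_of {i : ℕ} {j : Fin 3} (hi : i < n) (h : T.src (c i) ∈ S j) :
    InArc s₁ s₂ n j i := by
  rcases Nat.lt_or_ge i s₁ with h1 | h1
  · have := hW.cls_unique h (hW.arc 1 i (Or.inl ⟨rfl, h1⟩))
    exact Or.inl ⟨this, h1⟩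
  · rcases Nat.lt_or_ge i s₂ with h2 | h2
    · have := hW.cls_unique h (hW.arc 2 i (Or.inr (Or.inl ⟨rfl, h1, h2⟩)))
      exact Or.inr (Or.inl ⟨this, h1, h2⟩)
    · have := hW.cls_unique h (hW.arc 0 i (Or.inr (Or.inr ⟨rfl, h2, hi⟩)))
      exact Or.inr (Or.inr ⟨this, h2, hi⟩)

/-- A frozen vertex next to a free one is on the main cycle, in the arc of its class. -/
theorem contact {e : D} {j : Fin 3} (h : T.src e ∈ S j) (h' : π (T.tgt e) ≠ O) :
    ∃ i < n, InArc s₁ s₂ n j i ∧ T.src e = T.src (c i) := by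
  obtain ⟨i, hi, h1⟩ := hW.ring.ring e (hW.frozen h) h'
  refine ⟨i, hi, hW.inArc_of hi ?_, h1⟩
  rw [← h1]; exact h

/-- The frozen source of a face of `T3` other than `o` is on the main cycle. -/
theorem contact_good {g : D} (hg : T3.Good g) (ho : ¬ T3.InFace (c (s₁ - 1)) g) {j : Fin 3}
    (h : T3.src g = lab j) : ∃ i < n, InArc s₁ s₂ n j i ∧ T.src g = T.src (c i) := by
  rw [hW.contr.src, hW.mem] at h
  by_cases h2 : π (T.tgt g) = O
  · by_cases h3 : π (T.apex g) = O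
    · exact absurd (hW.unique hg (hW.frozen h) h2 h3) ho
    · have h4 := hW.contact (e := T.rev (T.nxt (T.nxt g))) (j := j)
        (by rw [T.src_rev, T.tgt_nxt2]; exact h) (by rw [T.tgt_rev, T.src_nxt2]; exact h3)
      rwa [T.src_rev, T.tgt_nxt2] at h4
  · exact hW.contact h h2

theorem freePos (pos : V → ℂ) : FreePos T3 (fun d => pos (T.src d)) (c (s₁ - 1)) := by
  intro d e h1 h2 h3 h4
  obtain ⟨a1, a2, a3⟩ := hW.o_corners
  change pos (T.src d) = pos (T.src e)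
  by_cases h5 : π (T.src d) = O
  · obtain ⟨j, hj⟩ := hW.exists_cls h5
    have h6 := hW.src3 hj
    have h7 : j = 0 ∨ j = 1 ∨ j = 2 := (by decide : ∀ j : Fin 3, j = 0 ∨ j = 1 ∨ j = 2) j
    rcases h7 with rfl | rfl | rfl
    · exact absurd (by rw [h6, hW.tgt3 a2]) h3
    · exact absurd (by rw [h6, hW.src3 a1]) h2
    · exact absurd (by rw [h6, hW.apex3 a3]) h4
  · rw [hW.contr.src, hW.contr.src] at h1
    rw [hW.inj _ _ h5 h1]

end W3

end Vale.Agent.P148.R2.H251
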