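import Vale.Agent.P148.R2.H251.W3c

/-!
# P148, row CAL: the classes of the frozen face and the calibration along an explored loop
-/

open Function
open Vale.Agent.P148.R2.H258 Vale.Agent.P148.R2.H258.Tri Vale.Agent.P148.R2.H659
  Vale.Agent.P148.R2.H871 Vale.Agent.P148.R2.H953

namespace Vale.Agent.P148.R2.H251

variable {V V1 V3 D : Type*}
variable {T : Tri V D} {T3 : Tri V3 D} {π : V → V1} {O : V1} {w : V → Bool} {c : ℕ → D}
  {n s₁ s₂ : ℕ} {S : Fin 3 → Set V} {π3 : V → V3} {lab : Fin 3 → V3}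

/-- The class of a dart `q` of the frozen face, for the colouring `σ` of `T3`, without `q`: a path
`f 1, …, f (m-1)` of minority darts with real consecutive vertices, from a vertex of the main cycle
in the arc `β` to a vertex of the main cycle in the arc `α`. -/
structure Path3 (T : Tri V D) (T3 : Tri V3 D) (π : V → V1) (O : V1) (c : ℕ → D) (n s₁ s₂ : ℕ)
    (σ : V3 → Bool) (q : D) (α β : Fin 3) (m : ℕ) (f : ℕ → D) (j₁ i₁ : ℕ) : Prop where
  two : 2 ≤ m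
  zero : f 0 = q
  rel : ∀ g, T3.Rel σ q g ↔ ∃ i < m, g = f i
  next3 : ∀ i < m, T3.src (f (i + 1)) = T3.apex (f i)
  last3 : f m = q
  inj3 : ∀ i < m, ∀ k < m, T3.src (f i) = T3.src (f k) → i = k
  mi3 : ∀ i < m, T3.Mi σ (f i)
  good3 : ∀ i < m, T3.Good (f i)
  next : ∀ i, 1 ≤ i → i + 1 < m → T.src (f (i + 1)) = T.apex (f i)
  inj : ∀ i k, 1 ≤ i → i < m → 1 ≤ k → k < m → T.src (f i) = T.src (f k) → i = k
  free : ∀ i, 2 ≤ i → i < m → π (T.src (f i)) ≠ O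
  corner : ∀ i, 1 ≤ i → i < m → π (T.src (f i)) ≠ O ∨ π (T.tgt (f i)) ≠ O ∨
    π (T.apex (f i)) ≠ O
  hi : i₁ < n
  ai : InArc s₁ s₂ n β i₁
  start : T.src (f 1) = T.src (c i₁)
  hj : j₁ < n
  aj : InArc s₁ s₂ n α j₁
  stop : T.apex (f (m - 1)) = T.src (c j₁)

namespace W3

variable (hW : W3 T T3 π O w c n s₁ s₂ S π3 lab)
include hW

theorem exists_path [Finite D] {σ : V3 → Bool} {q : D} (hq : T3.InFace (c (s₁ - 1)) q)
    (hm : T3.Mi σ q) {α β γ : Fin 3} (ha : T.src q ∈ S α) (hb : T.apex q ∈ S β)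
    (hc : T.tgt q ∈ S γ) :
    ∃ m f j₁ i₁, Path3 T T3 π O c n s₁ s₂ σ q α β m f j₁ i₁ := by
  classical
  have hgo := hW.good_o
  have hgq : T3.Good q := by
    rcases hq with rfl | rfl | rfl
    · exact hgo
    · exact hgo.nxt
    · exact hgo.nxt.nxt
  obtain ⟨m, f, hm0, h0, hfm, hs, hinj, hrel, hnd⟩ := T3.class_cycle hW.planar3 hm hgq.2.2
  have hm2 : 2 ≤ m := by
    by_contra hc
    have : m = 1 := by omega
    subst this
    have := hs 0 (by omega)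
    rw [hfm, h0] at this
    exact hgq.2.2 this.symm
  have hmi : ∀ i < m, T3.Mi σ (f i) := fun i hi => ((hrel (f i)).2 ⟨i, hi, rfl⟩).2.1
  have hgood : ∀ i < m, T3.Good (f i) := fun i hi =>
    T3.good_of_rel hW.planar3 ((hrel (f i)).2 ⟨i, hi, rfl⟩) hgq.2.2
  have hne : ∀ i, 1 ≤ i → i < m → f i ≠ q := by
    intro i h1 h2 h3
    have := hinj i h2 0 (by omega) (by rw [h3, h0])
    omega
  have hnf : ∀ i, 1 ≤ i → i < m → ¬ T3.InFace (c (s₁ - 1)) (f i) := by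
    intro i h1 h2 h3
    exact inFace_of_mi T3 hm (hmi i h2) (hne i h1 h2) (inFace_trans (inFace_symm hq) h3)
  have hcorner : ∀ i, 1 ≤ i → i < m → π (T.src (f i)) ≠ O ∨ π (T.tgt (f i)) ≠ O ∨
      π (T.apex (f i)) ≠ O := by
    intro i h1 h2
    by_contra hcon
    push Not at hcon
    exact hnf i h1 h2 (hW.unique (hgood i h2) hcon.1 hcon.2.1 hcon.2.2)
  -- colours and labels
  have hcol : ∀ i < m, σ (T3.src (f i)) = σ (T3.src q) := by
    intro i hi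
    exact (T3.rel_col ((hrel (f i)).2 ⟨i, hi, rfl⟩)).1
  have e1 : T3.src (f 1) = T3.apex q := by
    have := hs 0 (by omega)
    rwa [h0] at this
  have hfree : ∀ i, 2 ≤ i → i < m → π (T.src (f i)) ≠ O := by
    intro i h1 h2 h3
    obtain ⟨j, hj⟩ := hW.exists_cls h3
    have h4 := hW.src3 hj
    have hαβγ : ∀ j : Fin 3, j = α ∨ j = β ∨ j = γ := by
      have hab : α ≠ β := by
        rintro rfl
        exact hgq.2.2 (by rw [hW.apex3 hb, hW.src3 ha])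
      have hbc : β ≠ γ := by
        rintro rfl
        exact hgq.2.1 (by rw [hW.tgt3 hc, hW.apex3 hb])
      have hca : γ ≠ α := by
        rintro rfl
        exact hgq.1 (by rw [hW.src3 ha, hW.tgt3 hc])
      have hdec : ∀ α β γ : Fin 3, α ≠ β → β ≠ γ → γ ≠ α → ∀ j : Fin 3, j = α ∨ j = β ∨ j = γ := by
        decide
      exact hdec α β γ hab hbc hca
    rcases hαβγ j with rfl | rfl | rfl
    · have := hinj i h2 0 (by omega) (by rw [h4, h0, hW.src3 ha])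
      omega
    · have := hinj i h2 1 (by omega) (by rw [h4, e1, hW.apex3 hb])
      omega
    · have h5 := hcol i h2
      rw [h4, ← hW.tgt3 hc] at h5
      exact hm.1 h5.symm
  obtain ⟨i₁, hi₁, hai, hi⟩ := hW.contact_good (hgood 1 (by omega)) (hnf 1 le_rfl (by omega))
    (j := β) (by rw [e1, hW.apex3 hb])
  have hl : T3.apex (f (m - 1)) = lab α := by
    have h1 := hs (m - 1) (by omega)
    rw [Nat.sub_add_cancel hm0, hfm, hW.src3 ha] at h1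
    exact h1.symm
  obtain ⟨j₁, hj₁, haj, hj⟩ := hW.contact_good (g := T.nxt (T.nxt (f (m - 1)))) (j := α)
    (by
      rw [← hW.contr.nxt, ← hW.contr.nxt]
      exact (hgood (m - 1) (by omega)).nxt.nxt)
    (by
      rw [← hW.contr.nxt, ← hW.contr.nxt, T3.inFace_nxt, T3.inFace_nxt]
      exact hnf (m - 1) (by omega) (by omega))
    (by rw [← hl, ← hW.contr.nxt, ← hW.contr.nxt, T3.src_nxt2])
  rw [T.src_nxt2] at hj
  refine ⟨m, f, j₁, i₁, hm2, h0, hrel, hs, hfm, hinj, hmi, hgood, ?_, ?_, hfree, hcorner, hi₁, hai, hi,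
    hj₁, haj, hj⟩
  · intro i h1 h2
    have h3 := hs i (by omega)
    rw [hW.contr.src, hW.contr.apex] at h3
    exact hW.inj _ _ (hfree (i + 1) (by omega) h2) h3
  · intro i k _ h2 _ h4 h5
    exact hinj i h2 k h4 (by rw [hW.contr.src, hW.contr.src, h5])

end W3

namespace Path3

variable {σ : V3 → Bool} {q : D} {α β : Fin 3} {m : ℕ} {f : ℕ → D} {j₁ i₁ : ℕ}

open Classical in
/-- The value of the class, without `q`. -/
theorem cls_eq [Fintype D] (hC : Path3 T T3 π O c n s₁ s₂ σ q α β m f j₁ i₁) (Θ : D → ℂ)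
    (hΘ : Θ q = 0) : T3.cls σ q Θ = ∑ i ∈ Finset.Ico 1 m, Θ (f i) := by
  have hfi : ∀ i < m, ∀ k < m, f i = f k → i = k := fun i hi k hk hik =>
    hC.inj3 i hi k hk (by rw [hik])
  have h1 : T3.cls σ q Θ = ∑ i ∈ Finset.range m, Θ (f i) := by
    unfold Tri.cls
    rw [← Finset.sum_filter]
    have h2 : (Finset.univ.filter fun g : D => T3.Rel σ g q) = (Finset.range m).image f := by
      ext g
      simp only [Finset.mem_filter, Finset.mem_univ, true_and, Finset.mem_image, Finset.mem_range]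
      constructor
      · intro h
        obtain ⟨i, hi, rfl⟩ := (hC.rel g).1 (T3.rel_symm h)
        exact ⟨i, hi, rfl⟩
      · rintro ⟨i, hi, rfl⟩
        exact T3.rel_symm ((hC.rel (f i)).2 ⟨i, hi, rfl⟩)
    rw [h2, Finset.sum_image]
    intro i hi k hk hik
    exact hfi i (by simpa using hi) k (by simpa using hk) hik
  have h3 := hC.two
  rw [h1, Finset.range_eq_Ico, Finset.sum_eq_sum_Ico_succ_bot (by omega), hC.zero, hΘ, zero_add]

/-- The displacement of the class. -/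
theorem ds_eq' [Fintype D] (hC : Path3 T T3 π O c n s₁ s₂ σ q α β m f j₁ i₁) (hctr : Contr T T3 π3)
    (pos : V → ℂ) : ds T3 (fun d => pos (T.src d)) σ q = pos (T.src (c j₁)) - pos (T.src (c i₁)) := by
  classical
  have hfi : ∀ i < m, ∀ k < m, f i = f k → i = k := fun i hi k hk hik =>
    hC.inj3 i hi k hk (by rw [hik])
  have h3 := hC.two
  have hsum : ds T3 (fun d => pos (T.src d)) σ q =
      ∑ i ∈ Finset.Ico 1 m, (pos (T.apex (f i)) - pos (T.src (f i))) := by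
    unfold ds
    rw [← Finset.sum_filter]
    have h2 : (Finset.univ.filter fun g : D => T3.Rel σ g q ∧ g ≠ q) =
        (Finset.Ico 1 m).image f := by
      ext g
      simp only [Finset.mem_filter, Finset.mem_univ, true_and, Finset.mem_image, Finset.mem_Ico]
      constructor
      · rintro ⟨h, h'⟩
        obtain ⟨i, hi, rfl⟩ := (hC.rel g).1 (T3.rel_symm h)
        refine ⟨i, ⟨?_, hi⟩, rfl⟩
        rcases Nat.eq_zero_or_pos i with h4 | h4
        · subst h4; exact absurd hC.zero h'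
        · exact h4
      · rintro ⟨i, ⟨h4, hi⟩, rfl⟩
        refine ⟨T3.rel_symm ((hC.rel (f i)).2 ⟨i, hi, rfl⟩), fun h => ?_⟩
        have := hfi i hi 0 (by omega) (by rw [h, hC.zero])
        omega
    rw [h2, Finset.sum_image]
    · refine Finset.sum_congr rfl fun i _ => ?_
      change pos (T.src (T3.nxt (T3.nxt (f i)))) - pos (T.src (f i)) = _
      rw [hctr.nxt, hctr.nxt, T.src_nxt2]
    · intro i hi k hk hik
      rw [Finset.mem_coe, Finset.mem_Ico] at hi hk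
      exact hfi i hi.2 k hk.2 hik
  have htel : ∀ k, 1 ≤ k → k < m → ∑ i ∈ Finset.Ico 1 (k + 1),
      (pos (T.apex (f i)) - pos (T.src (f i))) = pos (T.apex (f k)) - pos (T.src (f 1)) := by
    intro k hk
    induction k with
    | zero => omega
    | succ k ih =>
      intro hk2
      rcases Nat.eq_zero_or_pos k with h4 | h4
      · subst h4; simp
      · rw [Finset.sum_Ico_succ_top (by omega), ih h4 (by omega), hC.next k h4 (by omega)]
        ring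
  rw [hsum]
  obtain ⟨p, rfl⟩ : ∃ p, m = p + 1 := ⟨m - 1, by omega⟩
  rw [htel p (by omega) (by omega), ← hC.start, ← hC.stop]
  rfl

end Path3

/-! ### geometry of the three arcs -/

/-- Near the bottom side of `[0, W]²`. -/
def BotP (W δ : ℝ) (z : ℂ) : Prop := -δ ≤ z.re ∧ z.re ≤ W + δ ∧ -δ ≤ z.im ∧ z.im ≤ δ

/-- Near the right side. -/
def RigP (W δ : ℝ) (z : ℂ) : Prop := W - δ ≤ z.re ∧ z.re ≤ W + δ ∧ -δ ≤ z.im ∧ z.im ≤ W + δ

/-- Near the left or the top side. -/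
def LefP (W δ : ℝ) (z : ℂ) : Prop := z.re ≤ W + δ ∧ -δ ≤ z.im ∧ (z.re ≤ δ ∨ W - δ ≤ z.im)

/-- The arcs `1`, `2`, `0` are near the bottom, right, left-and-top sides. -/
def ArcPos (T : Tri V D) (c : ℕ → D) (n s₁ s₂ : ℕ) (pos : V → ℂ) (W δ : ℝ) : Prop :=
  (∀ i < s₁, BotP W δ (pos (T.src (c i)))) ∧
    (∀ i, s₁ ≤ i → i < s₂ → RigP W δ (pos (T.src (c i)))) ∧
    ∀ i, s₂ ≤ i → i < n → LefP W δ (pos (T.src (c i)))

/-- The arcs `1`, `2`, `0` are near the right, bottom, left-and-top sides. -/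
def ArcNeg (T : Tri V D) (c : ℕ → D) (n s₁ s₂ : ℕ) (pos : V → ℂ) (W δ : ℝ) : Prop :=
  (∀ i < s₁, RigP W δ (pos (T.src (c i)))) ∧
    (∀ i, s₁ ≤ i → i < s₂ → BotP W δ (pos (T.src (c i)))) ∧
    ∀ i, s₂ ≤ i → i < n → LefP W δ (pos (T.src (c i)))

namespace W3

variable (hW : W3 T T3 π O w c n s₁ s₂ S π3 lab)
include hW

theorem at_arc {g : D} (hg : T3.Good g) (ho : ¬ T3.InFace (c (s₁ - 1)) g) {j : Fin 3}
    (h : T3.src g = lab j) {Q : V → Prop} (hQ : ∀ i, InArc s₁ s₂ n j i → Q (T.src (c i))) :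
    Q (T.src g) := by
  obtain ⟨i, -, h1, h2⟩ := hW.contact_good hg ho h
  rw [h2]; exact hQ i h1

theorem sqPos {pos : V → ℂ} {W δ : ℝ} (hp : ArcPos T c n s₁ s₂ pos W δ) :
    SqPos T3 (fun d => pos (T.src d)) (T3.nxt (T3.nxt (c (s₁ - 1)))) W δ := by
  obtain ⟨a1, a2, a3⟩ := hW.o_corners
  have hno : ∀ g, ¬ T3.InFace (T3.nxt (T3.nxt (c (s₁ - 1)))) g →
      ¬ T3.InFace (c (s₁ - 1)) g := by
    intro g h1 h2
    exact h1 (inFace_trans (inFace_symm (Or.inr (Or.inr rfl))) h2)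
  refine ⟨?_, ?_, ?_⟩
  · intro g hg ho h
    rw [T3.src_nxt2, hW.apex3 a3] at h
    refine hW.at_arc hg (hno g ho) h (Q := fun v => W - δ ≤ (pos v).re ∧ (pos v).re ≤ W + δ ∧
      -δ ≤ (pos v).im ∧ (pos v).im ≤ W + δ) fun i hi => ?_
    rcases hi with ⟨h1, -⟩ | ⟨-, h1, h2⟩ | ⟨h1, -⟩
    · exact absurd h1 (by decide)
    · exact hp.2.1 i h1 h2
    · exact absurd h1 (by decide)
  · intro g hg ho h
    rw [T3.tgt_nxt2, hW.src3 a1] at h
    refine hW.at_arc hg (hno g ho) h (Q := fun v => -δ ≤ (pos v).re ∧ (pos v).re ≤ W + δ ∧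
      -δ ≤ (pos v).im ∧ (pos v).im ≤ δ) fun i hi => ?_
    rcases hi with ⟨-, h1⟩ | ⟨h1, -⟩ | ⟨h1, -⟩
    · exact hp.1 i h1
    · exact absurd h1 (by decide)
    · exact absurd h1 (by decide)
  · intro g hg ho h
    rw [T3.apex_nxt2, hW.tgt3 a2] at h
    refine hW.at_arc hg (hno g ho) h (Q := fun v => (pos v).re ≤ W + δ ∧
      (((pos v).re ≤ δ ∧ -δ ≤ (pos v).im) ∨ (W - δ ≤ (pos v).im ∧ (pos v).re ≤ W + δ)))
      fun i hi => ?_
    rcases hi with ⟨h1, -⟩ | ⟨h1, -⟩ | ⟨-, h1, h2⟩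
    · exact absurd h1 (by decide)
    · exact absurd h1 (by decide)
    · obtain ⟨b1, b2, b3⟩ := hp.2.2 i h1 h2
      exact ⟨b1, b3.elim (fun h => Or.inl ⟨h, b2⟩) fun h => Or.inr ⟨h, b1⟩⟩

theorem sqPos' {pos : V → ℂ} {W δ : ℝ} (hp : ArcNeg T c n s₁ s₂ pos W δ) :
    SqPos' T3 (fun d => pos (T.src d)) (T3.nxt (T3.nxt (c (s₁ - 1)))) W δ := by
  obtain ⟨a1, a2, a3⟩ := hW.o_corners
  have hno : ∀ g, ¬ T3.InFace (T3.nxt (T3.nxt (c (s₁ - 1)))) g →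
      ¬ T3.InFace (c (s₁ - 1)) g := by
    intro g h1 h2
    exact h1 (inFace_trans (inFace_symm (Or.inr (Or.inr rfl))) h2)
  refine ⟨?_, ?_, ?_⟩
  · intro g hg ho h
    rw [T3.src_nxt2, hW.apex3 a3] at h
    refine hW.at_arc hg (hno g ho) h (Q := fun v => -δ ≤ (pos v).re ∧ (pos v).re ≤ W + δ ∧
      -δ ≤ (pos v).im ∧ (pos v).im ≤ δ) fun i hi => ?_
    rcases hi with ⟨h1, -⟩ | ⟨-, h1, h2⟩ | ⟨h1, -⟩
    · exact absurd h1 (by decide)
    · exact hp.2.1 i h1 h2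
    · exact absurd h1 (by decide)
  · intro g hg ho h
    rw [T3.tgt_nxt2, hW.src3 a1] at h
    refine hW.at_arc hg (hno g ho) h (Q := fun v => W - δ ≤ (pos v).re ∧ (pos v).re ≤ W + δ ∧
      -δ ≤ (pos v).im ∧ (pos v).im ≤ W + δ) fun i hi => ?_
    rcases hi with ⟨-, h1⟩ | ⟨h1, -⟩ | ⟨h1, -⟩
    · exact hp.1 i h1
    · exact absurd h1 (by decide)
    · exact absurd h1 (by decide)
  · intro g hg ho h
    rw [T3.apex_nxt2, hW.tgt3 a2] at h
    refine hW.at_arc hg (hno g ho) h (Q := fun v => -δ ≤ (pos v).im ∧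
      (((pos v).re ≤ δ ∧ -δ ≤ (pos v).im) ∨ (W - δ ≤ (pos v).im ∧ (pos v).re ≤ W + δ)))
      fun i hi => ?_
    rcases hi with ⟨h1, -⟩ | ⟨h1, -⟩ | ⟨-, h1, h2⟩
    · exact absurd h1 (by decide)
    · exact absurd h1 (by decide)
    · obtain ⟨b1, b2, b3⟩ := hp.2.2 i h1 h2
      exact ⟨b2, b3.elim (fun h => Or.inl ⟨h, b2⟩) fun h => Or.inr ⟨h, b1⟩⟩

theorem freePos2 (pos : V → ℂ) :
    FreePos T3 (fun d => pos (T.src d)) (T3.nxt (T3.nxt (c (s₁ - 1)))) :=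
  freePos_nxt T3 (freePos_nxt T3 (hW.freePos pos))

/-- **Calibration along an explored loop**, positive orientation. -/
theorem cal3 [Fintype V3] [Fintype D] {pos : V → ℂ} {W δ : ℝ} (hδ : 0 ≤ δ) (hW0 : 0 ≤ W)
    (hp : ArcPos T c n s₁ s₂ pos W δ) {τ : ℂ} (hτ : τ ^ 2 + τ + 1 = 0) (hi : 0 < τ.im) {r : ℝ}
    (hr : 0 ≤ r) {ε : ℝ}
    (hbad : 4 * (pr fun σ => ∃ g, T3.Rel σ (T3.nxt (c (s₁ - 1))) g ∧ g ≠ T3.nxt (c (s₁ - 1)) ∧
      T3.src g = lab 1 ∧ (pos (T.src g)).re < r) ≤ ε)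
    {Θ : D → ℂ} (hΘ : ∀ d, Θ (T3.nxt d) = τ ^ 2 * Θ d) (hΘo : Θ (c (s₁ - 1)) = 0) {z : ℂ} {ε' : ℝ}
    (h : ∀ q, T3.InFace (c (s₁ - 1)) q →
      4 * (ex fun σ => ‖T3.cls σ q Θ - z * ds T3 (fun d => pos (T.src d)) σ q‖) ≤ ε') :
    ‖z‖ * ((1 - ε) * (r / 2) - 10 * δ) ≤ 3 * ε' := by
  set o := c (s₁ - 1) with ho
  obtain ⟨a1, a2, a3⟩ := hW.o_corners
  have h1 : T3.nxt (T3.nxt (T3.nxt (T3.nxt o))) = T3.nxt o := by rw [T3.nxt3]
  refine cal T3 hW.planar3 (o := T3.nxt (T3.nxt o)) hW.good_o.nxt.nxt (hW.freePos2 pos) hδ hW0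
    (hW.sqPos hp) hτ hi hr (ε := ε) ?_ hΘ ?_ (c := z) (ε' := ε') ?_ ?_ ?_
  · rw [h1, T3.tgt_nxt2, hW.src3 a1]
    exact hbad
  · rw [hΘ, hΘ, hΘo, mul_zero, mul_zero]
  · exact EE_sub_md_le T3 (h _ (Or.inr (Or.inr rfl)))
  · rw [T3.nxt3]
    exact EE_sub_md_le T3 (h _ (Or.inl rfl))
  · rw [h1]
    exact EE_sub_md_le T3 (h _ (Or.inr (Or.inl rfl)))

/-- **Calibration along an explored loop**, negative orientation. -/
theorem cal3' [Fintype V3] [Fintype D] {pos : V → ℂ} {W δ : ℝ} (hδ : 0 ≤ δ) (hW0 : 0 ≤ W)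
    (hp : ArcNeg T c n s₁ s₂ pos W δ) {τ : ℂ} (hτ : τ ^ 2 + τ + 1 = 0) (hi : τ.im < 0) {r : ℝ}
    (hr : 0 ≤ r) {ε : ℝ}
    (hbad : 4 * (pr fun σ => ∃ g, T3.Rel σ (T3.nxt (c (s₁ - 1))) g ∧ g ≠ T3.nxt (c (s₁ - 1)) ∧
      T3.src g = lab 1 ∧ W - r < (pos (T.src g)).im) ≤ ε)
    {Θ : D → ℂ} (hΘ : ∀ d, Θ (T3.nxt d) = τ ^ 2 * Θ d) (hΘo : Θ (c (s₁ - 1)) = 0) {z : ℂ} {ε' : ℝ}
    (h : ∀ q, T3.InFace (c (s₁ - 1)) q →
      4 * (ex fun σ => ‖T3.cls σ q Θ - z * ds T3 (fun d => pos (T.src d)) σ q‖) ≤ ε') :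
    ‖z‖ * ((1 - ε) * (r / 2) - 10 * δ) ≤ 3 * ε' := by
  set o := c (s₁ - 1) with ho
  obtain ⟨a1, a2, a3⟩ := hW.o_corners
  have h1 : T3.nxt (T3.nxt (T3.nxt (T3.nxt o))) = T3.nxt o := by rw [T3.nxt3]
  refine cal' T3 hW.planar3 (o := T3.nxt (T3.nxt o)) hW.good_o.nxt.nxt (hW.freePos2 pos) hδ hW0
    (hW.sqPos' hp) hτ hi hr (ε := ε) ?_ hΘ ?_ (c := z) (ε' := ε') ?_ ?_ ?_
  · rw [h1, T3.tgt_nxt2, hW.src3 a1]
    exact hbad
  · rw [hΘ, hΘ, hΘo, mul_zero, mul_zero]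
  · exact EE_sub_md_le T3 (h _ (Or.inr (Or.inr rfl)))
  · rw [T3.nxt3]
    exact EE_sub_md_le T3 (h _ (Or.inl rfl))
  · rw [h1]
    exact EE_sub_md_le T3 (h _ (Or.inr (Or.inl rfl)))

end W3

end Vale.Agent.P148.R2.H251
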