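import Vale.Agent.P148.R2.H251.W3d

/-!
# P148, row CAL: closing the class of the frozen face in the plane

`Path3` gives the class of a dart `q` of the frozen face in the three-class world: a path
`f 1, …, f (m-1)` from `src (c i₁)` to `src (c j₁)`.  If a real colouring `τ` of the plane has the
colours of the world on what the strand sees between `f 1` and `f (m-1)`, and makes `c k`
(`k` from `j₁` to `i₁`, cyclically) minority darts whose minority vertices are joined to `tgt (f 1)`,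
then the plane class of `f 1` consists of the path and of these darts of the loop.
-/

open Function
open Vale.Agent.P148.R2.H258 Vale.Agent.P148.R2.H258.Tri Vale.Agent.P148.R2.H659
  Vale.Agent.P148.R2.H871 Vale.Agent.P148.R2.H953

namespace Vale.Agent.P148.R2.H251

variable {V V1 V3 D : Type*}
variable {T : Tri V D} {T3 : Tri V3 D} {π : V → V1} {O : V1} {w : V → Bool} {c : ℕ → D}
  {n s₁ s₂ : ℕ} {S : Fin 3 → Set V} {π3 : V → V3} {lab : Fin 3 → V3}

/-- The main cycle, periodically. -/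
def cy (c : ℕ → D) (n k : ℕ) : D := c (k % n)

theorem cy_next (hR : Ring T π O w c n) (k : ℕ) : T.src (cy c n (k + 1)) = T.apex (cy c n k) := by
  unfold cy
  have hn := hR.pos
  have h1 : k % n < n := Nat.mod_lt _ hn
  rcases Nat.lt_or_ge (k % n + 1) n with h2 | h2
  · have h3 : (k + 1) % n = k % n + 1 := by
      rw [Nat.add_mod]
      have h1n : 1 % n = 1 := Nat.mod_eq_of_lt (by omega)
      rw [h1n, Nat.mod_eq_of_lt h2]
    rw [h3]; exact hR.next _ h2
  · have h3 : k % n + 1 = n := by omega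
    have h4 : (k + 1) % n = 0 := by
      rw [Nat.add_mod]
      rcases Nat.lt_or_ge 1 n with h5 | h5
      · rw [Nat.mod_eq_of_lt h5, h3, Nat.mod_self]
      · have : n = 1 := by omega
        subst this
        exact Nat.mod_one _
    rw [h4, show k % n = n - 1 by omega]
    exact hR.close

theorem cy_inj (hR : Ring T π O w c n) {a k l : ℕ} (hk : a ≤ k) (hk' : k < a + n) (hl : a ≤ l)
    (hl' : l < a + n) (h : T.src (cy c n k) = T.src (cy c n l)) : k = l := by
  have hn := hR.pos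
  have h1 := hR.inj _ (Nat.mod_lt _ hn) _ (Nat.mod_lt _ hn) h
  have h2 : k ≡ l [MOD n] := h1
  rcases Nat.lt_or_ge k l with h3 | h3
  · have := (Nat.modEq_iff_dvd' h3.le).1 h2
    have := Nat.le_of_dvd (by omega) this
    omega
  · rcases Nat.lt_or_ge l k with h4 | h4
    · have := (Nat.modEq_iff_dvd' h4.le).1 h2.symm
      have := Nat.le_of_dvd (by omega) this
      omega
    · omega

/-- Number of steps from the index `j` to the index `i` along the cycle. -/
def gapL (n j i : ℕ) : ℕ := (i + n - j) % n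

theorem gapL_lt (hn : 0 < n) {i j : ℕ} : gapL n j i < n := Nat.mod_lt _ hn

theorem gapL_pos {i j : ℕ} (hi : i < n) (hj : j < n) (hij : i ≠ j) : 0 < gapL n j i := by
  unfold gapL
  rcases Nat.lt_or_ge i j with h | h
  · rw [Nat.mod_eq_of_lt (by omega)]; omega
  · have : i + n - j = (i - j) + n := by omega
    rw [this, Nat.add_mod_right, Nat.mod_eq_of_lt (by omega)]
    omega

theorem gapL_end {i j : ℕ} (hi : i < n) (hj : j < n) : (j + gapL n j i) % n = i := by
  unfold gapL
  rcases Nat.lt_or_ge i j with h | h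
  · rw [Nat.mod_eq_of_lt (show i + n - j < n by omega)]
    have : j + (i + n - j) = i + n := by omega
    rw [this, Nat.add_mod_right, Nat.mod_eq_of_lt hi]
  · have h1 : i + n - j = (i - j) + n := by omega
    rw [h1, Nat.add_mod_right, Nat.mod_eq_of_lt (show i - j < n by omega)]
    have h2 : j + (i - j) = i := by omega
    rw [h2, Nat.mod_eq_of_lt hi]

/-- The strands of the world and of the plane agree as long as the colours seen agree. -/
theorem st_iter_eq (hC : Contr T T3 π3) {σ : V3 → Bool} {τ : V → Bool} {d : D} (hb : T3.Bi σ d)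
    {K : ℕ} (hag : ∀ k ≤ K, τ (T.src ((T3.st σ)^[k] d)) = σ (T3.src ((T3.st σ)^[k] d)) ∧
      τ (T.tgt ((T3.st σ)^[k] d)) = σ (T3.tgt ((T3.st σ)^[k] d))) {k : ℕ} (hk : k ≤ K) :
    (T.st τ)^[k] d = (T3.st σ)^[k] d := by
  induction k with
  | zero => rfl
  | succ k ih =>
    have h0 := ih (by omega)
    rw [iterate_succ', comp_apply, h0, iterate_succ', comp_apply]
    set g := (T3.st σ)^[k] d with hg
    have hbg : T3.Bi σ g := (T3.bi_iter k).2 hb
    have a1 := hag k (by omega)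
    rw [← hg] at a1
    have a2 := hag (k + 1) hk
    rw [iterate_succ', comp_apply, ← hg] at a2
    have hbT : T.Bi τ g := by
      unfold Tri.Bi
      rw [a1.1, a1.2]; exact hbg
    by_cases hm : T3.Mi σ g
    · have e1 : T3.st σ g = T.rev (T.nxt g) := by rw [T3.st_mi hm, hC.nxt, hC.rev]
      have e2 : τ (T.apex g) = σ (T3.apex g) := by
        have h1 := a2.1
        rw [T3.src_st_mi hm, e1, T.src_rev, T.tgt_nxt] at h1
        exact h1
      have hmT : T.Mi τ g := ⟨hbT, by rw [e2, a1.1]; exact hm.2⟩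
      rw [T.st_mi hmT, e1]
    · have e1 : T3.st σ g = T.rev (T.nxt (T.nxt g)) := by
        rw [T3.st_nmi hbg hm, hC.nxt, hC.nxt, hC.rev]
      have e2 : τ (T.apex g) = σ (T3.apex g) := by
        have h1 := a2.2
        rw [T3.tgt_st_nmi hbg hm, e1, T.tgt_rev, T.src_nxt2] at h1
        exact h1
      have hmT : ¬ T.Mi τ g := by
        intro hh
        apply hm
        refine ⟨hbg, ?_⟩
        rw [← e2, hh.2, a1.1]
      rw [T.st_nmi hbT hmT, e1]

namespace W3

variable (hW : W3 T T3 π O w c n s₁ s₂ S π3 lab)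
include hW

theorem arcs_ne {α β : Fin 3} {i j : ℕ} (hαβ : α ≠ β) (hi : InArc s₁ s₂ n β i)
    (hj : InArc s₁ s₂ n α j) : i ≠ j := by
  rintro rfl
  exact hαβ (hW.cls_unique (hW.arc _ _ hj) (hW.arc _ _ hi))

open Classical in
/-- **Closing in the plane.** -/
theorem close3 [Fintype D] {σ : V3 → Bool} {q : D} {α β : Fin 3} (hαβ : α ≠ β) {m : ℕ} {f : ℕ → D}
    {j₁ i₁ : ℕ} (hp : Path3 T T3 π O c n s₁ s₂ σ q α β m f j₁ i₁) {τ : V → Bool} {K : ℕ}
    (hK : ∀ i, 1 ≤ i → i < m → ∃ k ≤ K, (T3.st σ)^[k] (f 1) = f i)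
    (hag : ∀ k ≤ K, τ (T.src ((T3.st σ)^[k] (f 1))) = σ (T3.src ((T3.st σ)^[k] (f 1))) ∧
      τ (T.tgt ((T3.st σ)^[k] (f 1))) = σ (T3.tgt ((T3.st σ)^[k] (f 1))))
    (hy : τ (T.src (c j₁)) = σ (T3.src q))
    (hH : ∀ k < gapL n j₁ i₁, T.Mi τ (cy c n (j₁ + k)) ∧ τ (T.src (cy c n (j₁ + k))) = σ (T3.src q) ∧
      ∃ l, T.Walk (T.tgt (f 1)) (T.tgt (cy c n (j₁ + k))) l ∧
        ∀ e ∈ l, τ (T.src e) = τ (T.tgt (f 1)) ∧ τ (T.tgt e) = τ (T.tgt (f 1)))
    (Θ : D → ℂ) :
    T.Mi τ (f 1) ∧ (∀ g, T.Rel τ (f 1) g ↔ (∃ i, 1 ≤ i ∧ i < m ∧ g = f i) ∨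
      ∃ k < gapL n j₁ i₁, g = cy c n (j₁ + k)) ∧
    T.cls τ (f 1) Θ = ∑ i ∈ Finset.Ico 1 m, Θ (f i) +
      ∑ k ∈ Finset.range (gapL n j₁ i₁), Θ (cy c n (j₁ + k)) := by
  have hn := hW.ring.pos
  have h2 := hp.two
  set L := gapL n j₁ i₁ with hL
  have hL0 : 0 < L := gapL_pos hp.hi hp.hj (hW.arcs_ne hαβ hp.ai hp.aj)
  have hLn : L < n := gapL_lt hn
  have hb1 : T3.Bi σ (f 1) := (hp.mi3 1 (by omega)).bi
  have hit : ∀ k ≤ K, (T.st τ)^[k] (f 1) = (T3.st σ)^[k] (f 1) := fun k hk =>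
    st_iter_eq hW.contr hb1 hag hk
  have hcol3 : ∀ i < m, σ (T3.src (f i)) = σ (T3.src q) := fun i hi =>
    (T3.rel_col ((hp.rel (f i)).2 ⟨i, hi, rfl⟩)).1
  -- colours of the corners of the members of the path
  have hsrc : ∀ i, 1 ≤ i → i < m → τ (T.src (f i)) = σ (T3.src (f i)) ∧
      τ (T.tgt (f i)) = σ (T3.tgt (f i)) := by
    intro i hi1 hi2
    obtain ⟨k, hk, hk'⟩ := hK i hi1 hi2
    have := hag k hk
    rwa [hk'] at this
  have hapex : ∀ i, 1 ≤ i → i < m → τ (T.apex (f i)) = σ (T3.apex (f i)) := by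
    intro i hi1 hi2
    rcases Nat.lt_or_ge (i + 1) m with h3 | h3
    · rw [← hp.next i hi1 h3, ← hp.next3 i hi2]
      exact (hsrc (i + 1) (by omega) h3).1
    · have h4 : i = m - 1 := by omega
      have h5 : T3.apex (f i) = T3.src q := by
        rw [← hp.next3 i hi2, show i + 1 = m by omega, hp.last3]
      rw [h5, h4, hp.stop, hy]
  have hmi : ∀ i, 1 ≤ i → i < m → T.Mi τ (f i) := by
    intro i hi1 hi2
    obtain ⟨a1, a2⟩ := hsrc i hi1 hi2
    have a3 := hapex i hi1 hi2
    have a4 := hp.mi3 i hi2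
    exact ⟨by rw [a1, a2]; exact a4.1, by rw [a3, a1]; exact a4.2⟩
  -- the cycle
  set g : ℕ → D := fun i => if i < m - 1 then f (i + 1) else
    if i < m - 1 + L then cy c n (j₁ + (i - (m - 1))) else f 1 with hg
  have g1 : ∀ i < m - 1, g i = f (i + 1) := fun i hi => by simp only [hg, if_pos hi]
  have g2 : ∀ k < L, g (m - 1 + k) = cy c n (j₁ + k) := by
    intro k hk
    simp only [hg]
    rw [if_neg (by omega), if_pos (by omega), show m - 1 + k - (m - 1) = k by omega]
  have g3 : g (m - 1 + L) = f 1 := by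
    simp only [hg]
    rw [if_neg (by omega), if_neg (by omega)]
  have g0 : g 0 = f 1 := g1 0 (by omega)
  have hsplit : ∀ i < m - 1 + L, (i < m - 1) ∨ ∃ k < L, i = m - 1 + k := by
    intro i hi
    rcases Nat.lt_or_ge i (m - 1) with h | h
    · exact Or.inl h
    · exact Or.inr ⟨i - (m - 1), by omega, by omega⟩
  have hfroz : ∀ k, π (T.src (cy c n k)) = O := fun k =>
    (hW.ring.fib (Nat.mod_lt _ hn)).1
  have hgs : ∀ i < m - 1 + L, T.src (g (i + 1)) = T.apex (g i) := by
    intro i hi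
    rcases hsplit i hi with h | ⟨k, hk, rfl⟩
    · rw [g1 i h]
      rcases Nat.lt_or_ge (i + 1) (m - 1) with h3 | h3
      · rw [g1 (i + 1) h3]
        exact hp.next (i + 1) (by omega) (by omega)
      · have h4 : i + 1 = m - 1 := by omega
        have h5 : g (i + 1) = cy c n (j₁ + 0) := by
          rw [h4]; exact g2 0 hL0
        rw [h5, h4, hp.stop]
        unfold cy
        rw [add_zero, Nat.mod_eq_of_lt hp.hj]
    · rw [g2 k hk, ← cy_next hW.ring]
      rcases Nat.lt_or_ge (k + 1) L with h3 | h3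
      · have := g2 (k + 1) h3
        rw [show m - 1 + k + 1 = m - 1 + (k + 1) by omega, this, add_assoc]
      · have h4 : k + 1 = L := by omega
        rw [show m - 1 + k + 1 = m - 1 + L by omega, g3, hp.start, add_assoc, h4]
        unfold cy
        rw [hL, gapL_end hp.hi hp.hj]
  have hx : ∀ k < L, T.src (f 1) ≠ T.src (cy c n (j₁ + k)) := by
    intro k hk h3
    have h4 : T.src (cy c n (j₁ + L)) = T.src (cy c n (j₁ + k)) := by
      rw [← h3, hp.start]
      unfold cy
      rw [hL, gapL_end hp.hi hp.hj]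
    have := cy_inj hW.ring (a := j₁) (by omega) (by omega) (by omega) (by omega) h4
    omega
  have hne : ∀ i, i < m - 1 → ∀ k < L, T.src (f (i + 1)) ≠ T.src (cy c n (j₁ + k)) := by
    intro i hi k hk h3
    rcases Nat.eq_zero_or_pos i with rfl | h4
    · exact hx k hk h3
    · exact hp.free (i + 1) (by omega) (by omega) (by rw [h3]; exact hfroz _)
  have hinj : ∀ i < m - 1 + L, ∀ k < m - 1 + L, T.src (g i) = T.src (g k) → i = k := by
    intro i hi k hk h3
    rcases hsplit i hi with h | ⟨a, ha, rfl⟩ <;> rcases hsplit k hk with h' | ⟨b, hb, rfl⟩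
    · rw [g1 i h, g1 k h'] at h3
      have := hp.inj _ _ (by omega) (by omega) (by omega) (by omega) h3
      omega
    · rw [g1 i h, g2 b hb] at h3
      exact absurd h3 (hne i h b hb)
    · rw [g2 a ha, g1 k h'] at h3
      exact absurd h3.symm (hne k h' a ha)
    · rw [g2 a ha, g2 b hb] at h3
      have := cy_inj hW.ring (a := j₁) (by omega) (by omega) (by omega) (by omega) h3
      omega
  have hgmi : ∀ i < m - 1 + L, T.Mi τ (g i) := by
    intro i hi
    rcases hsplit i hi with h | ⟨k, hk, rfl⟩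
    · rw [g1 i h]; exact hmi (i + 1) (by omega) (by omega)
    · rw [g2 k hk]; exact (hH k hk).1
  have hwk : ∀ i < m - 1 + L, ∃ l, T.Walk (T.tgt (g 0)) (T.tgt (g i)) l ∧
      ∀ e ∈ l, τ (T.src e) = τ (T.tgt (g 0)) ∧ τ (T.tgt e) = τ (T.tgt (g 0)) := by
    intro i hi
    rw [g0]
    rcases hsplit i hi with h | ⟨k, hk, rfl⟩
    · rw [g1 i h]
      obtain ⟨k, hk, hk'⟩ := hK (i + 1) (by omega) (by omega)
      refine ⟨T.rw' τ (f 1) k, ?_, ?_⟩
      · have := T.rw_walk (hmi 1 le_rfl (by omega)).bi k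
        rwa [hit k hk, hk'] at this
      · intro e he
        obtain ⟨a, -, ha, hb⟩ := T.rw_mem (hmi 1 le_rfl (by omega)).bi he
        rw [ha, hb]
        exact ⟨T.col_tgt_iter τ (f 1) a, T.col_tgt_iter τ (f 1) (a + 1)⟩
    · rw [g2 k hk]; exact (hH k hk).2.2
  have hrel : ∀ e, T.Rel τ (g 0) e ↔ ∃ i < m - 1 + L, e = g i :=
    T.cycle_class hW.planar (by omega) (by rw [g3, g0]) hgmi hgs hinj
      (by rw [g0]; exact fun h => hW.noloop (T.nxt (T.nxt (f 1))) (by
        rw [T.src_nxt2, T.tgt_nxt2]; exact h)) hwk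
  have hrel' : ∀ e, T.Rel τ (f 1) e ↔ (∃ i, 1 ≤ i ∧ i < m ∧ e = f i) ∨
      ∃ k < L, e = cy c n (j₁ + k) := by
    intro e
    rw [← g0, hrel]
    constructor
    · rintro ⟨i, hi, rfl⟩
      rcases hsplit i hi with h | ⟨k, hk, rfl⟩
      · exact Or.inl ⟨i + 1, by omega, by omega, g1 i h⟩
      · exact Or.inr ⟨k, hk, g2 k hk⟩
    · rintro (⟨i, h3, h4, rfl⟩ | ⟨k, hk, rfl⟩)
      · refine ⟨i - 1, by omega, ?_⟩
        rw [g1 (i - 1) (by omega), Nat.sub_add_cancel h3]
      · exact ⟨m - 1 + k, by omega, (g2 k hk).symm⟩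
  refine ⟨hmi 1 le_rfl (by omega), hrel', ?_⟩
  have hgi : ∀ i < m - 1 + L, ∀ k < m - 1 + L, g i = g k → i = k := fun i hi k hk hik =>
    hinj i hi k hk (by rw [hik])
  have h5 : T.cls τ (f 1) Θ = ∑ i ∈ Finset.range (m - 1 + L), Θ (g i) := by
    unfold Tri.cls
    rw [← Finset.sum_filter]
    have h6 : (Finset.univ.filter fun e : D => T.Rel τ e (f 1)) =
        (Finset.range (m - 1 + L)).image g := by
      ext e
      simp only [Finset.mem_filter, Finset.mem_univ, true_and, Finset.mem_image, Finset.mem_range]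
      constructor
      · intro h
        obtain ⟨i, hi, rfl⟩ := (hrel e).1 (by rw [g0]; exact T.rel_symm h)
        exact ⟨i, hi, rfl⟩
      · rintro ⟨i, hi, rfl⟩
        have := (hrel (g i)).2 ⟨i, hi, rfl⟩
        rw [g0] at this
        exact T.rel_symm this
    rw [h6, Finset.sum_image]
    intro i hi k hk hik
    exact hgi i (by simpa using hi) k (by simpa using hk) hik
  rw [h5, Finset.sum_range_add]
  congr 1
  · rw [Finset.sum_Ico_eq_sum_range]
    refine Finset.sum_congr rfl fun i hi => ?_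
    rw [Finset.mem_range] at hi
    rw [g1 i hi, add_comm]
  · refine Finset.sum_congr rfl fun k hk => ?_
    rw [Finset.mem_range] at hk
    rw [g2 k hk]

end W3

end Vale.Agent.P148.R2.H251
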